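import Vale.Agent.P216R.Basic

/-!
# P216R: metrics and smooth families of metrics, pull back, local criteria, local inverses
-/

open scoped Manifold ContDiff Topology ENNReal
open Set Filter

set_option maxSynthPendingDepth 3
set_option linter.unusedSectionVars false

noncomputable section

namespace Vale.Agent.P216R

open Vale.Agent.P219.RG

variable {E : Type} [NormedAddCommGroup E] [NormedSpace ℝ E]
  {M : Type} [TopologicalSpace M] [ChartedSpace E M]
  {N : Type} [TopologicalSpace N] [ChartedSpace E N]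

theorem Met.nonneg {g : Ten E M} {U : Set M} (h : Met g U) {x : M} (hx : x ∈ U) (v : E) :
    0 ≤ g x v v := nonneg_of_pos (h.pos x hx) v

theorem Met.mono {g : Ten E M} {U V : Set M} (h : Met g U) (hV : IsOpen V) (hVU : V ⊆ U) :
    Met g V :=
  ⟨hV, fun x hx => h.symm x (hVU hx), fun x hx => h.pos x (hVU hx),
    fun a => (h.smooth a).mono (dom_mono a hVU)⟩

theorem Met.congr {g g' : Ten E M} {U : Set M} (h : Met g U) (he : EqOn g' g U) : Met g' U :=
  ⟨h.isOpen, fun x hx => by rw [he hx]; exact h.symm x hx,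
    fun x hx => by rw [he hx]; exact h.pos x hx,
    fun a => (h.smooth a).congr fun u hu => comap_congr_right _ (he hu.2)⟩

theorem Met.smul {g : Ten E M} {U : Set M} (h : Met g U) {c : ℝ} (hc : 0 < c) : Met (c • g) U :=
  ⟨h.isOpen, fun x hx v w => by simp [h.symm x hx v w],
    fun x hx v hv => by simpa using mul_pos hc (h.pos x hx v hv),
    fun a => by rw [co_smul]; exact (h.smooth a).const_smul c⟩

theorem met_model {G : E → Bil E} {U : Set E} : Met G U ↔ IsMetricOn G U :=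
  ⟨fun h => ⟨h.isOpen, by simpa using h.smooth 0, h.symm, h.pos⟩,
    fun h => ⟨h.isOpen, h.symm, h.pos, fun a => by simpa using h.smooth⟩⟩

theorem Fam.met {g : ℝ → Ten E M} {I : Set ℝ} {U : Set M} (h : Fam g I U) {t : ℝ} (ht : t ∈ I) :
    Met (g t) U :=
  ⟨h.isOpen, h.symm t ht, h.pos t ht, fun a =>
    (h.smooth a).comp (f := fun u => (t, u)) (contDiffOn_const.prodMk contDiffOn_id)
      fun _ hu => mk_mem_prod ht hu⟩

theorem Met.fam {g : Ten E M} {U : Set M} (h : Met g U) (I : Set ℝ) : Fam (fun _ => g) I U :=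
  ⟨h.isOpen, fun _ _ => h.symm, fun _ _ => h.pos, fun a =>
    (h.smooth a).comp (f := fun p : ℝ × E => p.2) contDiffOn_snd fun _ hp => hp.2⟩

theorem Fam.mono {g : ℝ → Ten E M} {I J : Set ℝ} {U V : Set M} (h : Fam g I U) (hJ : J ⊆ I)
    (hV : IsOpen V) (hVU : V ⊆ U) : Fam g J V :=
  ⟨hV, fun t ht x hx => h.symm t (hJ ht) x (hVU hx), fun t ht x hx => h.pos t (hJ ht) x (hVU hx),
    fun a => (h.smooth a).mono (prod_mono hJ (dom_mono a hVU))⟩

theorem Fam.congr {g g' : ℝ → Ten E M} {I : Set ℝ} {U : Set M} (h : Fam g I U)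
    (he : ∀ t ∈ I, EqOn (g' t) (g t) U) : Fam g' I U :=
  ⟨h.isOpen, fun t ht x hx => by rw [he t ht hx]; exact h.symm t ht x hx,
    fun t ht x hx => by rw [he t ht hx]; exact h.pos t ht x hx,
    fun a => (h.smooth a).congr fun p hp => comap_congr_right _ (he _ hp.1 hp.2.2)⟩

/-- rescaling and change of the time variable -/
theorem Fam.resc {g : ℝ → Ten E M} {I J : Set ℝ} {U : Set M} (h : Fam g I U) {c : ℝ} (hc : 0 < c)
    {θ : ℝ → ℝ} (hθ : ContDiffOn ℝ ∞ θ J) (hm : MapsTo θ J I) :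
    Fam (fun s => c • g (θ s)) J U :=
  ⟨h.isOpen, fun t ht x hx v w => by simp [h.symm _ (hm ht) x hx v w],
    fun t ht x hx v hv => by simpa using mul_pos hc (h.pos _ (hm ht) x hx v hv), fun a => by
      simp only [co_smul]
      exact ((h.smooth a).comp (f := fun p : ℝ × E => (θ p.1, p.2))
        ((hθ.comp contDiffOn_fst fun _ hp => hp.1).prodMk contDiffOn_snd)
        fun _ hp => mk_mem_prod (hm hp.1) hp.2).const_smul c⟩

theorem fam_model {G : ℝ → E → Bil E} {I : Set ℝ} {U : Set E} (hU : IsOpen U)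
    (hs : ∀ t ∈ I, ∀ x ∈ U, ∀ v w, G t x v w = G t x w v)
    (hp : ∀ t ∈ I, ∀ x ∈ U, ∀ v, v ≠ 0 → 0 < G t x v v)
    (h : ContDiffOn ℝ ∞ (fun p : ℝ × E => G p.1 p.2) (I ×ˢ U)) : Fam G I U :=
  ⟨hU, hs, hp, fun a => by simpa using h⟩

theorem Fam.contDiffOn_model {G : ℝ → E → Bil E} {I : Set ℝ} {U : Set E} (h : Fam G I U) :
    ContDiffOn ℝ ∞ (fun p : ℝ × E => G p.1 p.2) (I ×ˢ U) := by simpa using h.smooth 0

theorem contDiffWithinAt_univ_of {F X : Type} [NormedAddCommGroup F] [NormedSpace ℝ F]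
    [NormedAddCommGroup X] [NormedSpace ℝ X] {f : F × E → X} {s : Set F} {V : Set E}
    (h : ContDiffOn ℝ ∞ f (s ×ˢ V)) (hV : IsOpen V) {p : F} {y : E} (hp : p ∈ s) (hy : y ∈ V) :
    ContDiffWithinAt ℝ ∞ f (s ×ˢ univ) (p, y) := by
  refine (h (p, y) (mk_mem_prod hp hy)).mono_of_mem_nhdsWithin ?_
  refine mem_nhdsWithin.2 ⟨univ ×ˢ V, isOpen_univ.prod hV, mk_mem_prod (mem_univ _) hy, ?_⟩
  exact fun q hq => mk_mem_prod hq.2.1 hq.1.2

variable [IsManifold 𝓘(ℝ, E) ∞ M]

theorem Met.isMetricOn {g : Ten E M} {U : Set M} (h : Met g U) (a : M) :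
    IsMetricOn (co g a) (dom E a U) :=
  ⟨isOpen_dom a h.isOpen, h.smooth a, fun _ hu _ _ => h.symm _ hu.2 _ _, fun u hu _ hv =>
    h.pos _ hu.2 _ fun h0 => hv ((ld_symm a).inj u hu.1 (h0.trans (map_zero _).symm))⟩

theorem Fam.contDiffWithinAt {g : ℝ → Ten E M} {I : Set ℝ} {U : Set M} (h : Fam g I U)
    {ψ : E → M} {y : E} (hψ : SM E ψ y) (hy : ψ y ∈ U) {t : ℝ} (ht : t ∈ I) :
    ContDiffWithinAt ℝ ∞ (fun p : ℝ × E => comap ψ (g p.1) p.2) (I ×ˢ univ) (t, y) := by
  have ha := mem_chart_source E (ψ y)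
  have h1 := contDiffWithinAt_comap (G := fun s => co (g s) (ψ y))
    (contDiffWithinAt_univ_of (h.smooth (ψ y)) (isOpen_dom _ h.isOpen) ht (mem_dom ha hy))
    (contDiffAt_chart_comp hψ ha)
  have h2 : ∀ᶠ z in 𝓝 y, ∀ s, comap ψ (g s) z = comap (chartAt E (ψ y) ∘ ψ) (co (g s) (ψ y)) z := by
    filter_upwards [hψ.eventually,
      hψ.continuousAt.eventually ((chartAt E (ψ y)).open_source.mem_nhds ha)] with z h1 h2 s
    exact comap_eq _ h1 h2
  refine h1.congr_of_eventuallyEq ?_ (h2.self_of_nhds t)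
  exact mem_nhdsWithin_of_mem_nhds
    (((continuous_snd.tendsto (t, y)).eventually h2).mono fun q hq => hq q.1)

theorem Fam.contDiffOn {g : ℝ → Ten E M} {I : Set ℝ} {U : Set M} (h : Fam g I U)
    {ψ : E → M} {V : Set E} (hψ : ∀ y ∈ V, SM E ψ y) (hy : MapsTo ψ V U) :
    ContDiffOn ℝ ∞ (fun p : ℝ × E => comap ψ (g p.1) p.2) (I ×ˢ V) := fun _ hp =>
  (h.contDiffWithinAt (hψ _ hp.2) (hy hp.2) hp.1).mono (prod_mono Subset.rfl (subset_univ _))

theorem Met.contDiffAt {g : Ten E M} {U : Set M} (h : Met g U) {ψ : E → M} {y : E}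
    (hψ : SM E ψ y) (hy : ψ y ∈ U) : ContDiffAt ℝ ∞ (comap ψ g) y := by
  have h1 := (h.fam univ).contDiffWithinAt hψ hy (mem_univ 0)
  rw [univ_prod_univ, contDiffWithinAt_univ] at h1
  exact h1.comp y (f := fun y => ((0 : ℝ), y)) (contDiffAt_const.prodMk contDiffAt_id)

variable [IsManifold 𝓘(ℝ, E) ∞ N]

theorem co_comap (g : Ten E M) {f : N → M} {a : N} {u : E} (hu : u ∈ (chartAt E a).target)
    (hf : MD E f ((chartAt E a).symm u)) :
    co (comap f g) a u = comap (f ∘ (chartAt E a).symm) g u :=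
  comap_comp g hf (sm_symm hu).md

theorem Fam.comap {g : ℝ → Ten E M} {I : Set ℝ} {U : Set M} (h : Fam g I U) {f : N → M}
    {V : Set N} (hf : LD E f V) (hm : MapsTo f V U) : Fam (fun t => comap f (g t)) I V :=
  ⟨hf.isOpen, fun t ht _ hx _ _ => h.symm t ht _ (hm hx) _ _, fun t ht x hx _ hv =>
    h.pos t ht _ (hm hx) _ fun h0 => hv (hf.inj x hx (h0.trans (map_zero _).symm)), fun a =>
      (h.contDiffOn (ψ := f ∘ (chartAt E a).symm)
        (fun y hy => (hf.sm hy.2).comp y (sm_symm hy.1)) fun _ hy => hm hy.2).congr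
        fun _ hp => co_comap _ hp.2.1 (hf.md hp.2.2)⟩

theorem Met.comap {g : Ten E M} {U : Set M} (h : Met g U) {f : N → M} {V : Set N}
    (hf : LD E f V) (hm : MapsTo f V U) : Met (comap f g) V :=
  ((h.fam univ).comap hf hm).met (mem_univ 0)

theorem Met.isMetricOn_comap {g : Ten E M} {U : Set M} (h : Met g U) {ψ : E → M} {V : Set E}
    (hf : LD E ψ V) (hm : MapsTo ψ V U) : IsMetricOn (P216R.comap ψ g) V :=
  met_model.1 (h.comap hf hm)

/-! ### local inverses -/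

variable [FiniteDimensional ℝ E]

theorem exists_inv_model {τ : E → E} {y : E} (h : ContDiffAt ℝ ∞ τ y)
    (hi : Function.Injective (fderiv ℝ τ y)) :
    ∃ σ : E → E, ContDiffAt ℝ ∞ σ (τ y) ∧ (∀ᶠ z in 𝓝 y, σ (τ z) = z) ∧
      ∀ᶠ z in 𝓝 (τ y), τ (σ z) = z := by
  have : CompleteSpace E := FiniteDimensional.complete ℝ E
  let L : E ≃L[ℝ] E := (LinearEquiv.ofInjectiveEndo (fderiv ℝ τ y : E →ₗ[ℝ] E)
    hi).toContinuousLinearEquiv
  have hd : HasFDerivAt τ (L : E →L[ℝ] E) y := by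
    have : (L : E →L[ℝ] E) = fderiv ℝ τ y := by ext v; rfl
    rw [this]; exact (h.differentiableAt (by simp)).hasFDerivAt
  have hs := h.hasStrictFDerivAt' hd (by simp)
  exact ⟨h.localInverse hd (by simp), h.to_localInverse hd (by simp), hs.eventually_left_inverse,
    hs.eventually_right_inverse⟩

/-- inverse function theorem on manifolds -/
theorem exists_inv {f : N → M} {x : N} (h : SM E f x) (hi : Function.Injective (md E f x)) :
    ∃ k : M → N, SM E k (f x) ∧ (∀ᶠ z in 𝓝 x, k (f z) = z) ∧ ∀ᶠ z in 𝓝 (f x), f (k z) = z := by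
  have ha := mem_chart_source E (f x)
  have hb := mem_chart_source E x
  have h0 : SM E f ((chartAt E x).symm (pt E x)) := by rwa [symm_pt]
  have h1 : SM E (f ∘ (chartAt E x).symm) (pt E x) := h0.comp _ (sm_symm (pt_mem x))
  have e1 : (f ∘ (chartAt E x).symm) (pt E x) = f x := by simp [symm_pt]
  have h2 := contDiffAt_chart_comp (a := f x) h1 (by rwa [e1])
  have h3 : fderiv ℝ (chartAt E (f x) ∘ f ∘ (chartAt E x).symm) (pt E x) = md E f x := by
    rw [← md_model, md_comp (by rw [e1]; exact (sm_chart ha).md) h1.md, e1, md_chart_self,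
      md_comp h0.md (sm_symm (pt_mem x)).md, md_symm_pt, symm_pt]
    simp
  obtain ⟨σ, s1, s2, s3⟩ := exists_inv_model h2 (by rwa [h3])
  have e2 : (chartAt E (f x) ∘ f ∘ (chartAt E x).symm) (pt E x) = pt E (f x) := by
    simp [pt]
  rw [e2] at s1 s3
  have e3 : σ (pt E (f x)) = pt E x := by rw [← e2]; exact s2.self_of_nhds
  have c1 : Tendsto (chartAt E x) (𝓝 x) (𝓝 (pt E x)) := (chartAt E x).continuousAt hb
  have c2 : Tendsto (chartAt E (f x)) (𝓝 (f x)) (𝓝 (pt E (f x))) :=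
    (chartAt E (f x)).continuousAt ha
  refine ⟨(chartAt E x).symm ∘ σ ∘ chartAt E (f x), ?_, ?_, ?_⟩
  · refine ContMDiffAt.comp _ ?_ (ContMDiffAt.comp _ s1.contMDiffAt (sm_chart ha))
    exact sm_symm (show σ (pt E (f x)) ∈ _ from e3 ▸ pt_mem x)
  · filter_upwards [c1.eventually s2, (chartAt E x).open_source.mem_nhds hb] with z h1 h2
    simp only [Function.comp, (chartAt E x).left_inv h2] at h1 ⊢
    rw [h1, (chartAt E x).left_inv h2]
  · have c3 : Tendsto (f ∘ (chartAt E x).symm ∘ σ ∘ chartAt E (f x)) (𝓝 (f x)) (𝓝 (f x)) := by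
      have := s1.continuousAt.tendsto
      rw [e3] at this
      exact h.continuousAt.tendsto.comp ((tendsto_symm_pt x).comp (this.comp c2))
    filter_upwards [c2.eventually s3, (chartAt E (f x)).open_source.mem_nhds ha,
      c3.eventually ((chartAt E (f x)).open_source.mem_nhds ha)] with z h1 h2 h3
    exact (chartAt E (f x)).injOn h3 h2 h1

theorem LD.map_nhds {f : N → M} {V : Set N} (h : LD E f V) {x : N} (hx : x ∈ V) :
    map f (𝓝 x) = 𝓝 (f x) := by
  obtain ⟨k, k1, k2, k3⟩ := exists_inv (h.sm hx) (h.inj x hx)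
  refine le_antisymm (h.continuousAt hx) fun s hs => ?_
  have c : Tendsto k (𝓝 (f x)) (𝓝 x) := by
    have := k1.continuousAt.tendsto
    rwa [k2.self_of_nhds] at this
  filter_upwards [c.eventually hs, k3] with z h1 h2
  rwa [← h2]

theorem LD.isOpen_image {f : N → M} {V W : Set N} (h : LD E f V) (hW : IsOpen W) (hWV : W ⊆ V) :
    IsOpen (f '' W) := by
  refine isOpen_iff_mem_nhds.2 ?_
  rintro _ ⟨x, hx, rfl⟩
  rw [← h.map_nhds (hWV hx)]
  exact image_mem_map (hW.mem_nhds hx)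

/-- an injective local diffeomorphism has a smooth inverse on its image -/
theorem LD.inverse [Nonempty N] {f : N → M} {V : Set N} (h : LD E f V) (hi : InjOn f V) :
    LD E (Function.invFunOn f V) (f '' V) := by
  have hs : ∀ x ∈ V, SM E (Function.invFunOn f V) (f x) := by
    intro x hx
    obtain ⟨k, k1, k2, k3⟩ := exists_inv (h.sm hx) (h.inj x hx)
    refine k1.congr_of_eventuallyEq ?_
    rw [← h.map_nhds hx]
    refine eventually_map.2 ?_
    filter_upwards [k2, h.isOpen.mem_nhds hx] with z h1 h2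
    exact (hi.leftInvOn_invFunOn h2).trans h1.symm
  refine ld_of_left_inv (h.isOpen_image h.isOpen Subset.rfl) ?_ (k := f) ?_ ?_
  · rintro _ ⟨x, hx, rfl⟩; exact (hs x hx).contMDiffWithinAt
  · rintro _ ⟨x, hx, rfl⟩; rw [hi.leftInvOn_invFunOn hx]; exact h.md hx
  · rintro _ ⟨x, hx, rfl⟩; rw [hi.leftInvOn_invFunOn hx]

/-- local criterion: smoothness may be tested in any local parametrisations -/
theorem fam_of_local {g : ℝ → Ten E M} {I : Set ℝ} {U : Set M} (hU : IsOpen U)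
    (hs : ∀ t ∈ I, ∀ x ∈ U, ∀ v w, g t x v w = g t x w v)
    (hp : ∀ t ∈ I, ∀ x ∈ U, ∀ v, v ≠ 0 → 0 < g t x v v)
    (h : ∀ t ∈ I, ∀ x ∈ U, ∃ (ψ : E → M) (y : E), SM E ψ y ∧ Function.Injective (md E ψ y) ∧
      ψ y = x ∧ ContDiffWithinAt ℝ ∞ (fun p : ℝ × E => comap ψ (g p.1) p.2) (I ×ˢ univ) (t, y)) :
    Fam g I U := by
  refine ⟨hU, hs, hp, fun a p hp => ?_⟩
  obtain ⟨ψ, y, h1, h2, h3, h4⟩ := h _ hp.1 _ hp.2.2
  obtain ⟨k, k1, k2, k3⟩ := exists_inv h1 h2
  rw [h3] at k1 k3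
  have s1 : SM E (k ∘ (chartAt E a).symm) p.2 := k1.comp _ (sm_symm hp.2.1)
  have e1 : (k ∘ (chartAt E a).symm) p.2 = y := by
    simp only [Function.comp, ← h3]; exact k2.self_of_nhds
  have h5 := contDiffWithinAt_comap (G := fun s => comap ψ (g s)) (by rw [e1]; exact h4)
    s1.contDiffAt
  have c1 : Tendsto (k ∘ (chartAt E a).symm) (𝓝 p.2) (𝓝 y) := e1 ▸ s1.continuousAt.tendsto
  have h6 : ∀ᶠ z in 𝓝 p.2, ∀ s, co (g s) a z =
      comap (k ∘ (chartAt E a).symm) (comap ψ (g s)) z := by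
    filter_upwards [s1.eventually, c1.eventually h1.eventually,
      ((tendsto_symm hp.2.1).eventually k3).eventually_nhds] with z z1 z2 z3 s
    rw [comap_comp _ z2 z1]
    exact comap_congr _ (EventuallyEq.symm z3)
  refine (h5.congr_of_eventuallyEq ?_ (h6.self_of_nhds p.1)).mono
    (prod_mono Subset.rfl (subset_univ _))
  exact mem_nhdsWithin_of_mem_nhds
    (((continuous_snd.tendsto (p.1, p.2)).eventually h6).mono fun q hq => hq q.1)

theorem met_of_local {g : Ten E M} {U : Set M} (hU : IsOpen U)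
    (hs : ∀ x ∈ U, ∀ v w, g x v w = g x w v) (hp : ∀ x ∈ U, ∀ v, v ≠ 0 → 0 < g x v v)
    (h : ∀ x ∈ U, ∃ (ψ : E → M) (y : E), SM E ψ y ∧ Function.Injective (md E ψ y) ∧
      ψ y = x ∧ ContDiffAt ℝ ∞ (comap ψ g) y) : Met g U := by
  refine (fam_of_local (g := fun _ => g) (I := univ) hU (fun _ _ => hs) (fun _ _ => hp)
    fun t _ x hx => ?_).met (mem_univ 0)
  obtain ⟨ψ, y, h1, h2, h3, h4⟩ := h x hx
  exact ⟨ψ, y, h1, h2, h3,
    (ContDiffAt.comp (t, y) (g := comap ψ g) h4 contDiffAt_snd).contDiffWithinAt⟩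

/-- a tensor whose pull back under local diffeomorphisms is a metric is a metric -/
theorem met_of_comap {g : Ten E M} {f : N → M} {V : Set N} (hf : LD E f V)
    (h : Met (comap f g) V) : Met g (f '' V) := by
  refine met_of_local (hf.isOpen_image hf.isOpen Subset.rfl) ?_ ?_ ?_
  · rintro _ ⟨x, hx, rfl⟩ v w
    obtain ⟨v, rfl⟩ := hf.surj hx v
    obtain ⟨w, rfl⟩ := hf.surj hx w
    exact h.symm x hx v w
  · rintro _ ⟨x, hx, rfl⟩ v hv
    obtain ⟨v, rfl⟩ := hf.surj hx v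
    exact h.pos x hx v fun h0 => hv (by rw [h0, map_zero])
  · rintro _ ⟨x, hx, rfl⟩
    have hd := pt_mem_dom (E := E) hx
    have hl := hf.comp ((ld_symm x).mono (isOpen_dom x hf.isOpen) inter_subset_left)
      fun _ hu => hu.2
    refine ⟨_, pt E x, hl.sm hd, hl.inj _ hd, by simp [symm_pt], ?_⟩
    refine ((h.isMetricOn x).contDiffAt hd).congr_of_eventuallyEq ?_
    filter_upwards [(isOpen_dom x hf.isOpen).mem_nhds hd] with u hu
    exact (co_comap g hu.1 (hf.md hu.2)).symm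

end Vale.Agent.P216R
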