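import Vale.Agent.P216R.Iso

/-!
# P216R: manifold level: locality, scaling and naturality of the curvature quantities
-/

open scoped Manifold ContDiff Topology ENNReal
open Set Filter

set_option maxSynthPendingDepth 3
set_option linter.unusedSectionVars false

noncomputable section

namespace Vale.Agent.P216R

open Vale.Agent.P219.RG
open Vale.Agent.P210.R2.H53 (gradG gamG hessG lapG dens opG)

variable {E : Type} [NormedAddCommGroup E] [NormedSpace ℝ E] [FiniteDimensional ℝ E]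
  {M : Type} [TopologicalSpace M] [ChartedSpace E M]
  {N : Type} [TopologicalSpace N] [ChartedSpace E N]

/-! ### the model space -/

section Model

variable (G : E → Bil E) (φ ψ : E → ℝ) (x : E)

theorem Rm_model (k : ℕ) (v : Fin (k + 4) → E) : Rm G k x v = rmG G k (x, v) := by simp [Rm]
theorem secN_model (v w : E) : secN G x v w = G x (curv G x v w w) v := by simp [secN]
theorem Ric_model : Ric G x = ricG G x := by simp [Ric]
theorem Sc_model : Sc G x = scG G x := by simp [Sc]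
theorem grad_model : grad G φ x = gradG G φ x := by simp [grad]
theorem gam_model : gam G φ ψ x = gamG G φ ψ x := by simp [gam]
theorem hess_model : hess G φ x = hessG G φ x := by simp [hess]
theorem lap_model : lap G φ x = lapG G φ x := by simp [lap]

end Model

/-! ### locality -/

section Local

variable {g h : Ten E M} {x : M} {φ ψ φ' ψ' : M → ℝ}

theorem Rm_congr (H : g =ᶠ[𝓝 x] h) (k : ℕ) : Rm g k x = Rm h k x :=
  funext fun v => (rmG_congr (co_congr H) k).self_of_nhds v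

theorem RmB_congr (H : g =ᶠ[𝓝 x] h) (k : ℕ) (C : ℝ) : RmB g k x C ↔ RmB h k x C := by
  simp only [RmB, Rm_congr H, H.self_of_nhds]

theorem secN_congr (H : g =ᶠ[𝓝 x] h) : secN g x = secN h x := by
  funext v w; simp only [secN, curv_congr (co_congr H), H.self_of_nhds]

theorem SecGe_congr (H : g =ᶠ[𝓝 x] h) (κ : ℝ) : SecGe g x κ ↔ SecGe h x κ := by
  simp only [SecGe, secN_congr H, H.self_of_nhds]

theorem SecLe_congr (H : g =ᶠ[𝓝 x] h) (κ : ℝ) : SecLe g x κ ↔ SecLe h x κ := by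
  simp only [SecLe, secN_congr H, H.self_of_nhds]

theorem Ric_congr (H : g =ᶠ[𝓝 x] h) : Ric g x = Ric h x := ricG_congr (co_congr H)

theorem Sc_congr (H : g =ᶠ[𝓝 x] h) : Sc g x = Sc h x := scG_congr (co_congr H)

theorem grad_congr (H : g x = h x) (h1 : φ =ᶠ[𝓝 x] φ') : grad g φ x = grad h φ' x :=
  gradG_congr (comap_congr_right _ (by rwa [symm_pt])) (rd_congr h1)

theorem gam_congr (H : g x = h x) (h1 : φ =ᶠ[𝓝 x] φ') (h2 : ψ =ᶠ[𝓝 x] ψ') :
    gam g φ ψ x = gam h φ' ψ' x :=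
  gamG_congr (comap_congr_right _ (by rwa [symm_pt])) (rd_congr h1) (rd_congr h2)

theorem hess_congr (H : g =ᶠ[𝓝 x] h) (h1 : φ =ᶠ[𝓝 x] φ') : hess g φ x = hess h φ' x :=
  hessG_congr (co_congr H) (rd_congr h1)

theorem lap_congr (H : g =ᶠ[𝓝 x] h) (h1 : φ =ᶠ[𝓝 x] φ') : lap g φ x = lap h φ' x :=
  lapG_congr (co_congr H) (rd_congr h1)

end Local

/-! ### scaling -/

section Scale

variable {c : ℝ} (g : Ten E M) (x : M) (φ ψ : M → ℝ)

theorem Rm_smul (hc : c ≠ 0) (k : ℕ) (v : Fin (k + 4) → E) :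
    Rm (c • g) k x v = c * Rm g k x v := by simp [Rm, co_smul, rmG_smul hc]

theorem secN_smul (hc : c ≠ 0) (v w : E) : secN (c • g) x v w = c * secN g x v w := by
  simp [secN, co_smul, curv_smul hc]

theorem SecGe_smul (hc : 0 < c) (κ : ℝ) : SecGe (c • g) x κ ↔ SecGe g x (c * κ) := by
  refine forall₂_congr fun v w => ?_
  rw [secN_smul g x hc.ne', ← mul_le_mul_iff_right₀ hc (b := c * κ * _)]
  simp only [Pi.smul_apply, smul_apply, smul_eq_mul]
  constructor <;> intro h <;> linarith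

theorem SecLe_smul (hc : 0 < c) (κ : ℝ) : SecLe (c • g) x κ ↔ SecLe g x (c * κ) := by
  refine forall₂_congr fun v w => ?_
  rw [secN_smul g x hc.ne', ← mul_le_mul_iff_right₀ hc (c := c * κ * _)]
  simp only [Pi.smul_apply, smul_apply, smul_eq_mul]
  constructor <;> intro h <;> linarith

theorem Ric_smul (hc : c ≠ 0) : Ric (c • g) = Ric g := by
  funext x; simp only [Ric, co_smul, ricG_smul hc]

theorem Sc_smul (hc : c ≠ 0) : Sc (c • g) x = c⁻¹ * Sc g x := by
  simp only [Sc, co_smul, scG_smul hc]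

theorem grad_smul (hc : c ≠ 0) : grad (c • g) φ x = c⁻¹ • grad g φ x := by
  simp only [grad, co_smul, gradG_smul hc]

theorem gam_smul (hc : c ≠ 0) : gam (c • g) φ ψ x = c⁻¹ * gam g φ ψ x := by
  simp only [gam, co_smul, gamG_smul hc]

theorem hess_smul (hc : c ≠ 0) : hess (c • g) φ = hess g φ := by
  funext x; simp only [hess, co_smul, hessG_smul hc]

theorem lap_smul (hc : c ≠ 0) : lap (c • g) φ x = c⁻¹ * lap g φ x := by
  simp only [lap, co_smul, lapG_smul hc]

theorem geo_smul (hc : c ≠ 0) {γ : ℝ → M} {s : Set ℝ} : Geo (c • g) γ s ↔ Geo g γ s :=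
  ⟨fun h => ⟨h.cont, by simpa only [co_smul, chris_smul hc] using h.eqn⟩,
    fun h => ⟨h.cont, by simpa only [co_smul, chris_smul hc] using h.eqn⟩⟩

end Scale

/-! ### local isometries -/

variable [IsManifold 𝓘(ℝ, E) ∞ M] [IsManifold 𝓘(ℝ, E) ∞ N]

theorem Rm_zero (g : Ten E M) (x : M) (v : Fin 4 → E) :
    Rm g 0 x v = g x (curv (co g x) (pt E x) (v 0) (v 1) (v 2)) (v 3) := by
  simp only [Rm, rmG_zero, co_pt]

theorem secN_eq (g : Ten E M) (x : M) (v w : E) : secN g x v w = Rm g 0 x ![v, w, w, v] := by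
  rw [Rm_zero]; rfl

theorem Sc_eq (g : Ten E M) (x : M) : Sc g x = trB (g x) (Ric g x) := by
  simp only [Sc, scG, co_pt, Ric]

theorem lap_eq (g : Ten E M) (φ : M → ℝ) (x : M) : lap g φ x = trB (g x) (hess g φ x) := by
  simp only [lap, lapG_eq, co_pt, hess]

/-- `f` is a local isometry at `x` from `h` to `g` -/
structure LI (h : Ten E N) (g : Ten E M) (f : N → M) (x : N) : Prop where
  met : ∃ U, Met g U ∧ f x ∈ U
  ld : ∃ V, LD E f V ∧ x ∈ V
  iso : h =ᶠ[𝓝 x] comap f g

theorem li_comap {g : Ten E M} {U : Set M} (hg : Met g U) {f : N → M} {V : Set N} (hf : LD E f V)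
    {x : N} (hx : x ∈ V) (hU : f x ∈ U) : LI (comap f g) g f x :=
  ⟨⟨U, hg, hU⟩, ⟨V, hf, hx⟩, EventuallyEq.rfl⟩

/-- the chart at `a` is a local isometry onto the coordinate expression -/
theorem li_chart {g : Ten E M} {U : Set M} (hg : Met g U) {a x : M} (hx : x ∈ U)
    (ha : x ∈ (chartAt E a).source) : LI g (co g a) (chartAt E a) x :=
  ⟨⟨_, met_model.2 (hg.isMetricOn a), mem_dom ha hx⟩, ⟨_, ld_chart a, ha⟩, by
    filter_upwards [(chartAt E a).open_source.mem_nhds ha] with y hy using (comap_chart g hy).symm⟩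

namespace LI

variable {h : Ten E N} {g : Ten E M} {f : N → M} {x : N}

theorem eq (H : LI h g f x) : h x = (g (f x)).bilinearComp (md E f x) (md E f x) :=
  H.iso.self_of_nhds

theorem apply (H : LI h g f x) (v w : E) : h x v w = g (f x) (md E f x v) (md E f x w) := by
  rw [H.eq]; rfl

theorem sm (H : LI h g f x) : SM E f x := let ⟨_, h1, h2⟩ := H.ld; h1.sm h2

theorem inj (H : LI h g f x) : Function.Injective (md E f x) := let ⟨_, h1, h2⟩ := H.ld; h1.inj x h2

theorem surj (H : LI h g f x) : Function.Surjective (md E f x) := surj_of_inj H.inj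

theorem eventually (H : LI h g f x) : ∀ᶠ y in 𝓝 x, LI h g f y := by
  obtain ⟨U, h1, h2⟩ := H.met
  obtain ⟨V, h3, h4⟩ := H.ld
  filter_upwards [H.sm.continuousAt.eventually (h1.isOpen.mem_nhds h2), h3.isOpen.mem_nhds h4,
    H.iso.eventually_nhds] with y y1 y2 y3
  exact ⟨⟨U, h1, y1⟩, ⟨V, h3, y2⟩, y3⟩

theorem met' (H : LI h g f x) : ∃ W, Met h W ∧ x ∈ W := by
  obtain ⟨U, h1, h2⟩ := H.met
  obtain ⟨V, h3, h4⟩ := H.ld
  obtain ⟨W, w1, w2, w3⟩ := eventually_nhds_iff.1 (H.iso.and ((H.sm.continuousAt.eventually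
    (h1.isOpen.mem_nhds h2)).and (h3.isOpen.eventually_mem h4)))
  exact ⟨W, (h1.comap (h3.mono w2 fun y hy => (w1 y hy).2.2) fun y hy => (w1 y hy).2.1).congr
    fun y hy => (w1 y hy).1, w3⟩

theorem iso_chart (H : LI h g f x) {a : N} {b : M} (ha : x ∈ (chartAt E a).source)
    (hb : f x ∈ (chartAt E b).source) :
    Iso (co h a) (co g b) (chartAt E b ∘ f ∘ (chartAt E a).symm) (chartAt E a x) := by
  obtain ⟨U, h1, h2⟩ := H.met
  obtain ⟨W, h3, h4⟩ := H.met'
  have e := (chartAt E a).left_inv ha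
  have m := (chartAt E a).map_source ha
  have t : Tendsto (chartAt E a).symm (𝓝 (chartAt E a x)) (𝓝 x) := by
    simpa only [e] using tendsto_symm m
  have ev := ((t.eventually H.eventually).and (t.eventually (H.sm.continuousAt.eventually
    ((chartAt E b).open_source.mem_nhds hb)))).and ((chartAt E a).open_target.eventually_mem m)
  refine ⟨⟨_, _, h3.isMetricOn a, h1.isMetricOn b, mem_dom ha h4, ?_⟩, ?_, ?_⟩
  · simp only [Function.comp, e]; exact mem_dom hb h2
  · filter_upwards [ev] with y hy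
    exact contDiffAt_chart_comp (hy.1.1.sm.comp y (sm_symm hy.2)) hy.1.2
  · filter_upwards [ev] with y hy
    rw [← comap_eq g (SM.md (hy.1.1.sm.comp y (sm_symm hy.2))) hy.1.2,
      ← co_comap g hy.2 hy.1.1.sm.md]
    exact comap_congr_right _ hy.1.1.eq

theorem iso_pt (H : LI h g f x) : ∃ τ, Iso (co h x) (co g (f x)) τ (pt E x) ∧
    τ (pt E x) = pt E (f x) ∧ fderiv ℝ τ (pt E x) = md E f x ∧
    ∀ φ : M → ℝ, rd E (φ ∘ f) x =ᶠ[𝓝 (pt E x)] rd E φ (f x) ∘ τ := by
  have ha := mem_chart_source E (f x)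
  have h0 : SM E f ((chartAt E x).symm (pt E x)) := by rw [symm_pt]; exact H.sm
  have h1 : SM E (f ∘ (chartAt E x).symm) (pt E x) := h0.comp _ (sm_symm (pt_mem x))
  have e1 : (f ∘ (chartAt E x).symm) (pt E x) = f x := by simp [symm_pt]
  refine ⟨_, H.iso_chart (mem_chart_source E x) ha, by simp [pt], ?_, fun φ => ?_⟩
  · rw [← md_model, md_comp (by rw [e1]; exact (sm_chart ha).md) h1.md, e1, md_chart_self,
      md_comp h0.md (sm_symm (pt_mem x)).md, md_symm_pt, symm_pt]
    simp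
  · filter_upwards [(tendsto_symm_pt x).eventually (H.sm.continuousAt.eventually
      ((chartAt E (f x)).open_source.mem_nhds ha))] with y hy
    simp only [rd, Function.comp, (chartAt E (f x)).left_inv hy]

theorem Rm (H : LI h g f x) (k : ℕ) (v : Fin (k + 4) → E) :
    Rm h k x v = Rm g k (f x) fun i => md E f x (v i) := by
  obtain ⟨τ, h1, h2, h3, -⟩ := H.iso_pt
  simp only [P216R.Rm, Iso.rmG k h1, h2, h3]

theorem RmB (H : LI h g f x) (k : ℕ) (C : ℝ) : RmB h k x C ↔ RmB g k (f x) C := by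
  refine ⟨fun b v hv => ?_, fun b v hv => ?_⟩
  · choose w hw using fun i => H.surj (v i)
    have := b w fun i => by rw [H.apply, hw]; exact hv i
    simpa only [H.Rm, hw] using this
  · rw [H.Rm]; exact b _ fun i => by rw [← H.apply]; exact hv i

theorem curv (H : LI h g f x) (u v w : E) : md E f x (curv (co h x) (pt E x) u v w) =
    curv (co g (f x)) (pt E (f x)) (md E f x u) (md E f x v) (md E f x w) := by
  obtain ⟨τ, h1, h2, h3, -⟩ := H.iso_pt
  rw [← h3, h1.curv, h2]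

theorem secN (H : LI h g f x) (v w : E) :
    secN h x v w = secN g (f x) (md E f x v) (md E f x w) := by
  simp only [P216R.secN, H.apply, H.curv]

theorem SecGe (H : LI h g f x) (κ : ℝ) : SecGe h x κ ↔ SecGe g (f x) κ := by
  simp only [P216R.SecGe, H.secN, H.apply]
  exact (H.surj.forall₂ (p := fun v w => κ * (g (f x) v v * g (f x) w w - g (f x) v w ^ 2) ≤
    P216R.secN g (f x) v w)).symm

theorem SecLe (H : LI h g f x) (κ : ℝ) : SecLe h x κ ↔ SecLe g (f x) κ := by
  simp only [P216R.SecLe, H.secN, H.apply]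
  exact (H.surj.forall₂ (p := fun v w => P216R.secN g (f x) v w ≤
    κ * (g (f x) v v * g (f x) w w - g (f x) v w ^ 2))).symm

theorem Ric (H : LI h g f x) : Ric h x = comap f (Ric g) x := by
  obtain ⟨τ, h1, h2, h3, -⟩ := H.iso_pt
  simp only [P216R.Ric, h1.ricG, h2, h3, comap]

theorem Sc (H : LI h g f x) : Sc h x = Sc g (f x) := by
  obtain ⟨τ, h1, h2, -, -⟩ := H.iso_pt
  simp only [P216R.Sc, h1.scG, h2]

theorem grad (H : LI h g f x) {φ : M → ℝ} (hφ : DifferentiableAt ℝ (rd E φ (f x)) (pt E (f x))) :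
    md E f x (grad h (φ ∘ f) x) = grad g φ (f x) := by
  obtain ⟨τ, h1, h2, h3, h4⟩ := H.iso_pt
  rw [← h3, P216R.grad, h1.gradG (by rwa [h2]) (h4 φ), h2]; rfl

theorem gam (H : LI h g f x) {φ ψ : M → ℝ} (hφ : DifferentiableAt ℝ (rd E φ (f x)) (pt E (f x)))
    (hψ : DifferentiableAt ℝ (rd E ψ (f x)) (pt E (f x))) :
    gam h (φ ∘ f) (ψ ∘ f) x = gam g φ ψ (f x) := by
  obtain ⟨τ, h1, h2, -, h4⟩ := H.iso_pt
  rw [P216R.gam, h1.gamG (by rwa [h2]) (by rwa [h2]) (h4 φ) (h4 ψ), h2]; rfl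

theorem hess (H : LI h g f x) {φ : M → ℝ} (hφ : ContDiffAt ℝ 2 (rd E φ (f x)) (pt E (f x))) :
    hess h (φ ∘ f) x = comap f (hess g φ) x := by
  obtain ⟨τ, h1, h2, h3, h4⟩ := H.iso_pt
  rw [P216R.hess, h1.hessG (by rwa [h2]) (h4 φ), h2, h3]; rfl

theorem lap (H : LI h g f x) {φ : M → ℝ} (hφ : ContDiffAt ℝ 2 (rd E φ (f x)) (pt E (f x))) :
    lap h (φ ∘ f) x = lap g φ (f x) := by
  obtain ⟨τ, h1, h2, -, h4⟩ := H.iso_pt
  rw [P216R.lap, h1.lapG (by rwa [h2]) (h4 φ), h2]; rfl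

end LI

/-! ### reading in an arbitrary chart -/

section Chart

variable {g : Ten E M} {U : Set M} {a x : M}

theorem Met.Sc_chart (hg : Met g U) (hx : x ∈ U) (ha : x ∈ (chartAt E a).source) :
    Sc g x = scG (co g a) (chartAt E a x) := by rw [(li_chart hg hx ha).Sc, Sc_model]

theorem Met.co_Ric (hg : Met g U) {u : E} (hu : u ∈ dom E a U) :
    co (Ric g) a u = ricG (co g a) u := by
  rw [← Ric_model]
  exact (li_comap hg (ld_symm a) hu.1 hu.2).Ric.symm

theorem Met.rd_Sc (hg : Met g U) {u : E} (hu : u ∈ dom E a U) :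
    rd E (Sc g) a u = scG (co g a) u := by
  rw [← Sc_model]
  exact (li_comap hg (ld_symm a) hu.1 hu.2).Sc.symm

theorem Met.Rm_chart (hg : Met g U) (hx : x ∈ U) (ha : x ∈ (chartAt E a).source) (k : ℕ)
    (v : Fin (k + 4) → E) :
    Rm g k x v = rmG (co g a) k (chartAt E a x, fun i => md E (chartAt E a) x (v i)) := by
  rw [(li_chart hg hx ha).Rm, Rm_model]

end Chart

end Vale.Agent.P216R
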