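import Vale.Agent.P216R.Defs

/-!
# P216R: Ricci flows with surgery on one space of worldlines

A point `x : M` lives on the time interval `[b x, d x]`; the metric vanishes off this interval.
Time slices are open, compact, Hausdorff subsets of `M` (which itself is not Hausdorff).
-/

open scoped Manifold ContDiff Topology ENNReal
open Set

set_option maxSynthPendingDepth 3

noncomputable section

namespace Vale.Agent.P216R

section Life

variable {M : Type} {b d : M → ℝ} {s t u s' t' T₀ T₁ : ℝ} {x : M} {U : Set M}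

/-- the points alive on the whole interval `[s, t]` -/
def Liv (b d : M → ℝ) (s t : ℝ) : Set M := {x | b x ≤ s ∧ t ≤ d x}

/-- the slice at time `t` before surgery -/
def preS (b d : M → ℝ) (t : ℝ) : Set M := {x | b x < t ∧ t ≤ d x}

/-- the slice at time `t` after surgery -/
def postS (b d : M → ℝ) (t : ℝ) : Set M := {x | b x ≤ t ∧ t < d x}

/-- no birth and no death in the open interval `(s, t)` -/
def Gap (b d : M → ℝ) (s t : ℝ) : Prop := ∀ x, b x ∉ Ioo s t ∧ d x ∉ Ioo s t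

/-- `(U, t)` is a time slice, before or after surgery, of a flow on `[T₀, T₁]` -/
def Sl (b d : M → ℝ) (T₀ T₁ : ℝ) (U : Set M) (t : ℝ) : Prop :=
  (t ∈ Ioc T₀ T₁ ∧ U = preS b d t) ∨ (t ∈ Ico T₀ T₁ ∧ U = postS b d t)

theorem liv_mono (hs : s ≤ s') (ht : t' ≤ t) : Liv b d s t ⊆ Liv b d s' t' :=
  fun _ h => ⟨h.1.trans hs, ht.trans h.2⟩

theorem liv_subset_preS (h : u ∈ Ioc s t) : Liv b d s t ⊆ preS b d u :=
  fun _ hx => ⟨hx.1.trans_lt h.1, h.2.trans hx.2⟩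

theorem liv_subset_postS (h : u ∈ Ico s t) : Liv b d s t ⊆ postS b d u :=
  fun _ hx => ⟨hx.1.trans h.1, h.2.trans_le hx.2⟩

theorem Gap.mono (h : Gap b d s t) (hs : s ≤ s') (ht : t' ≤ t) : Gap b d s' t' := fun x =>
  ⟨fun hx => (h x).1 (Ioo_subset_Ioo hs ht hx), fun hx => (h x).2 (Ioo_subset_Ioo hs ht hx)⟩

theorem Gap.postS_eq (h : Gap b d s t) (hu : u ∈ Ico s t) : postS b d u = Liv b d s t := by
  refine Subset.antisymm (fun x hx => ⟨?_, ?_⟩) (liv_subset_postS hu)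
  · by_contra h'
    exact (h x).1 ⟨not_le.1 h', hx.1.trans_lt hu.2⟩
  · by_contra h'
    exact (h x).2 ⟨hu.1.trans_lt hx.2, not_le.1 h'⟩

theorem Gap.preS_eq (h : Gap b d s t) (hu : u ∈ Ioc s t) : preS b d u = Liv b d s t := by
  refine Subset.antisymm (fun x hx => ⟨?_, ?_⟩) (liv_subset_preS hu)
  · by_contra h'
    exact (h x).1 ⟨not_le.1 h', hx.1.trans_le hu.2⟩
  · by_contra h'
    exact (h x).2 ⟨hu.1.trans_le hx.2, not_le.1 h'⟩

theorem preS_eq_postS (h : t ∉ range b ∪ range d) : preS b d t = postS b d t := by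
  ext x
  have h1 : b x ≠ t := fun e => h (Or.inl ⟨x, e⟩)
  have h2 : d x ≠ t := fun e => h (Or.inr ⟨x, e⟩)
  exact ⟨fun hx => ⟨hx.1.le, lt_of_le_of_ne hx.2 h2.symm⟩,
    fun hx => ⟨lt_of_le_of_ne hx.1 h1, hx.2.le⟩⟩

theorem exists_gap_right (hf : (range b ∪ range d).Finite) (t : ℝ) :
    ∃ s, t < s ∧ Gap b d t s := by
  have h : ∀ᶠ s in 𝓝[>] t, ∀ v ∈ range b ∪ range d, v ∉ Ioo t s := by
    rw [Filter.eventually_all_finite hf]
    intro v _
    by_cases hv : t < v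
    · filter_upwards [mem_nhdsWithin_of_mem_nhds (Iio_mem_nhds hv)] with s hs hm
      exact absurd hm.2 (not_lt.2 (le_of_lt hs))
    · exact Filter.Eventually.of_forall fun s hm => hv hm.1
  obtain ⟨s, hs, hs'⟩ := (h.and self_mem_nhdsWithin).exists
  exact ⟨s, hs', fun x => ⟨hs _ (Or.inl ⟨x, rfl⟩), hs _ (Or.inr ⟨x, rfl⟩)⟩⟩

theorem exists_gap_left (hf : (range b ∪ range d).Finite) (t : ℝ) :
    ∃ s, s < t ∧ Gap b d s t := by
  have h : ∀ᶠ s in 𝓝[<] t, ∀ v ∈ range b ∪ range d, v ∉ Ioo s t := by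
    rw [Filter.eventually_all_finite hf]
    intro v _
    by_cases hv : v < t
    · filter_upwards [mem_nhdsWithin_of_mem_nhds (Ioi_mem_nhds hv)] with s hs hm
      exact absurd hm.1 (not_lt.2 (le_of_lt hs))
    · exact Filter.Eventually.of_forall fun s hm => hv hm.2
  obtain ⟨s, hs, hs'⟩ := (h.and self_mem_nhdsWithin).exists
  exact ⟨s, hs', fun x => ⟨hs _ (Or.inl ⟨x, rfl⟩), hs _ (Or.inr ⟨x, rfl⟩)⟩⟩

theorem Sl.mem_Icc (h : Sl b d T₀ T₁ U t) : t ∈ Icc T₀ T₁ :=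
  h.elim (fun h => Ioc_subset_Icc_self h.1) fun h => Ico_subset_Icc_self h.1

theorem Sl.alive (h : Sl b d T₀ T₁ U t) (hx : x ∈ U) : b x ≤ t ∧ t ≤ d x := by
  rcases h with ⟨-, rfl⟩ | ⟨-, rfl⟩
  exacts [⟨hx.1.le, hx.2⟩, ⟨hx.1, hx.2.le⟩]

theorem Sl.mono (h : Sl b d T₀ t' U t) (h' : t' ≤ T₁) : Sl b d T₀ T₁ U t :=
  h.imp (fun h => ⟨⟨h.1.1, h.1.2.trans h'⟩, h.2⟩) fun h => ⟨⟨h.1.1, h.1.2.trans_le h'⟩, h.2⟩

theorem sl_pre (h : t ∈ Ioc T₀ T₁) : Sl b d T₀ T₁ (preS b d t) t := Or.inl ⟨h, rfl⟩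

theorem sl_post (h : t ∈ Ico T₀ T₁) : Sl b d T₀ T₁ (postS b d t) t := Or.inr ⟨h, rfl⟩

/-- a point of the slice `(U, t)` born before `s < t` lies in `Liv s t` -/
theorem Sl.mem_liv (h : Sl b d T₀ T₁ U t) (hx : x ∈ U) (hb : b x ≤ s) : x ∈ Liv b d s t :=
  ⟨hb, (h.alive hx).2⟩

/-- every slice is `Liv` of a small interval with end point `t` -/
theorem Sl.exists_liv (h : Sl b d T₀ T₁ U t) (hf : (range b ∪ range d).Finite) :
    ∃ s u, s < u ∧ u ≤ T₁ ∧ t ∈ Icc s u ∧ Gap b d s u ∧ U = Liv b d s u := by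
  rcases h with ⟨ht, rfl⟩ | ⟨ht, rfl⟩
  · obtain ⟨s, hs, hg⟩ := exists_gap_left hf t
    exact ⟨s, t, hs, ht.2, ⟨hs.le, le_rfl⟩, hg, hg.preS_eq ⟨hs, le_rfl⟩⟩
  · obtain ⟨s, hs, hg⟩ := exists_gap_right hf t
    have h1 : t < min s T₁ := lt_min hs ht.2
    have hg' := hg.mono le_rfl (min_le_left s T₁)
    exact ⟨t, min s T₁, h1, min_le_right _ _, ⟨le_rfl, h1.le⟩, hg', hg'.postS_eq ⟨le_rfl, h1⟩⟩

/-- induction over the surgery times: `P` speaks about the slices before surgery, `Q` about the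
slices after surgery -/
theorem surg_ind (hf : (range b ∪ range d).Finite) {P Q : ℝ → Prop} (h0 : Q T₀)
    (hflow : ∀ s t, T₀ ≤ s → s < t → t ≤ T₁ → Gap b d s t → Q s → P t)
    (hsurg : ∀ t ∈ Ioo T₀ T₁, P t → Q t) :
    (∀ t ∈ Ioc T₀ T₁, P t) ∧ ∀ t ∈ Ico T₀ T₁, Q t := by
  classical
  have key : ∀ n : ℕ, ∀ t ∈ Ioc T₀ T₁, (hf.toFinset.filter (· ∈ Ioo T₀ t)).card = n → P t := by
    intro n
    induction n using Nat.strong_induction_on with
    | _ n ih =>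
      intro t ht hn
      by_cases he : (hf.toFinset.filter (· ∈ Ioo T₀ t)).Nonempty
      · obtain ⟨s, hs, hmax⟩ := Finset.exists_max_image _ id he
        have hs' := (Finset.mem_filter.1 hs).2
        have hsT : s < T₁ := hs'.2.trans_le ht.2
        have hlt : (hf.toFinset.filter (· ∈ Ioo T₀ s)).card < n := by
          rw [← hn]
          refine Finset.card_lt_card ⟨fun v hv => ?_, fun hsub => ?_⟩
          · rw [Finset.mem_filter] at hv ⊢
            exact ⟨hv.1, hv.2.1, hv.2.2.trans hs'.2⟩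
          · exact lt_irrefl s (Finset.mem_filter.1 (hsub hs)).2.2
        have hgap : ∀ v ∈ range b ∪ range d, v ∉ Ioo s t := fun v hv hm =>
          absurd (hmax v (Finset.mem_filter.2 ⟨hf.mem_toFinset.2 hv, hs'.1.trans hm.1, hm.2⟩))
            (not_le.2 hm.1)
        exact hflow s t hs'.1.le hs'.2 ht.2
          (fun x => ⟨hgap _ (Or.inl ⟨x, rfl⟩), hgap _ (Or.inr ⟨x, rfl⟩)⟩)
          (hsurg s ⟨hs'.1, hsT⟩ (ih _ hlt s ⟨hs'.1, hsT.le⟩ rfl))
      · have hgap : ∀ v ∈ range b ∪ range d, v ∉ Ioo T₀ t := fun v hv hm =>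
          he ⟨v, Finset.mem_filter.2 ⟨hf.mem_toFinset.2 hv, hm⟩⟩
        exact hflow T₀ t le_rfl ht.1 ht.2
          (fun x => ⟨hgap _ (Or.inl ⟨x, rfl⟩), hgap _ (Or.inr ⟨x, rfl⟩)⟩) h0
  refine ⟨fun t ht => key _ t ht rfl, fun t ht => ?_⟩
  rcases ht.1.eq_or_lt with rfl | h
  · exact h0
  · exact hsurg t ⟨h, ht.2⟩ (key _ t ⟨h, ht.2.le⟩ rfl)

end Life

section Flow

variable {E : Type} [NormedAddCommGroup E] [NormedSpace ℝ E] [FiniteDimensional ℝ E]
  {M : Type} [TopologicalSpace M] [ChartedSpace E M]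

/-- the parabolic neighbourhood `P(x, t, r, -τ)` of the slice `(U, t)` exists (is unscathed) -/
def Par (g : ℝ → Ten E M) (U : Set M) (x : M) (t r τ : ℝ) : Prop :=
  RF g (Icc (t - τ) t) (bl (g t) U x r)

/-- `P(x, t, r, -τ)` is unscathed and `|Rm| ≤ K` on it -/
def ParB (g : ℝ → Ten E M) (U : Set M) (x : M) (t r τ K : ℝ) : Prop :=
  Par g U x t r τ ∧ ∀ s ∈ Icc (t - τ) t, ∀ y ∈ bl (g t) U x r, RmB (g s) 0 y K

/-- parabolic rescaling by the factor `Q` about the time `t₀` -/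
def resc (g : ℝ → Ten E M) (Q t₀ : ℝ) : ℝ → Ten E M := fun t => Q • g (t₀ + t / Q)

/-- a Ricci flow with surgery on `[T₀, T₁]` -/
structure SF (g : ℝ → Ten E M) (b d : M → ℝ) (T₀ T₁ : ℝ) : Prop where
  lt : T₀ < T₁
  fin : (range b ∪ range d).Finite
  ge : ∀ x, T₀ ≤ b x
  dead : ∀ x t, t ∉ Icc (b x) (d x) → g t x = 0
  rf : ∀ s t, s < t → t ≤ T₁ → RF g (Icc s t) (Liv b d s t)
  hs : ∀ s t, s < t → t ≤ T₁ → Hs (Liv b d s t)
  cpt : ∀ t < T₁, IsCompact (postS b d t)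

variable {g : ℝ → Ten E M} {b d : M → ℝ} {T₀ T₁ s t u : ℝ} {U V : Set M} {I J : Set ℝ} {x : M}

namespace SF

omit [FiniteDimensional ℝ E] in
theorem fam_sub (h : Fam g I U) (hJ : J ⊆ I) (hV : IsOpen V) (hVU : V ⊆ U) : Fam g J V where
  isOpen := hV
  symm t ht x hx := h.symm t (hJ ht) x (hVU hx)
  pos t ht x hx := h.pos t (hJ ht) x (hVU hx)
  smooth a := (h.smooth a).mono (prod_mono hJ (inter_subset_inter_right _ (preimage_mono hVU)))

theorem rf_sub (h : RF g I U) (hJ : J ⊆ I) (hV : IsOpen V) (hVU : V ⊆ U) : RF g J V where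
  toFam := fam_sub h.toFam hJ hV hVU
  eqn t ht x hx := (h.eqn t (hJ ht) x (hVU hx)).mono hJ

omit [FiniteDimensional ℝ E] in
theorem fam_met (h : Fam g I U) (ht : t ∈ I) : Met (g t) U where
  isOpen := h.isOpen
  symm := h.symm t ht
  pos := h.pos t ht
  smooth a := (h.smooth a).comp (f := fun u : E => (t, u))
    (contDiff_const.prodMk contDiff_id).contDiffOn fun _ hu => ⟨ht, hu⟩

/-- restriction to a shorter time interval -/
theorem mono (h : SF g b d T₀ T₁) (h0 : T₀ < t) (h1 : t ≤ T₁) : SF g b d T₀ t where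
  lt := h0
  fin := h.fin
  ge := h.ge
  dead := h.dead
  rf s u hs hu := h.rf s u hs (hu.trans h1)
  hs s u hs hu := h.hs s u hs (hu.trans h1)
  cpt u hu := h.cpt u (hu.trans_le h1)

theorem isOpen_liv (h : SF g b d T₀ T₁) (hs : s < t) (ht : t ≤ T₁) : IsOpen (Liv b d s t) :=
  (h.rf s t hs ht).isOpen

theorem isCompact_liv (h : SF g b d T₀ T₁) (hs : s < t) (ht : t ≤ T₁) (hg : Gap b d s t) :
    IsCompact (Liv b d s t) :=
  hg.postS_eq ⟨le_rfl, hs⟩ ▸ h.cpt s (hs.trans_le ht)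

theorem met (h : SF g b d T₀ T₁) (hU : Sl b d T₀ T₁ U t) : Met (g t) U := by
  obtain ⟨s, u, hs, hu, ht, -, rfl⟩ := hU.exists_liv h.fin
  exact fam_met (h.rf s u hs hu).toFam ht

theorem sl_hs (h : SF g b d T₀ T₁) (hU : Sl b d T₀ T₁ U t) : Hs U := by
  obtain ⟨s, u, hs, hu, -, -, rfl⟩ := hU.exists_liv h.fin
  exact h.hs s u hs hu

theorem sl_cpt (h : SF g b d T₀ T₁) (hU : Sl b d T₀ T₁ U t) : IsCompact U := by
  obtain ⟨s, u, hs, hu, -, hg, rfl⟩ := hU.exists_liv h.fin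
  exact h.isCompact_liv hs hu hg

theorem sl_open (h : SF g b d T₀ T₁) (hU : Sl b d T₀ T₁ U t) : IsOpen U := (h.met hU).isOpen

/-- an open part of a slice all of whose points are born before `s` is unscathed on `[s, t]` -/
theorem rf_of_born (h : SF g b d T₀ T₁) (hU : Sl b d T₀ T₁ U t) (hs : s < t) (hV : IsOpen V)
    (hVU : V ⊆ U) (hb : ∀ y ∈ V, b y ≤ s) : RF g (Icc s t) V :=
  rf_sub (h.rf s t hs hU.mem_Icc.2) Subset.rfl hV fun y hy => hU.mem_liv (hVU hy) (hb y hy)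

/-- where the metric is positive the point is alive -/
theorem alive_of_pos [Nontrivial E] (h : SF g b d T₀ T₁) (hp : ∀ v, v ≠ 0 → 0 < g t x v v) :
    t ∈ Icc (b x) (d x) := by
  by_contra h'
  obtain ⟨v, hv⟩ := exists_ne (0 : E)
  have := hp v hv
  rw [h.dead x t h'] at this
  simp at this

/-- a smooth family on `[s, t] × V` lives in `Liv s t` -/
theorem subset_liv [Nontrivial E] (h : SF g b d T₀ T₁) (hs : s ≤ t) (hV : Fam g (Icc s t) V) :
    V ⊆ Liv b d s t := fun y hy =>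
  ⟨(h.alive_of_pos (hV.pos s ⟨le_rfl, hs⟩ y hy)).1, (h.alive_of_pos (hV.pos t ⟨hs, le_rfl⟩ y hy)).2⟩

/-- a nonempty unscathed region does not reach before the initial time -/
theorem le_of_fam [Nontrivial E] (h : SF g b d T₀ T₁) (hs : s ≤ t) (hV : Fam g (Icc s t) V)
    (hx : x ∈ V) : T₀ ≤ s :=
  (h.ge x).trans (h.subset_liv hs hV hx).1

/-- a point alive on `[s, t]` lies in a slice at every time of `[s, t]` -/
theorem exists_sl (h : SF g b d T₀ T₁) (hs : s < t) (ht : t ≤ T₁) (hx : x ∈ Liv b d s t)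
    (hu : u ∈ Icc s t) : ∃ W, Sl b d T₀ T₁ W u ∧ Liv b d s t ⊆ W := by
  have h0 : T₀ ≤ s := (h.ge x).trans hx.1
  rcases hu.2.eq_or_lt with rfl | hlt
  · exact ⟨_, sl_pre ⟨h0.trans_lt hs, ht⟩, liv_subset_preS ⟨hs, le_rfl⟩⟩
  · exact ⟨_, sl_post ⟨h0.trans hu.1, hlt.trans_le ht⟩, liv_subset_postS ⟨hu.1, hlt⟩⟩

theorem ind (h : SF g b d T₀ T₁) {P Q : ℝ → Prop} (h0 : Q T₀)
    (hflow : ∀ s t, T₀ ≤ s → s < t → t ≤ T₁ → Gap b d s t → Q s → P t)
    (hsurg : ∀ t ∈ Ioo T₀ T₁, P t → Q t) :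
    (∀ t ∈ Ioc T₀ T₁, P t) ∧ ∀ t ∈ Ico T₀ T₁, Q t :=
  surg_ind h.fin h0 hflow hsurg

end SF

end Flow

end Vale.Agent.P216R
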