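import Vale.Agent.P216R.Nat
import Vale.Agent.P216G.Ten

/-!
# P216R: Ricci flows: restriction, pull back, rescaling, local criteria, smoothness of curvature
-/

open scoped Manifold ContDiff Topology ENNReal
open Set Filter

set_option maxSynthPendingDepth 3
set_option linter.unusedSectionVars false

noncomputable section

namespace Vale.Agent.P216R

open Vale.Agent.P219.RG
open Vale.Agent.P210.R2.H53 (gradG gamG hessG lapG dens opG)

variable {E : Type} [NormedAddCommGroup E] [NormedSpace ℝ E] [FiniteDimensional ℝ E]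
  {M : Type} [TopologicalSpace M] [ChartedSpace E M]
  {N : Type} [TopologicalSpace N] [ChartedSpace E N]
  {g : ℝ → Ten E M} {I J : Set ℝ} {U V : Set M} {t : ℝ} {x : M}

theorem RF.met (h : RF g I U) (ht : t ∈ I) : Met (g t) U := h.toFam.met ht

theorem RF.mono (h : RF g I U) (hJ : J ⊆ I) (hV : IsOpen V) (hVU : V ⊆ U) : RF g J V :=
  ⟨h.toFam.mono hJ hV hVU, fun t ht x hx => (h.eqn t (hJ ht) x (hVU hx)).mono hJ⟩

theorem RF.mono_time (h : RF g I U) (hJ : J ⊆ I) : RF g J U := h.mono hJ h.isOpen Subset.rfl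

theorem RF.mono_set (h : RF g I U) (hV : IsOpen V) (hVU : V ⊆ U) : RF g I V :=
  h.mono Subset.rfl hV hVU

theorem RF.congr {g' : ℝ → Ten E M} (h : RF g I U) (he : ∀ t ∈ I, EqOn (g' t) (g t) U) :
    RF g' I U :=
  ⟨h.toFam.congr he, fun t ht x hx => by
    rw [Ric_congr ((he t ht).eventuallyEq_of_mem (h.isOpen.mem_nhds hx))]
    exact (h.eqn t ht x hx).congr (fun s hs => he s hs hx) (he t ht hx)⟩

/-- parabolic rescaling -/
theorem RF.resc (h : RF g I U) {c : ℝ} (hc : 0 < c) (t₀ : ℝ)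
    (hm : MapsTo (fun s => t₀ + s / c) J I) : RF (fun s => c • g (t₀ + s / c)) J U :=
  ⟨h.toFam.resc hc (by fun_prop) hm, fun t ht x hx => by
    have h1 : HasDerivWithinAt (fun s => t₀ + s / c) (1 / c) J t :=
      (((hasDerivAt_id t).div_const c).const_add t₀).hasDerivWithinAt
    have h2 := ((h.eqn _ (hm ht) x hx).scomp t h1 hm).const_smul c
    rw [Ric_smul _ hc.ne']
    refine h2.congr_deriv ?_
    rw [smul_smul, mul_one_div_cancel hc.ne', one_smul]⟩

/-- translation in time -/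
theorem RF.shift (h : RF g I U) (t₀ : ℝ) (hm : MapsTo (fun s => t₀ + s) J I) :
    RF (fun s => g (t₀ + s)) J U := by
  simpa using h.resc one_pos t₀ (J := J) (by simpa using hm)

theorem RF.hasDerivAt (h : RF g I U) (ht : I ∈ 𝓝 t) (hx : x ∈ U) :
    HasDerivAt (fun s => g s x) ((-2 : ℝ) • Ric (g t) x) t :=
  (h.eqn t (mem_of_mem_nhds ht) x hx).hasDerivAt ht

theorem rf_model {G : ℝ → E → Bil E} {U : Set E} (h : Fam G I U)
    (he : ∀ t ∈ I, ∀ x ∈ U, HasDerivWithinAt (fun s => G s x) ((-2 : ℝ) • ricG (G t) x) I t) :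
    RF G I U := ⟨h, fun t ht x hx => by rw [Ric_model]; exact he t ht x hx⟩

theorem RF.eqn_model {G : ℝ → E → Bil E} {U : Set E} (h : RF G I U) (ht : t ∈ I) {x : E}
    (hx : x ∈ U) : HasDerivWithinAt (fun s => G s x) ((-2 : ℝ) • ricG (G t) x) I t := by
  rw [← Ric_model]; exact h.eqn t ht x hx

theorem Fam.ps (h : Fam g I U) (ht : t ∈ I) {a : M} {u : E} (hu : u ∈ dom E a U) :
    PS (fun s => co (g s) a) I t u :=
  contDiffWithinAt_univ_of (h.smooth a) (isOpen_dom a h.isOpen) ht hu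

theorem contDiffOn_of_ps {F X Y : Type} [NormedAddCommGroup F] [NormedSpace ℝ F]
    [NormedAddCommGroup X] [NormedSpace ℝ X] [NormedAddCommGroup Y] [NormedSpace ℝ Y]
    {f : F → X → Y} {s : Set F} {W : Set X} (h : ∀ p ∈ s, ∀ y ∈ W, PS f s p y) :
    ContDiffOn ℝ ∞ (fun q : F × X => f q.1 q.2) (s ×ˢ W) := fun q hq =>
  (h q.1 hq.1 q.2 hq.2).mono (prod_mono Subset.rfl (subset_univ _))

theorem PS.congr {F X Y : Type} [NormedAddCommGroup F] [NormedSpace ℝ F]
    [NormedAddCommGroup X] [NormedSpace ℝ X] [NormedAddCommGroup Y] [NormedSpace ℝ Y]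
    {f f' : F → X → Y} {s : Set F} {p : F} {y : X} (h : PS f s p y) (hp : p ∈ s)
    (he : ∀ᶠ z in 𝓝 y, ∀ q ∈ s, f' q z = f q z) : PS f' s p y := by
  refine ContDiffWithinAt.congr_of_eventuallyEq h ?_ (he.self_of_nhds p hp)
  filter_upwards [mem_nhdsWithin_of_mem_nhds ((continuous_snd.tendsto (p, y)).eventually he),
    self_mem_nhdsWithin] with q h1 h2 using h1 q.1 h2.1

theorem PS.time {X Y : Type} [NormedAddCommGroup X] [NormedSpace ℝ X] [NormedAddCommGroup Y]
    [NormedSpace ℝ Y] {f : ℝ → X → Y} {y : X} (h : PS f I t y) :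
    ContDiffWithinAt ℝ ∞ (fun s => f s y) I t :=
  ContDiffWithinAt.comp t (g := fun q : ℝ × X => f q.1 q.2) (f := fun s => (s, y)) h
    (by fun_prop) fun _ hq => mk_mem_prod hq (mem_univ _)

variable [IsManifold 𝓘(ℝ, E) ∞ M] [IsManifold 𝓘(ℝ, E) ∞ N]

theorem Fam.co_pos (h : Fam g I U) (ht : t ∈ I) {a : M} {u : E} (hu : u ∈ dom E a U) :
    ∀ v, v ≠ 0 → 0 < co (g t) a u v v := ((h.met ht).isMetricOn a).pos u hu

theorem Fam.ps_ricG (h : Fam g I U) (ht : t ∈ I) {a : M} {u : E} (hu : u ∈ dom E a U) :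
    PS (fun s => ricG (co (g s) a)) I t u := (h.ps ht hu).ricG ht (h.co_pos ht hu)

theorem Fam.ps_Ric (h : Fam g I U) (ht : t ∈ I) {a : M} {u : E} (hu : u ∈ dom E a U) :
    PS (fun s => co (Ric (g s)) a) I t u :=
  (h.ps_ricG ht hu).congr ht (((isOpen_dom a h.isOpen).eventually_mem hu).mono
    fun _ hz _ hs => (h.met hs).co_Ric hz)

theorem Fam.ps_Sc (h : Fam g I U) (ht : t ∈ I) {a : M} {u : E} (hu : u ∈ dom E a U) :
    PS (fun s => rd E (Sc (g s)) a) I t u :=
  ((h.ps ht hu).scG ht (h.co_pos ht hu)).congr ht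
    (((isOpen_dom a h.isOpen).eventually_mem hu).mono fun _ hz _ hs => (h.met hs).rd_Sc hz)

theorem Fam.ps_rmG (h : Fam g I U) (ht : t ∈ I) {a : M} {u : E} (hu : u ∈ dom E a U) (k : ℕ)
    (v : Fin (k + 4) → E) : PS (fun s => rmG (co (g s) a) k) I t (u, v) := by
  refine (h.ps ht hu).rmG ht ?_ k v
  filter_upwards [mem_nhdsWithin_of_mem_nhds ((continuous_snd.tendsto (t, u)).eventually
    ((isOpen_dom a h.isOpen).eventually_mem hu)), self_mem_nhdsWithin] with q h1 h2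
  exact ⟨_, (h.met h2.1).isMetricOn a, h1⟩

theorem Fam.smooth_Sc (h : Fam g I U) (a : M) :
    ContDiffOn ℝ ∞ (fun p : ℝ × E => rd E (Sc (g p.1)) a p.2) (I ×ˢ dom E a U) :=
  contDiffOn_of_ps fun _ ht _ hu => h.ps_Sc ht hu

theorem Met.smooth_Sc {g : Ten E M} (h : Met g U) (a : M) :
    ContDiffOn ℝ ∞ (rd E (Sc g) a) (dom E a U) := fun _ hu =>
  (((h.fam univ).ps_Sc (mem_univ 0) hu).contDiffAt (mem_univ _)).contDiffWithinAt

theorem Met.smooth_Ric {g : Ten E M} (h : Met g U) (a : M) :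
    ContDiffOn ℝ ∞ (co (Ric g) a) (dom E a U) := fun _ hu =>
  (((h.fam univ).ps_Ric (mem_univ 0) hu).contDiffAt (mem_univ _)).contDiffWithinAt

/-- smoothness of a function at a point is smoothness in the chart at this point -/
theorem contMDiffAt_iff_rd {F : Type} [NormedAddCommGroup F] [NormedSpace ℝ F] {φ : M → F}
    {n : WithTop ℕ∞} : ContMDiffAt 𝓘(ℝ, E) 𝓘(ℝ, F) n φ x ↔ ContDiffAt ℝ n (rd E φ x) (pt E x) := by
  rw [contMDiffAt_iff_source, modelWithCornersSelf_coe, range_id, contMDiffWithinAt_univ,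
    contMDiffAt_iff_contDiffAt]
  rfl

theorem Met.contMDiffAt_Sc {g : Ten E M} (h : Met g U) (hx : x ∈ U) :
    ContMDiffAt 𝓘(ℝ, E) 𝓘(ℝ, ℝ) ∞ (Sc g) x :=
  contMDiffAt_iff_rd.2 ((h.smooth_Sc x).contDiffAt
    ((isOpen_dom x h.isOpen).mem_nhds (pt_mem_dom hx)))

/-- joint continuity from smoothness in the charts -/
theorem PS.continuousWithinAt_rd {Y : Type} [NormedAddCommGroup Y] [NormedSpace ℝ Y]
    {φ : ℝ → M → Y} (h : PS (fun s => rd E (φ s) x) I t (pt E x)) :
    ContinuousWithinAt (fun p : ℝ × M => φ p.1 p.2) (I ×ˢ univ) (t, x) := by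
  have hx := mem_chart_source E x
  have h1 : ContinuousWithinAt (fun p : ℝ × M => (p.1, chartAt E x p.2)) (I ×ˢ univ) (t, x) :=
    (continuousAt_fst.prodMk (ContinuousAt.comp (g := chartAt E x) ((chartAt E x).continuousAt hx)
      continuousAt_snd)).continuousWithinAt
  have h2 := ContinuousWithinAt.comp (f := fun p : ℝ × M => (p.1, chartAt E x p.2))
    h.continuousWithinAt h1 fun _ hq => mk_mem_prod hq.1 (mem_univ _)
  refine h2.congr_of_eventuallyEq ?_ (rd_pt (φ t) x).symm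
  filter_upwards [mem_nhdsWithin_of_mem_nhds ((continuous_snd.tendsto (t, x)).eventually
    ((chartAt E x).open_source.eventually_mem hx))] with q hq
  simp only [Function.comp, rd, (chartAt E x).left_inv hq]

theorem Fam.continuousOn_Sc (h : Fam g I U) :
    ContinuousOn (fun p : ℝ × M => Sc (g p.1) p.2) (I ×ˢ U) := fun _ hp =>
  (PS.continuousWithinAt_rd (φ := fun s => Sc (g s)) (h.ps_Sc hp.1 (pt_mem_dom hp.2))).mono
    (prod_mono Subset.rfl (subset_univ _))

theorem Met.continuousOn_Sc {g : Ten E M} (h : Met g U) : ContinuousOn (Sc g) U :=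
  fun _ hx => (h.contMDiffAt_Sc hx).continuousAt.continuousWithinAt

theorem Fam.contDiffOn_time (h : Fam g I U) (hx : x ∈ U) : ContDiffOn ℝ ∞ (fun s => g s x) I :=
  fun _ ht => by simpa only [co_pt] using (h.ps ht (pt_mem_dom hx)).time

theorem Fam.contDiffOn_time_Ric (h : Fam g I U) (hx : x ∈ U) :
    ContDiffOn ℝ ∞ (fun s => Ric (g s) x) I := fun _ ht => (h.ps_ricG ht (pt_mem_dom hx)).time

theorem Fam.contDiffOn_time_Sc (h : Fam g I U) (hx : x ∈ U) :
    ContDiffOn ℝ ∞ (fun s => Sc (g s) x) I :=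
  fun _ ht => by simpa only [rd_pt] using (h.ps_Sc ht (pt_mem_dom hx)).time

/-- the equation at interior times suffices -/
theorem RF.of_interior (h : Fam g I U) (hI : UniqueDiffOn ℝ I) (hc : I ⊆ closure (interior I))
    (he : ∀ t ∈ interior I, ∀ x ∈ U, HasDerivAt (fun s => g s x) ((-2 : ℝ) • Ric (g t) x) t) :
    RF g I U := by
  refine ⟨h, fun t ht x hx => ?_⟩
  have h1 := h.contDiffOn_time hx
  have h2 : EqOn (derivWithin (fun s => g s x) I) (fun s => (-2 : ℝ) • Ric (g s) x) I :=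
    EqOn.of_subset_closure (s := interior I) (fun s hs => (he s hs x hx).hasDerivWithinAt.derivWithin
      (hI s (interior_subset hs))) (h1.continuousOn_derivWithin hI (by simp))
      ((h.contDiffOn_time_Ric hx).continuousOn.const_smul (-2 : ℝ)) interior_subset hc
  exact (h1.differentiableOn (by simp) t ht).hasDerivWithinAt.congr_deriv (h2 ht)

theorem RF.of_convex (h : Fam g I U) (hI : Convex ℝ I) (hne : (interior I).Nonempty)
    (he : ∀ t ∈ interior I, ∀ x ∈ U, HasDerivAt (fun s => g s x) ((-2 : ℝ) • Ric (g t) x) t) :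
    RF g I U :=
  RF.of_interior h (uniqueDiffOn_convex hI hne)
    (by rw [hI.closure_interior_eq_closure_of_nonempty_interior hne]; exact subset_closure) he

/-- pull back by a linear map as a continuous linear map -/
def pbL (L : E →L[ℝ] E) : Bil E →L[ℝ] Bil E :=
  ContinuousLinearMap.compL ℝ E (E →L[ℝ] ℝ) (E →L[ℝ] ℝ) ((ContinuousLinearMap.compL ℝ E E ℝ).flip L)
    ∘L (ContinuousLinearMap.compL ℝ E E (E →L[ℝ] ℝ)).flip L

theorem pbL_apply (L : E →L[ℝ] E) (B : Bil E) : pbL L B = B.bilinearComp L L := by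
  ext v w; simp [pbL]

theorem RF.comap (h : RF g I U) {f : N → M} {W : Set N} (hf : LD E f W) (hm : MapsTo f W U) :
    RF (fun t => comap f (g t)) I W :=
  ⟨h.toFam.comap hf hm, fun t ht x hx => by
    rw [(li_comap (h.met ht) hf hx (hm hx)).Ric]
    have := (pbL (md E f x)).hasFDerivAt.comp_hasDerivWithinAt t (h.eqn t ht _ (hm hx))
    simp only [Function.comp_def, map_smul, pbL_apply] at this
    exact this⟩

theorem Fam.co (h : Fam g I U) (a : M) : Fam (fun t => co (g t) a) I (dom E a U) :=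
  h.comap ((ld_symm a).mono (isOpen_dom a h.isOpen) inter_subset_left) fun _ hu => hu.2

theorem RF.co (h : RF g I U) (a : M) : RF (fun t => co (g t) a) I (dom E a U) :=
  h.comap ((ld_symm a).mono (isOpen_dom a h.isOpen) inter_subset_left) fun _ hu => hu.2

theorem fam_of_forall (h : ∀ x ∈ U, ∃ V, x ∈ V ∧ V ⊆ U ∧ Fam g I V) : Fam g I U := by
  refine ⟨isOpen_iff_forall_mem_open.2 fun x hx => ?_, fun t ht x hx => ?_, fun t ht x hx => ?_,
    fun a => contDiffOn_of_ps (f := fun s => co (g s) a) fun t ht u hu => ?_⟩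
  · obtain ⟨V, h1, h2, h3⟩ := h x hx; exact ⟨V, h2, h3.isOpen, h1⟩
  · obtain ⟨V, h1, -, h3⟩ := h x hx; exact h3.symm t ht x h1
  · obtain ⟨V, h1, -, h3⟩ := h x hx; exact h3.pos t ht x h1
  · obtain ⟨V, h1, -, h3⟩ := h _ hu.2; exact h3.ps ht ⟨hu.1, h1⟩

theorem met_of_forall {g : Ten E M} (h : ∀ x ∈ U, ∃ V, x ∈ V ∧ V ⊆ U ∧ Met g V) : Met g U :=
  (fam_of_forall (g := fun _ => g) (I := univ) fun x hx =>
    let ⟨V, h1, h2, h3⟩ := h x hx; ⟨V, h1, h2, h3.fam _⟩).met (mem_univ 0)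

theorem rf_of_forall (h : ∀ x ∈ U, ∃ V, x ∈ V ∧ V ⊆ U ∧ RF g I V) : RF g I U :=
  ⟨fam_of_forall fun x hx => let ⟨V, h1, h2, h3⟩ := h x hx; ⟨V, h1, h2, h3.toFam⟩,
    fun t ht x hx => let ⟨_, h1, _, h3⟩ := h x hx; h3.eqn t ht x h1⟩

theorem comap_inv {f : N → M} {k : M → N} (g : Ten E M) (hk : MD E k x) (hf : MD E f (k x))
    (he : ∀ᶠ z in 𝓝 x, f (k z) = z) : comap k (comap f g) x = g x := by
  rw [comap_comp g hf hk, comap_congr g (f := f ∘ k) (f' := id) he, comap_id]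

/-- every local diffeomorphism has local inverses which are local diffeomorphisms -/
theorem LD.exists_local_inv {f : N → M} {W : Set N} (hf : LD E f W) {y : N} (hy : y ∈ W) :
    ∃ (k : M → N) (V : Set M), LD E k V ∧ f y ∈ V ∧ k (f y) = y ∧ MapsTo k V W ∧
      ∀ z ∈ V, f (k z) = z := by
  obtain ⟨k, -, k2, -⟩ := exists_inv (hf.sm hy) (hf.inj y hy)
  obtain ⟨W', w1, w2, w3⟩ := eventually_nhds_iff.1 (k2.and (hf.isOpen.eventually_mem hy))
  have hi : InjOn f W' := fun a ha b hb hab => by rw [← (w1 a ha).1, hab, (w1 b hb).1]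
  have : Nonempty N := ⟨y⟩
  refine ⟨_, _, (hf.mono w2 fun z hz => (w1 z hz).2).inverse hi, mem_image_of_mem f w3,
    hi.leftInvOn_invFunOn w3, ?_, ?_⟩
  · rintro _ ⟨z, hz, rfl⟩; rw [hi.leftInvOn_invFunOn hz]; exact (w1 z hz).2
  · rintro _ ⟨z, hz, rfl⟩; rw [hi.leftInvOn_invFunOn hz]

theorem fam_of_comap {f : N → M} {W : Set N} (hf : LD E f W)
    (h : Fam (fun t => comap f (g t)) I W) : Fam g I (f '' W) := by
  refine fam_of_forall ?_
  rintro _ ⟨y, hy, rfl⟩
  obtain ⟨k, V, k1, k2, -, k4, k5⟩ := hf.exists_local_inv hy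
  refine ⟨V, k2, fun z hz => ⟨_, k4 hz, k5 z hz⟩, (h.comap k1 k4).congr fun t _ z hz => ?_⟩
  exact (comap_inv _ (k1.md hz) (hf.md (k4 hz)) ((k1.isOpen.eventually_mem hz).mono k5)).symm

theorem rf_of_comap {f : N → M} {W : Set N} (hf : LD E f W)
    (h : RF (fun t => comap f (g t)) I W) : RF g I (f '' W) := by
  refine rf_of_forall ?_
  rintro _ ⟨y, hy, rfl⟩
  obtain ⟨k, V, k1, k2, -, k4, k5⟩ := hf.exists_local_inv hy
  refine ⟨V, k2, fun z hz => ⟨_, k4 hz, k5 z hz⟩, (h.comap k1 k4).congr fun t _ z hz => ?_⟩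
  exact (comap_inv _ (k1.md hz) (hf.md (k4 hz)) ((k1.isOpen.eventually_mem hz).mono k5)).symm

/-! ### the curvature tensor is multilinear -/

/-- `∇^k Rm` at `x` as a multilinear map -/
def Met.rmML {g : Ten E M} (h : Met g U) (hx : x ∈ U) (k : ℕ) :
    MultilinearMap ℝ (fun _ : Fin (k + 4) => E) ℝ :=
  (P216G.isT_rmG (h.isMetricOn x) k).toML (pt_mem_dom hx)

theorem Met.rmML_apply {g : Ten E M} (h : Met g U) (hx : x ∈ U) (k : ℕ) (v : Fin (k + 4) → E) :
    h.rmML hx k v = Rm g k x v := P216G.IsT.toML_apply _ _ _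

theorem Met.RmB_smul {g : Ten E M} (h : Met g U) (hx : x ∈ U) {c : ℝ} (hc : 0 < c) (k : ℕ)
    (C : ℝ) : RmB (c ^ 2 • g) k x C ↔ RmB g k x (c ^ (k + 2) * C) := by
  have e : ∀ (a : ℝ) v, Rm g k x (fun i => a • v i) = a ^ (k + 4) * Rm g k x v := fun a v => by
    rw [← h.rmML_apply hx, MultilinearMap.map_smul_univ, h.rmML_apply hx]; simp
  have hc2 : c ^ 2 ≠ 0 := by positivity
  refine ⟨fun b v hv => ?_, fun b v hv => ?_⟩
  · have h1 := b (fun i => c⁻¹ • v i) fun i => by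
      simp only [Pi.smul_apply, smul_apply, map_smul, smul_eq_mul]
      calc _ = g x (v i) (v i) := by field_simp
        _ ≤ 1 := hv i
    rw [Rm_smul g x hc2, e, ← mul_assoc, abs_mul, abs_of_pos (by positivity)] at h1
    calc _ = c ^ (k + 2) * (c ^ 2 * c⁻¹ ^ (k + 4) * |Rm g k x v|) := by
          rw [inv_pow]; field_simp; ring
      _ ≤ _ := by gcongr
  · have h1 := b (fun i => c • v i) fun i => by
      have := hv i
      simp only [Pi.smul_apply, smul_apply, map_smul, smul_eq_mul] at this ⊢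
      linarith
    rw [e, abs_mul, abs_of_pos (by positivity)] at h1
    rw [Rm_smul g x hc2, abs_mul, abs_of_pos (by positivity),
      ← mul_le_mul_iff_right₀ (a := c ^ (k + 2)) (by positivity)]
    calc _ = c ^ (k + 4) * |Rm g k x v| := by ring
      _ ≤ _ := h1

/-! ### geodesics and local isometries -/

theorem Geo.map {h : Ten E N} {g : Ten E M} {f : N → M} {γ : ℝ → N} {s : Set ℝ} (hs : IsOpen s)
    (H : ∀ t ∈ s, LI h g f (γ t)) (hγ : Geo h γ s) : Geo g (f ∘ γ) s := by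
  have c : ∀ t ∈ s, ContinuousAt γ t := fun t ht => hγ.cont.continuousAt (hs.mem_nhds ht)
  refine ⟨fun t ht => ((H t ht).sm.continuousAt.comp (c t ht)).continuousWithinAt,
    fun b t ht hb => ?_⟩
  have ha := mem_chart_source E (γ t)
  have hi := (H t ht).iso_chart ha hb
  obtain ⟨U₁, U₂, m1, m2, m3, m4⟩ := hi.met
  have ev := (c t ht).eventually ((chartAt E (γ t)).open_source.mem_nhds ha)
  obtain ⟨-, d2, d3⟩ := hγ.eqn (γ t) t ht ha
  have d1 : ∀ᶠ r in 𝓝 t, DifferentiableAt ℝ (cc (E := E) γ (γ t)) r := by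
    filter_upwards [ev, hs.mem_nhds ht] with r r1 r2 using (hγ.eqn _ r r2 r1).1
  obtain ⟨g1, g2, g3⟩ := m1.geodesic_trans m2 (c := cc γ (γ t)) m3 m4 hi.cd hi.iso' d1 d2 d3
  have e : cc (E := E) (f ∘ γ) b =ᶠ[𝓝 t]
      (chartAt E b ∘ f ∘ (chartAt E (γ t)).symm) ∘ cc γ (γ t) := by
    filter_upwards [ev] with r hr
    simp only [cc, Function.comp, (chartAt E (γ t)).left_inv hr]
  refine ⟨g1.congr_of_eventuallyEq e, g2.congr_of_eventuallyEq e.deriv, ?_⟩
  rw [e.deriv.deriv_eq, e.deriv_eq, e.self_of_nhds]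
  exact g3

end Vale.Agent.P216R
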