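import Vale.Agent.P216R.Met

/-!
# P216R: chart level: locality, scaling, smoothness (with parameters)
-/

open scoped Manifold ContDiff Topology ENNReal
open Set Filter

set_option maxSynthPendingDepth 3
set_option linter.unusedSectionVars false

noncomputable section

namespace Vale.Agent.P216R

open Vale.Agent.P219.RG
open Vale.Agent.P210.R2.H53 (gradG gamG hessG lapG dens opG)

variable {E : Type} [NormedAddCommGroup E] [NormedSpace ℝ E]

theorem chris210 (G : E → Bil E) (u : E) : P210.R2.H53.chris G u = chrisB G u := by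
  ext v w
  simp [P210.R2.H53.chris, chrisB, P210.R2.H53.koszulL]

theorem hessG_apply (G : E → Bil E) (φ : E → ℝ) (u v w : E) :
    hessG G φ u v w = fderiv ℝ (fderiv ℝ φ) u v w - fderiv ℝ φ u (chris G u v w) := by
  simp [hessG, chris210, chrisB_apply]

theorem lapG_eq (G : E → Bil E) (φ : E → ℝ) (u : E) : lapG G φ u = trB (G u) (hessG G φ u) := rfl

theorem localRiem_iff {G : E → Bil E} {U : Set E} :
    P210.R2.H53.LocalRiem G U ↔ IsMetricOn G U :=
  ⟨fun h => ⟨h.isOpen, h.smooth, h.symm, h.pos⟩, fun h => ⟨h.isOpen, h.smooth, h.symm, h.pos⟩⟩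

theorem rmG_zero (G : E → Bil E) (p : E × (Fin 4 → E)) :
    rmG G 0 p = G p.1 (curv G p.1 (p.2 0) (p.2 1) (p.2 2)) (p.2 3) := rfl

theorem rmG_succ (G : E → Bil E) (k : ℕ) : rmG G (k + 1) = nab G (rmG G k) := rfl

/-! ### locality -/

section Local

variable {G H : E → Bil E} {u : E}

theorem chrisB_congr (h : G =ᶠ[𝓝 u] H) : chrisB G =ᶠ[𝓝 u] chrisB H := by
  filter_upwards [h.eventually_nhds] with y hy
  have h1 : G =ᶠ[𝓝 y] H := hy
  simp only [chrisB, h1.fderiv_eq, h1.self_of_nhds]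

theorem chris_congr (h : G =ᶠ[𝓝 u] H) (v w : E) : chris G u v w = chris H u v w := by
  rw [← chrisB_apply, ← chrisB_apply, (chrisB_congr h).self_of_nhds]

theorem curv_congr (h : G =ᶠ[𝓝 u] H) (x y z : E) : curv G u x y z = curv H u x y z := by
  have e : ∀ a b, (fun p => chris G p a b) =ᶠ[𝓝 u] fun p => chris H p a b := fun a b => by
    filter_upwards [h.eventually_nhds] with p hp using chris_congr hp a b
  simp only [curv, (e _ _).fderiv_eq, chris_congr h]

theorem curvB_congr (h : G =ᶠ[𝓝 u] H) : curvB G u = curvB H u := by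
  simp only [curvB, (chrisB_congr h).fderiv_eq, (chrisB_congr h).self_of_nhds]

theorem ricG_congr [FiniteDimensional ℝ E] (h : G =ᶠ[𝓝 u] H) : ricG G u = ricG H u := by
  simp only [ricG, curvB_congr h]

theorem scG_congr [FiniteDimensional ℝ E] (h : G =ᶠ[𝓝 u] H) : scG G u = scG H u := by
  simp only [scG, ricG_congr h, h.self_of_nhds]

theorem nab_congr {k : ℕ} {T S : E × (Fin k → E) → ℝ} (h : G =ᶠ[𝓝 u] H) {v : Fin (k + 1) → E}
    (hT : T =ᶠ[𝓝 (u, Fin.tail v)] S) : nab G T (u, v) = nab H S (u, v) := by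
  simp only [nab, hT.fderiv_eq, chris_congr h]

theorem rmG_congr (h : G =ᶠ[𝓝 u] H) (k : ℕ) :
    ∀ᶠ y in 𝓝 u, ∀ v, rmG G k (y, v) = rmG H k (y, v) := by
  induction k with
  | zero =>
    filter_upwards [h.eventually_nhds] with y hy v
    have h1 : G =ᶠ[𝓝 y] H := hy
    simp only [rmG_zero, curv_congr h1, h1.self_of_nhds]
  | succ k ih =>
    filter_upwards [h.eventually_nhds, ih.eventually_nhds] with y hy h2 v
    refine nab_congr hy ?_
    exact ((continuous_fst.tendsto (y, Fin.tail v)).eventually h2).mono fun q hq => hq q.2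

variable {φ ψ φ' ψ' : E → ℝ}

theorem gradG_congr (h : G u = H u) (h1 : φ =ᶠ[𝓝 u] φ') : gradG G φ u = gradG H φ' u := by
  simp only [gradG, h, h1.fderiv_eq]

theorem gamG_congr (h : G u = H u) (h1 : φ =ᶠ[𝓝 u] φ') (h2 : ψ =ᶠ[𝓝 u] ψ') :
    gamG G φ ψ u = gamG H φ' ψ' u := by
  simp only [gamG, gradG_congr h h2, h1.fderiv_eq]

theorem hessG_congr (h : G =ᶠ[𝓝 u] H) (h1 : φ =ᶠ[𝓝 u] φ') : hessG G φ u = hessG H φ' u := by
  ext v w
  simp only [hessG_apply, chris_congr h, h1.fderiv_eq, h1.fderiv.fderiv_eq]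

theorem lapG_congr (h : G =ᶠ[𝓝 u] H) (h1 : φ =ᶠ[𝓝 u] φ') : lapG G φ u = lapG H φ' u := by
  simp only [lapG_eq, hessG_congr h h1, h.self_of_nhds]

end Local

/-! ### scaling -/

section Scale

variable {c : ℝ}

theorem inverse_smul (hc : c ≠ 0) (A : Bil E) : (c • A).inverse = c⁻¹ • A.inverse := by
  let e : E ≃L[ℝ] E := ContinuousLinearEquiv.equivOfInverse (c • ContinuousLinearMap.id ℝ E)
    (c⁻¹ • ContinuousLinearMap.id ℝ E) (fun x => by simp [smul_smul, hc])
    fun x => by simp [smul_smul, hc]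
  have h1 : c • A = A ∘L (e : E →L[ℝ] E) := by ext v w; simp [e]
  rw [h1, ContinuousLinearMap.inverse_comp_equiv]
  ext l; simp [e]

theorem chrisB_smul (hc : c ≠ 0) (G : E → Bil E) : chrisB (c • G) = chrisB G := by
  funext u
  ext v w
  simp only [chrisB_apply, chris, Pi.smul_apply, inverse_smul hc, fderiv_const_smul_field]
  have : (c • fderiv ℝ G u) v w + (c • fderiv ℝ G u) w v - (((c • fderiv ℝ G u).flip v).flip w) =
      c • (fderiv ℝ G u v w + fderiv ℝ G u w v - ((fderiv ℝ G u).flip v).flip w) := by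
    ext z; simp; ring
  rw [this, smul_comm, smul_apply, map_smul, smul_smul, inv_mul_cancel₀ hc,
    one_smul]

theorem chris_smul (hc : c ≠ 0) (G : E → Bil E) : chris (c • G) = chris G := by
  funext u v w; rw [← chrisB_apply, chrisB_smul hc, chrisB_apply]

theorem curv_smul (hc : c ≠ 0) (G : E → Bil E) : curv (c • G) = curv G := by
  funext u x y z; simp only [curv, chris_smul hc]

theorem curvB_smul (hc : c ≠ 0) (G : E → Bil E) : curvB (c • G) = curvB G := by
  funext u; simp only [curvB, chrisB_smul hc]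

theorem ricG_smul [FiniteDimensional ℝ E] (hc : c ≠ 0) (G : E → Bil E) :
    ricG (c • G) = ricG G := by
  funext u; simp only [ricG, curvB_smul hc]

theorem trB_smul_left (hc : c ≠ 0) (A B : Bil E) : trB (c • A) B = c⁻¹ * trB A B := by
  simp [trB, inverse_smul hc]

theorem trB_smul (c : ℝ) (A B : Bil E) : trB A (c • B) = c * trB A B := by simp [trB]

theorem trB_add (A B C : Bil E) : trB A (B + C) = trB A B + trB A C := by simp [trB]

theorem trB_sub (A B C : Bil E) : trB A (B - C) = trB A B - trB A C := by simp [trB]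

theorem scG_smul [FiniteDimensional ℝ E] (hc : c ≠ 0) (G : E → Bil E) (u : E) :
    scG (c • G) u = c⁻¹ * scG G u := by
  simp only [scG, ricG_smul hc, Pi.smul_apply, trB_smul_left hc]

theorem rmG_smul (hc : c ≠ 0) (G : E → Bil E) (k : ℕ) : rmG (c • G) k = c • rmG G k := by
  induction k with
  | zero => funext p; simp [rmG_zero, curv_smul hc]
  | succ k ih => funext p; simp [rmG_succ, nab, ih, chris_smul hc, fderiv_const_smul_field]

theorem gradG_smul (hc : c ≠ 0) (G : E → Bil E) (φ : E → ℝ) (u : E) :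
    gradG (c • G) φ u = c⁻¹ • gradG G φ u := by simp [gradG, inverse_smul hc]

theorem gamG_smul (hc : c ≠ 0) (G : E → Bil E) (φ ψ : E → ℝ) (u : E) :
    gamG (c • G) φ ψ u = c⁻¹ * gamG G φ ψ u := by simp [gamG, gradG_smul hc]

theorem hessG_smul (hc : c ≠ 0) (G : E → Bil E) (φ : E → ℝ) (u : E) :
    hessG (c • G) φ u = hessG G φ u := by ext v w; simp only [hessG_apply, chris_smul hc]

theorem lapG_smul (hc : c ≠ 0) (G : E → Bil E) (φ : E → ℝ) (u : E) :
    lapG (c • G) φ u = c⁻¹ * lapG G φ u := by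
  simp only [lapG_eq, hessG_smul hc, Pi.smul_apply, trB_smul_left hc]

end Scale

/-! ### smoothness with parameters -/

section Smooth

variable {F : Type} [NormedAddCommGroup F] [NormedSpace ℝ F]

/-- `f p y` is jointly smooth at `(p, y)`, for parameters in `s` -/
abbrev PS {X Y : Type} [NormedAddCommGroup X] [NormedSpace ℝ X] [NormedAddCommGroup Y]
    [NormedSpace ℝ Y] (f : F → X → Y) (s : Set F) (p : F) (y : X) : Prop :=
  ContDiffWithinAt ℝ ∞ (fun q : F × X => f q.1 q.2) (s ×ˢ univ) (p, y)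

theorem PS.fderiv {X Y : Type} [NormedAddCommGroup X] [NormedSpace ℝ X] [NormedAddCommGroup Y]
    [NormedSpace ℝ Y] {f : F → X → Y} {s : Set F} {p : F} {y : X} (h : PS f s p y) (hp : p ∈ s) :
    PS (fun q => fderiv ℝ (f q)) s p y := by
  have h1 : ContDiffWithinAt ℝ ∞ (Function.uncurry fun (q : F × X) => f q.1)
      ((s ×ˢ univ) ×ˢ univ) ((p, y), y) :=
    ContDiffWithinAt.comp ((p, y), y) (g := fun q : F × X => f q.1 q.2)
      (f := fun q : (F × X) × X => (q.1.1, q.2)) h (by fun_prop)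
      fun q hq => mk_mem_prod hq.1.1 (mem_univ _)
  have h2 := h1.fderivWithin (g := Prod.snd) (m := ∞) contDiffWithinAt_snd uniqueDiffOn_univ
    (by simp) (mk_mem_prod hp (mem_univ _)) (fun _ _ => mem_univ _)
  simpa only [fderivWithin_univ] using h2

theorem PS.contDiffAt {X Y : Type} [NormedAddCommGroup X] [NormedSpace ℝ X] [NormedAddCommGroup Y]
    [NormedSpace ℝ Y] {f : F → X → Y} {s : Set F} {p : F} {y : X} (h : PS f s p y) (hp : p ∈ s) :
    ContDiffAt ℝ ∞ (f p) y := by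
  rw [← contDiffWithinAt_univ]
  exact ContDiffWithinAt.comp y (g := fun q : F × X => f q.1 q.2) (f := fun z => (p, z)) h
    (by fun_prop) fun q _ => mk_mem_prod hp (mem_univ _)

theorem ps_const {X Y : Type} [NormedAddCommGroup X] [NormedSpace ℝ X] [NormedAddCommGroup Y]
    [NormedSpace ℝ Y] {f : X → Y} {y : X} (h : ContDiffAt ℝ ∞ f y) (s : Set F) (p : F) :
    PS (fun _ => f) s p y :=
  (ContDiffAt.comp (p, y) (g := f) h contDiffAt_snd).contDiffWithinAt

/-- dependence on the base point only -/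
theorem PS.base {X Y Z : Type} [NormedAddCommGroup X] [NormedSpace ℝ X] [NormedAddCommGroup Y]
    [NormedSpace ℝ Y] [NormedAddCommGroup Z] [NormedSpace ℝ Z] {f : F → X → Y} {s : Set F} {p : F}
    {y : X} (h : PS f s p y) (z : Z) : PS (fun q (w : X × Z) => f q w.1) s p (y, z) :=
  ContDiffWithinAt.comp (p, (y, z)) (g := fun q : F × X => f q.1 q.2)
    (f := fun q : F × (X × Z) => (q.1, q.2.1)) h (by fun_prop)
    fun q hq => mk_mem_prod hq.1 (mem_univ _)

theorem cdw_flip {X Y Z : Type} [NormedAddCommGroup X] [NormedSpace ℝ X] [NormedAddCommGroup Y]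
    [NormedSpace ℝ Y] [NormedAddCommGroup Z] [NormedSpace ℝ Z] {f : X → E →L[ℝ] Z →L[ℝ] Y}
    {s : Set X} {x : X}
    (h : ContDiffWithinAt ℝ ∞ f s x) : ContDiffWithinAt ℝ ∞ (fun q => (f q).flip) s x :=
  ((ContinuousLinearMap.flipₗᵢ ℝ E Z Y).toContinuousLinearEquiv.contDiff.contDiffAt
    ).comp_contDiffWithinAt _ h

variable [FiniteDimensional ℝ E] {G : F → E → Bil E} {s : Set F} {p : F} {y : E}

theorem isInv {A : Bil E} (h : ∀ v, v ≠ 0 → 0 < A v v) : A.IsInvertible :=
  P210.R2.H53.isInvertible_of_pos (G := fun _ => A) (z := 0) h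

theorem PS.inverse (h : PS G s p y) (hpos : ∀ v, v ≠ 0 → 0 < G p y v v) :
    PS (fun q z => (G q z).inverse) s p y := by
  have : CompleteSpace E := FiniteDimensional.complete ℝ E
  exact ((isInv hpos).contDiffAt_map_inverse).comp_contDiffWithinAt (p, y) h

theorem PS.chrisB (h : PS G s p y) (hp : p ∈ s) (hpos : ∀ v, v ≠ 0 → 0 < G p y v v) :
    PS (fun q => chrisB (G q)) s p y := by
  have hd := h.fderiv hp
  refine ContDiffWithinAt.clm_comp ?_ ?_
  · exact (ContinuousLinearMap.compL ℝ E (E →L[ℝ] ℝ) E).contDiff.contDiffAt.comp_contDiffWithinAt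
      _ (h.inverse hpos)
  · exact ((hd.add (cdw_flip hd)).sub (contDiffWithinAt_const.clm_comp (cdw_flip hd))).const_smul
      (1 / 2 : ℝ)

theorem PS.curvB (h : PS G s p y) (hp : p ∈ s) (hpos : ∀ v, v ≠ 0 → 0 < G p y v v) :
    PS (fun q => curvB (G q)) s p y := by
  have hc := h.chrisB hp hpos
  have h1 : PS (fun q z => (ContinuousLinearMap.compL ℝ E E E).bilinearComp
      (P219.RG.chrisB (G q) z) (P219.RG.chrisB (G q) z)) s p y :=
    cdw_flip ((cdw_flip (contDiffWithinAt_const.clm_comp hc)).clm_comp hc)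
  have h2 := (hc.fderiv hp).add h1
  exact h2.sub (cdw_flip h2)

theorem PS.ricG (h : PS G s p y) (hp : p ∈ s) (hpos : ∀ v, v ≠ 0 → 0 < G p y v v) :
    PS (fun q => ricG (G q)) s p y :=
  contDiffWithinAt_const.clm_comp (contDiffWithinAt_const.clm_comp (cdw_flip (h.curvB hp hpos)))

theorem PS.trB {B : F → E → Bil E} (h : PS G s p y) (hpos : ∀ v, v ≠ 0 → 0 < G p y v v)
    (hB : PS B s p y) : PS (fun q z => trB (G q z) (B q z)) s p y :=
  (trL E).contDiff.contDiffAt.comp_contDiffWithinAt _ ((h.inverse hpos).clm_comp hB)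

theorem PS.scG (h : PS G s p y) (hp : p ∈ s) (hpos : ∀ v, v ≠ 0 → 0 < G p y v v) :
    PS (fun q => scG (G q)) s p y := h.trB hpos (h.ricG hp hpos)

theorem PS.gradG {φ : F → E → ℝ} (h : PS G s p y) (hp : p ∈ s)
    (hpos : ∀ v, v ≠ 0 → 0 < G p y v v) (hφ : PS φ s p y) :
    PS (fun q => gradG (G q) (φ q)) s p y := (h.inverse hpos).clm_apply (hφ.fderiv hp)

theorem PS.gamG {φ ψ : F → E → ℝ} (h : PS G s p y) (hp : p ∈ s)
    (hpos : ∀ v, v ≠ 0 → 0 < G p y v v) (hφ : PS φ s p y) (hψ : PS ψ s p y) :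
    PS (fun q => gamG (G q) (φ q) (ψ q)) s p y := (hφ.fderiv hp).clm_apply (h.gradG hp hpos hψ)

theorem PS.hessG {φ : F → E → ℝ} (h : PS G s p y) (hp : p ∈ s)
    (hpos : ∀ v, v ≠ 0 → 0 < G p y v v) (hφ : PS φ s p y) :
    PS (fun q => hessG (G q) (φ q)) s p y := by
  have h1 := hφ.fderiv hp
  simp only [PS, P210.R2.H53.hessG, chris210]
  exact (h1.fderiv hp).sub ((ContDiffAt.comp_contDiffWithinAt _
    (ContinuousLinearMap.compL ℝ E E ℝ).contDiff.contDiffAt h1).clm_comp (h.chrisB hp hpos))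

theorem PS.lapG {φ : F → E → ℝ} (h : PS G s p y) (hp : p ∈ s)
    (hpos : ∀ v, v ≠ 0 → 0 < G p y v v) (hφ : PS φ s p y) :
    PS (fun q => lapG (G q) (φ q)) s p y := h.trB hpos (h.hessG hp hpos hφ)

theorem PS.nab {k : ℕ} {T : F → E × (Fin k → E) → ℝ} (h : PS G s p y) (hp : p ∈ s)
    (hpos : ∀ v, v ≠ 0 → 0 < G p y v v) {v : Fin (k + 1) → E} (hT : PS T s p (y, Fin.tail v)) :
    PS (fun q => nab (G q) (T q)) s p (y, v) := by
  have h1 : PS (fun q (w : E × (Fin (k + 1) → E)) => _root_.fderiv ℝ (T q) (w.1, Fin.tail w.2))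
      s p (y, v) :=
    ContDiffWithinAt.comp (p, (y, v)) (g := fun q : F × _ => _root_.fderiv ℝ (T q.1) q.2)
      (f := fun q : F × (E × (Fin (k + 1) → E)) => (q.1, (q.2.1, Fin.tail q.2.2))) (hT.fderiv hp)
      (by unfold Fin.tail; fun_prop) fun q hq => mk_mem_prod hq.1 (mem_univ _)
  have h2 := (h.chrisB hp hpos).base v
  have h3 : ∀ i, ContDiffWithinAt ℝ ∞ (fun q : F × (E × (Fin (k + 1) → E)) => q.2.2 i)
      (s ×ˢ univ) (p, (y, v)) := fun i => ContDiff.contDiffWithinAt (by fun_prop)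
  refine h1.clm_apply (ContDiffWithinAt.prodMk (h3 _) (contDiffWithinAt_pi.2 fun b => ?_))
  simp only [← chrisB_apply]
  exact ((h2.clm_apply (h3 _)).clm_apply (h3 _)).neg

end Smooth

end Vale.Agent.P216R
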