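import Vale.Agent.P216R.Loc

/-!
# P216R: chart level: invariance under local isometries
-/

open scoped Manifold ContDiff Topology ENNReal
open Set Filter

set_option maxSynthPendingDepth 3
set_option linter.unusedSectionVars false

noncomputable section

namespace Vale.Agent.P216R

open Vale.Agent.P219.RG
open Vale.Agent.P210.R2.H53 (gradG gamG hessG lapG dens opG)

variable {E : Type} [NormedAddCommGroup E] [NormedSpace ℝ E] [FiniteDimensional ℝ E]

section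
variable {G : E → Bil E} {U : Set E}

/-- the curvature tensor is invariant under isometric changes of coordinates -/
theorem curv_trans (h : IsMetricOn G U) {G₂ : E → E →L[ℝ] E →L[ℝ] ℝ} {U₂ : Set E}
    (h₂ : IsMetricOn G₂ U₂) {τ : E → E} {u : E} (hu : u ∈ U) (hu₂ : ∀ᶠ x in 𝓝 u, τ x ∈ U₂)
    (hτ : ∀ᶠ x in 𝓝 u, ContDiffAt ℝ ∞ τ x)
    (hiso : ∀ᶠ x in 𝓝 u, ∀ v w, G₂ (τ x) (fderiv ℝ τ x v) (fderiv ℝ τ x w) = G x v w)
    (x y z : E) :
    fderiv ℝ τ u (curv G u x y z) =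
      curv G₂ (τ u) (fderiv ℝ τ u x) (fderiv ℝ τ u y) (fderiv ℝ τ u z) := by
  have hτ0 := hτ.self_of_nhds
  have hu₂0 := hu₂.self_of_nhds
  have hd0 : HasFDerivAt τ (fderiv ℝ τ u) u := (hτ0.differentiableAt (by simp)).hasFDerivAt
  have hc1 : ContDiffAt ℝ ∞ (fderiv ℝ τ) u := hτ0.fderiv_right (m := ∞) (by simp)
  have hc2 : ContDiffAt ℝ ∞ (fderiv ℝ (fderiv ℝ τ)) u := hc1.fderiv_right (m := ∞) (by simp)
  have hd1 : HasFDerivAt (fderiv ℝ τ) (fderiv ℝ (fderiv ℝ τ) u) u :=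
    (hc1.differentiableAt (by simp)).hasFDerivAt
  have hd2 : HasFDerivAt (fun p : E => (fderiv ℝ (fderiv ℝ τ) p : E →L[ℝ] E →L[ℝ] E))
      (fderiv ℝ (fderiv ℝ (fderiv ℝ τ)) u : E →L[ℝ] E →L[ℝ] E →L[ℝ] E) u :=
    (hc2.differentiableAt (by simp)).hasFDerivAt
  have s2 : ∀ a b, fderiv ℝ (fderiv ℝ τ) u a b = fderiv ℝ (fderiv ℝ τ) u b a := fun a b =>
    (hτ0.isSymmSndFDerivAt (by simpa only [minSmoothness_of_isRCLikeNormedField] using two_le_infty)) a b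
  have s3 : ∀ a b, fderiv ℝ (fderiv ℝ (fderiv ℝ τ)) u a b =
      fderiv ℝ (fderiv ℝ (fderiv ℝ τ)) u b a := fun a b =>
    (hc1.isSymmSndFDerivAt (by simpa only [minSmoothness_of_isRCLikeNormedField] using two_le_infty)) a b
  have hB : HasFDerivAt (chrisB G) (fderiv ℝ (chrisB G) u) u :=
    (h.differentiableAt_chrisB hu).hasFDerivAt
  have hB₂ : HasFDerivAt (fun p => chrisB G₂ (τ p)) ((fderiv ℝ (chrisB G₂) (τ u)).comp
      (fderiv ℝ τ u)) u :=
    HasFDerivAt.comp (f := τ) (g := chrisB G₂) u (h₂.differentiableAt_chrisB hu₂0).hasFDerivAt hd0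
  have htr : ∀ a b, (fun p => fderiv ℝ τ p (chrisB G p a b)) =ᶠ[𝓝 u]
      fun p => chrisB G₂ (τ p) (fderiv ℝ τ p a) (fderiv ℝ τ p b) + fderiv ℝ (fderiv ℝ τ) p a b := by
    intro a b
    filter_upwards [h.mem_nhds hu, hu₂, hτ, hiso.eventually_nhds] with p h1 h2 h3 h4
    rw [chrisB_apply, chrisB_apply]
    exact h.chris_trans h₂ h1 h2 h3 h4 a b
  have htr0 : ∀ a b, fderiv ℝ τ u (chrisB G u a b) = chrisB G₂ (τ u) (fderiv ℝ τ u a)
      (fderiv ℝ τ u b) + fderiv ℝ (fderiv ℝ τ) u a b := fun a b => (htr a b).self_of_nhds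
  have k := fun (q : E) => (hasFDerivAt_const (𝕜 := ℝ) q u)
  have key : ∀ x y z, fderiv ℝ (fderiv ℝ τ) u x (chrisB G u y z)
        + fderiv ℝ τ u (fderiv ℝ (chrisB G) u x y z) =
      fderiv ℝ (chrisB G₂) (τ u) (fderiv ℝ τ u x) (fderiv ℝ τ u y) (fderiv ℝ τ u z)
        + chrisB G₂ (τ u) (fderiv ℝ (fderiv ℝ τ) u x y) (fderiv ℝ τ u z)
        + chrisB G₂ (τ u) (fderiv ℝ τ u y) (fderiv ℝ (fderiv ℝ τ) u x z)
        + fderiv ℝ (fderiv ℝ (fderiv ℝ τ)) u x y z := by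
    intro x y z
    have l1 := (hd1.clm_apply ((hB.clm_apply (k y)).clm_apply (k z)))
    have r1 := (hB₂.clm_apply (hd1.clm_apply (k y))).clm_apply (hd1.clm_apply (k z))
    have r2' := HasFDerivAt.clm_apply (G := E) (H := E →L[ℝ] E) hd2 (k y)
    have r2 := HasFDerivAt.clm_apply (G := E) (H := E) r2' (k z)
    have e1 := Filter.EventuallyEq.fderiv_eq (𝕜 := ℝ) (htr y z)
    rw [l1.fderiv, (r1.fun_add r2).fderiv] at e1
    have e2 := DFunLike.congr_fun e1 x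
    simp only [add_apply, ContinuousLinearMap.comp_apply, ContinuousLinearMap.flip_apply,
      ContinuousLinearMap.flip_add, ContinuousLinearMap.comp_zero, zero_add] at e2
    rw [← sub_eq_zero] at e2 ⊢
    rw [← e2]
    abel
  have k1 := key x y z
  have k2 := key y x z
  rw [s3 y x, s2 y x] at k2
  rw [h.curv_eq hu, h₂.curv_eq hu₂0, map_sub, map_add, map_sub, htr0 x, htr0 y, htr0 y, htr0 x,
    map_add, map_add]
  have e3 : fderiv ℝ τ u (fderiv ℝ (chrisB G) u x y z) - fderiv ℝ τ u (fderiv ℝ (chrisB G) u y x z)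
      = (fderiv ℝ (fderiv ℝ τ) u x (chrisB G u y z)
        + fderiv ℝ τ u (fderiv ℝ (chrisB G) u x y z))
        - (fderiv ℝ (fderiv ℝ τ) u y (chrisB G u x z)
        + fderiv ℝ τ u (fderiv ℝ (chrisB G) u y x z))
        - fderiv ℝ (fderiv ℝ τ) u x (chrisB G u y z)
        + fderiv ℝ (fderiv ℝ τ) u y (chrisB G u x z) := by abel
  rw [e3, k1, k2]
  abel

end

theorem trace_of_comm {A B L : E →L[ℝ] E} (hL : Function.Injective L) (h : ∀ v, L (A v) = B (L v)) :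
    trL E A = trL E B := by
  let e : E ≃ₗ[ℝ] E := LinearEquiv.ofInjectiveEndo (L : E →ₗ[ℝ] E) hL
  rw [trL_apply, trL_apply, ← LinearMap.trace_conj' _ e]
  congr 1
  ext v
  obtain ⟨v, rfl⟩ := e.surjective v
  simp only [LinearEquiv.conj_apply_apply, e.symm_apply_apply]
  exact h v

theorem surj_of_inj {L : E →L[ℝ] E} (hL : Function.Injective L) : Function.Surjective L :=
  (LinearMap.injective_iff_surjective (f := (L : E →ₗ[ℝ] E))).mp hL

theorem app_inverse {A : Bil E} (h : ∀ v, v ≠ 0 → 0 < A v v) (l : E →L[ℝ] ℝ) :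
    A (A.inverse l) = l := (isInv h).self_apply_inverse l

theorem ext_of_pos {A : Bil E} (h : ∀ v, v ≠ 0 → 0 < A v v) {v w : E} (e : ∀ z, A v z = A w z) :
    v = w := by
  by_contra hne
  have := h (v - w) (sub_ne_zero.2 hne)
  simp [e] at this

theorem inverse_comap {A : Bil E} (h : ∀ v, v ≠ 0 → 0 < A v v) {L : E →L[ℝ] E}
    (hL : Function.Injective L) (l : E →L[ℝ] ℝ) :
    L ((A.bilinearComp L L).inverse (l ∘L L)) = A.inverse l := by
  have h1 : ∀ v, v ≠ 0 → 0 < A.bilinearComp L L v v := fun v hv =>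
    h _ fun h0 => hv (hL (h0.trans (map_zero _).symm))
  refine ext_of_pos h fun z => ?_
  obtain ⟨z, rfl⟩ := surj_of_inj hL z
  rw [app_inverse h]
  exact DFunLike.congr_fun (app_inverse h1 (l ∘L L)) z

theorem trB_comap {A : Bil E} (h : ∀ v, v ≠ 0 → 0 < A v v) {L : E →L[ℝ] E}
    (hL : Function.Injective L) (B : Bil E) :
    trB (A.bilinearComp L L) (B.bilinearComp L L) = trB A B :=
  trace_of_comm (A := (A.bilinearComp L L).inverse ∘L B.bilinearComp L L) (B := A.inverse ∘L B) hL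
    fun v => inverse_comap h hL (B (L v))

/-- `τ` is a local isometry at `u` from `G` to `H` -/
structure Iso (G H : E → Bil E) (τ : E → E) (u : E) : Prop where
  met : ∃ U V, IsMetricOn G U ∧ IsMetricOn H V ∧ u ∈ U ∧ τ u ∈ V
  smooth : ∀ᶠ x in 𝓝 u, ContDiffAt ℝ ∞ τ x
  iso : G =ᶠ[𝓝 u] comap τ H

namespace Iso

variable {G H : E → Bil E} {τ : E → E} {u : E}

theorem cd (h : Iso G H τ u) : ContDiffAt ℝ ∞ τ u := h.smooth.self_of_nhds

theorem iso' (h : Iso G H τ u) :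
    ∀ᶠ x in 𝓝 u, ∀ v w, H (τ x) (fderiv ℝ τ x v) (fderiv ℝ τ x w) = G x v w :=
  h.iso.mono fun x hx v w => by rw [hx, comap_model]

theorem eventually (h : Iso G H τ u) : ∀ᶠ x in 𝓝 u, Iso G H τ x := by
  obtain ⟨U, V, h1, h2, h3, h4⟩ := h.met
  filter_upwards [h1.mem_nhds h3, h.cd.continuousAt.eventually (h2.mem_nhds h4),
    h.smooth.eventually_nhds, h.iso.eventually_nhds] with x x1 x2 x3 x4
  exact ⟨⟨U, V, h1, h2, x1, x2⟩, x3, x4⟩

theorem eq (h : Iso G H τ u) : G u = (H (τ u)).bilinearComp (fderiv ℝ τ u) (fderiv ℝ τ u) := by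
  ext v w; exact (h.iso'.self_of_nhds v w).symm

theorem pos (h : Iso G H τ u) : ∀ v, v ≠ 0 → 0 < H (τ u) v v := by
  obtain ⟨U, V, -, h2, -, h4⟩ := h.met
  exact h2.pos _ h4

theorem inj (h : Iso G H τ u) : Function.Injective (fderiv ℝ τ u) := by
  obtain ⟨U, V, h1, -, h3, -⟩ := h.met
  refine (injective_iff_map_eq_zero _).2 fun v hv => h1.eq_zero h3 ?_
  rw [← h.iso'.self_of_nhds, hv]; simp

theorem chris (h : Iso G H τ u) (v w : E) : fderiv ℝ τ u (chris G u v w) =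
    chris H (τ u) (fderiv ℝ τ u v) (fderiv ℝ τ u w) + fderiv ℝ (fderiv ℝ τ) u v w := by
  obtain ⟨U, V, h1, h2, h3, h4⟩ := h.met
  exact h1.chris_trans h2 h3 h4 h.cd h.iso' v w

theorem curv (h : Iso G H τ u) (x y z : E) : fderiv ℝ τ u (curv G u x y z) =
    curv H (τ u) (fderiv ℝ τ u x) (fderiv ℝ τ u y) (fderiv ℝ τ u z) := by
  obtain ⟨U, V, h1, h2, h3, h4⟩ := h.met
  exact curv_trans h1 h2 h3 (h.cd.continuousAt.eventually (h2.mem_nhds h4)) h.smooth h.iso' x y z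

theorem curvB (h : Iso G H τ u) (x y z : E) : fderiv ℝ τ u (curvB G u x y z) =
    curvB H (τ u) (fderiv ℝ τ u x) (fderiv ℝ τ u y) (fderiv ℝ τ u z) := by
  obtain ⟨U, V, h1, h2, h3, h4⟩ := h.met
  rw [curvB_apply h1 h3, curvB_apply h2 h4, h.curv]

theorem ricG (h : Iso G H τ u) :
    ricG G u = (ricG H (τ u)).bilinearComp (fderiv ℝ τ u) (fderiv ℝ τ u) := by
  ext v w
  exact trace_of_comm h.inj fun x => h.curvB x v w

theorem scG (h : Iso G H τ u) : scG G u = scG H (τ u) := by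
  rw [P216R.scG, h.ricG, h.eq, trB_comap h.pos h.inj]; rfl

theorem nab (h : Iso G H τ u) {k : ℕ} {T S : E × (Fin k → E) → ℝ} {v : Fin (k + 1) → E}
    (hS : DifferentiableAt ℝ S (τ u, fun i => fderiv ℝ τ u (Fin.tail v i)))
    (hT : ∀ᶠ y in 𝓝 u, ∀ w, T (y, w) = S (τ y, fun i => fderiv ℝ τ y (w i))) :
    nab G T (u, v) = nab H S (τ u, fun i => fderiv ℝ τ u (v i)) := by
  have d0 : HasFDerivAt τ (fderiv ℝ τ u) u := (h.cd.differentiableAt (by simp)).hasFDerivAt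
  have d1 : HasFDerivAt (fderiv ℝ τ) (fderiv ℝ (fderiv ℝ τ) u) u :=
    ((h.cd.fderiv_right (m := ∞) (by simp)).differentiableAt (by simp)).hasFDerivAt
  have f1 : HasFDerivAt (fun q : E × (Fin k → E) => q.1) (ContinuousLinearMap.fst ℝ _ _)
      (u, Fin.tail v) := hasFDerivAt_fst
  have f2 : ∀ i, HasFDerivAt (fun q : E × (Fin k → E) => q.2 i)
      (ContinuousLinearMap.proj i ∘L ContinuousLinearMap.snd ℝ E (Fin k → E)) (u, Fin.tail v) :=
    fun i => (ContinuousLinearMap.proj i ∘L ContinuousLinearMap.snd ℝ E (Fin k → E)).hasFDerivAt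
  have d2 := (d0.comp (u, Fin.tail v) f1).prodMk
    (hasFDerivAt_pi.2 fun i => (d1.comp (u, Fin.tail v) f1).clm_apply (f2 i))
  have d3 := hS.hasFDerivAt.comp (u, Fin.tail v) d2
  have e : T =ᶠ[𝓝 (u, Fin.tail v)] _ :=
    ((continuous_fst.tendsto (u, Fin.tail v)).eventually hT).mono fun q hq => hq q.2
  have d4 := (d3.congr_of_eventuallyEq e).fderiv
  simp only [P216R.nab]
  rw [d4]
  simp only [ContinuousLinearMap.comp_apply]
  congr 1
  ext i
  · simp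
  · simp [h.chris, Fin.tail]

theorem gradG (h : Iso G H τ u) {φ ψ : E → ℝ} (hψ : DifferentiableAt ℝ ψ (τ u))
    (e : φ =ᶠ[𝓝 u] ψ ∘ τ) : fderiv ℝ τ u (gradG G φ u) = gradG H ψ (τ u) := by
  simp only [P210.R2.H53.gradG]
  rw [e.fderiv_eq, fderiv_comp u hψ (h.cd.differentiableAt (by simp)), h.eq,
    inverse_comap h.pos h.inj]

theorem gamG (h : Iso G H τ u) {φ ψ φ' ψ' : E → ℝ} (hψ : DifferentiableAt ℝ ψ (τ u))
    (hψ' : DifferentiableAt ℝ ψ' (τ u)) (e : φ =ᶠ[𝓝 u] ψ ∘ τ) (e' : φ' =ᶠ[𝓝 u] ψ' ∘ τ) :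
    gamG G φ φ' u = gamG H ψ ψ' (τ u) := by
  simp only [P210.R2.H53.gamG]
  rw [e.fderiv_eq, fderiv_comp u hψ (h.cd.differentiableAt (by simp)), ← h.gradG hψ' e']; rfl

theorem hessG (h : Iso G H τ u) {φ ψ : E → ℝ} (hψ : ContDiffAt ℝ 2 ψ (τ u))
    (e : φ =ᶠ[𝓝 u] ψ ∘ τ) :
    hessG G φ u = (hessG H ψ (τ u)).bilinearComp (fderiv ℝ τ u) (fderiv ℝ τ u) := by
  have d0 : HasFDerivAt τ (fderiv ℝ τ u) u := (h.cd.differentiableAt (by simp)).hasFDerivAt
  have d1 : HasFDerivAt (fderiv ℝ τ) (fderiv ℝ (fderiv ℝ τ) u) u :=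
    ((h.cd.fderiv_right (m := ∞) (by simp)).differentiableAt (by simp)).hasFDerivAt
  have d2 : HasFDerivAt (fderiv ℝ ψ) (fderiv ℝ (fderiv ℝ ψ) (τ u)) (τ u) :=
    ((hψ.fderiv_right (m := 1) (by norm_num)).differentiableAt (by simp)).hasFDerivAt
  have e1 : fderiv ℝ φ =ᶠ[𝓝 u] fun y => fderiv ℝ ψ (τ y) ∘L fderiv ℝ τ y := by
    filter_upwards [e.fderiv (𝕜 := ℝ), h.smooth,
      d0.continuousAt.eventually (hψ.eventually (by simp))] with y y1 y2 y3
    rw [y1, fderiv_comp y (y3.differentiableAt (by simp)) (y2.differentiableAt (by simp))]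
  have d3 := ((d2.comp u d0).clm_comp d1).congr_of_eventuallyEq e1
  ext v w
  rw [ContinuousLinearMap.bilinearComp_apply, hessG_apply, hessG_apply, d3.fderiv,
    e1.self_of_nhds]
  simp [h.chris]
  ring

theorem lapG (h : Iso G H τ u) {φ ψ : E → ℝ} (hψ : ContDiffAt ℝ 2 ψ (τ u))
    (e : φ =ᶠ[𝓝 u] ψ ∘ τ) : lapG G φ u = lapG H ψ (τ u) := by
  rw [lapG_eq, lapG_eq, h.hessG hψ e, h.eq, trB_comap h.pos h.inj]

end Iso

theorem PS.rmG {F : Type} [NormedAddCommGroup F] [NormedSpace ℝ F] {G : F → E → Bil E}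
    {s : Set F} {p : F} {y : E} (h : PS G s p y) (hp : p ∈ s)
    (hm : ∀ᶠ q in 𝓝[s ×ˢ univ] (p, y), ∃ U, IsMetricOn (G q.1) U ∧ q.2 ∈ U) (k : ℕ)
    (v : Fin (k + 4) → E) : PS (fun q => rmG (G q) k) s p (y, v) := by
  obtain ⟨U, hU, hy⟩ := hm.self_of_nhdsWithin (mk_mem_prod hp (mem_univ _))
  induction k with
  | succ k ih => exact h.nab hp (hU.pos _ hy) (ih _)
  | zero =>
    have h3 : ∀ i, ContDiffWithinAt ℝ ∞ (fun q : F × (E × (Fin 4 → E)) => q.2.2 i)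
        (s ×ˢ univ) (p, (y, v)) := fun i => ContDiff.contDiffWithinAt (by fun_prop)
    have h1 := ((h.base v).clm_apply (((((h.curvB hp (hU.pos _ hy)).base v).clm_apply
      (h3 0)).clm_apply (h3 1)).clm_apply (h3 2))).clm_apply (h3 3)
    have t : Tendsto (fun q : F × (E × (Fin 4 → E)) => (q.1, q.2.1)) (𝓝[s ×ˢ univ] (p, (y, v)))
        (𝓝[s ×ˢ univ] (p, y)) :=
      ContinuousWithinAt.tendsto_nhdsWithin (f := fun q : F × (E × (Fin 4 → E)) => (q.1, q.2.1))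
        (by fun_prop) fun q hq => mk_mem_prod hq.1 (mem_univ _)
    refine h1.congr_of_eventuallyEq ?_ (by simp only [rmG_zero, curvB_apply hU hy])
    filter_upwards [t.eventually hm] with q ⟨V, hV, hq⟩
    simp only [rmG_zero, curvB_apply hV hq]

theorem contDiffAt_rmG {G : E → Bil E} {U : Set E} (h : IsMetricOn G U) {u : E} (hu : u ∈ U)
    (k : ℕ) (v : Fin (k + 4) → E) : ContDiffAt ℝ ∞ (rmG G k) (u, v) := by
  refine PS.contDiffAt (PS.rmG (ps_const (h.contDiffAt hu) univ (0 : ℝ)) (mem_univ _) ?_ k v)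
    (mem_univ _)
  exact mem_nhdsWithin_of_mem_nhds (((continuous_snd.tendsto ((0 : ℝ), u)).eventually
    (h.mem_nhds hu)).mono fun q hq => ⟨U, h, hq⟩)

theorem Iso.rmG {G H : E → Bil E} {τ : E → E} (k : ℕ) : ∀ {u : E}, Iso G H τ u →
    ∀ v : Fin (k + 4) → E, rmG G k (u, v) = rmG H k (τ u, fun i => fderiv ℝ τ u (v i)) := by
  induction k with
  | zero => intro u h v; simp only [rmG_zero]; rw [← h.curv, h.iso'.self_of_nhds]
  | succ k ih =>
    intro u h v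
    obtain ⟨U, V, -, h2, -, h4⟩ := h.met
    exact h.nab ((contDiffAt_rmG h2 h4 k _).differentiableAt (by simp))
      (h.eventually.mono fun y hy => ih hy)

end Vale.Agent.P216R
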