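import Vale.Agent.P219.H381.R2
import Vale.Agent.P210.R2.H53.RDefs

/-!
# P216R: the representation of Riemannian metrics and Ricci flows

Chart level: `G : E → Bil E`, with `chris`, `chrisB`, `curv`, `covD`, `IsMetricOn` of `P219.RG` and
`gradG`, `gamG`, `hessG`, `lapG`, `dens` of `P210.R2.H53`.
Manifold level: `g : Ten E M = M → Bil E` is a field of bilinear forms on the tangent spaces
(read in the preferred chart at each point); `comap f g` is the pull back; `co g a` is the
coordinate expression in the chart at `a`.  Global notions are relative to an open set `U`.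
-/

open scoped Manifold ContDiff Topology ENNReal
open Set MeasureTheory

set_option maxSynthPendingDepth 3

noncomputable section

namespace Vale.Agent.P216R

open Vale.Agent.P219.RG
open Vale.Agent.P210.R2.H53 (gradG gamG hessG lapG dens)

/-- Euclidean three space -/
abbrev E3 : Type := EuclideanSpace ℝ (Fin 3)

/-- continuous bilinear forms -/
abbrev Bil (E : Type) [NormedAddCommGroup E] [NormedSpace ℝ E] : Type := E →L[ℝ] E →L[ℝ] ℝ

section Chart

variable {E : Type} [NormedAddCommGroup E] [NormedSpace ℝ E]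

/-- the curvature as a trilinear map: `curvB G u x y z = curv G u x y z` -/
def curvB (G : E → Bil E) (u : E) : E →L[ℝ] E →L[ℝ] E →L[ℝ] E :=
  (fderiv ℝ (chrisB G) u +
      (ContinuousLinearMap.compL ℝ E E E).bilinearComp (chrisB G u) (chrisB G u)) -
    (fderiv ℝ (chrisB G) u +
      (ContinuousLinearMap.compL ℝ E E E).bilinearComp (chrisB G u) (chrisB G u)).flip

/-- the trace as a continuous linear form -/
def trL (E : Type) [NormedAddCommGroup E] [NormedSpace ℝ E] [FiniteDimensional ℝ E] :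
    (E →L[ℝ] E) →L[ℝ] ℝ :=
  LinearMap.toContinuousLinearMap
    (LinearMap.trace ℝ E ∘ₗ ContinuousLinearMap.coeLM ℝ)

/-- the trace of the form `B` with respect to the form `A` -/
def trB (A B : Bil E) : ℝ := LinearMap.trace ℝ E ((A.inverse ∘L B : E →L[ℝ] E) : E →ₗ[ℝ] E)

/-- Ricci tensor: `ricG G u v w = trace (x ↦ R(x, v) w)` -/
def ricG [FiniteDimensional ℝ E] (G : E → Bil E) (u : E) : Bil E :=
  ContinuousLinearMap.compL ℝ E (E →L[ℝ] E) ℝ (trL E) ∘L
    (ContinuousLinearMap.flipₗᵢ ℝ E E E).toContinuousLinearEquiv.toContinuousLinearMap ∘L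
      (curvB G u).flip

/-- scalar curvature -/
def scG [FiniteDimensional ℝ E] (G : E → Bil E) (u : E) : ℝ := trB (G u) (ricG G u)

/-- covariant derivative of a tensor, seen as a function of the point and of the arguments;
the new argument is the first one -/
def nab (G : E → Bil E) {k : ℕ} (T : E × (Fin k → E) → ℝ) (p : E × (Fin (k + 1) → E)) : ℝ :=
  fderiv ℝ T (p.1, Fin.tail p.2) (p.2 0, fun b => -chris G p.1 (p.2 0) (p.2 b.succ))

/-- the `k`-th covariant derivative of the curvature tensor `g(R(v 0, v 1) v 2, v 3)` -/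
def rmG (G : E → Bil E) : (k : ℕ) → E × (Fin (k + 4) → E) → ℝ
  | 0 => fun p => G p.1 (curv G p.1 (p.2 0) (p.2 1) (p.2 2)) (p.2 3)
  | k + 1 => nab G (rmG G k)

theorem curvB_apply [FiniteDimensional ℝ E] {G : E → Bil E} {U : Set E} (h : IsMetricOn G U)
    {u : E} (hu : u ∈ U) (x y z : E) : curvB G u x y z = curv G u x y z := by
  rw [h.curv_eq hu]
  simp [curvB, chrisB_apply]
  abel

theorem trL_apply [FiniteDimensional ℝ E] (A : E →L[ℝ] E) :
    trL E A = LinearMap.trace ℝ E (A : E →ₗ[ℝ] E) := rfl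

theorem ricG_apply [FiniteDimensional ℝ E] (G : E → Bil E) (u v w : E) :
    ricG G u v w = trL E (((curvB G u).flip v).flip w) := rfl

end Chart

section Mfd

/-- fields of bilinear forms on the tangent spaces -/
abbrev Ten (E : Type) [NormedAddCommGroup E] [NormedSpace ℝ E] (M : Type) : Type := M → Bil E

variable {E : Type} [NormedAddCommGroup E] [NormedSpace ℝ E]
  {M : Type} [TopologicalSpace M] [ChartedSpace E M]
  {N : Type} [TopologicalSpace N] [ChartedSpace E N]

variable (E) in
/-- the differential as an endomorphism of the model space -/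
def md (f : N → M) (x : N) : E →L[ℝ] E := mfderiv 𝓘(ℝ, E) 𝓘(ℝ, E) f x

/-- pull back -/
def comap (f : N → M) (g : Ten E M) : Ten E N :=
  fun x => (g (f x)).bilinearComp (md E f x) (md E f x)

/-- coordinate expression in the chart at `a` -/
def co (g : Ten E M) (a : M) : E → Bil E := comap (chartAt E a).symm g

variable (E) in
/-- the point `x` read in its own chart -/
def pt (x : M) : E := chartAt E x x

variable (E) in
/-- the part of `U` seen in the chart at `a` -/
def dom (a : M) (U : Set M) : Set E := (chartAt E a).target ∩ (chartAt E a).symm ⁻¹' U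

variable (E) in
/-- a function read in the chart at `a` -/
def rd {α : Type} (φ : M → α) (a : M) : E → α := φ ∘ (chartAt E a).symm

variable (E) in
/-- `f` is smooth on the open set `V` with injective differential (a local diffeomorphism) -/
structure LD (f : N → M) (V : Set N) : Prop where
  isOpen : IsOpen V
  smooth : ContMDiffOn 𝓘(ℝ, E) 𝓘(ℝ, E) ∞ f V
  inj : ∀ x ∈ V, Function.Injective (md E f x)

/-- `g` is a smooth Riemannian metric on the open set `U` -/
structure Met (g : Ten E M) (U : Set M) : Prop where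
  isOpen : IsOpen U
  symm : ∀ x ∈ U, ∀ v w, g x v w = g x w v
  pos : ∀ x ∈ U, ∀ v, v ≠ 0 → 0 < g x v v
  smooth : ∀ a, ContDiffOn ℝ ∞ (co g a) (dom E a U)

/-- distinct points of `U` have disjoint neighbourhoods -/
def Hs (U : Set M) : Prop := U.Pairwise fun x y => Disjoint (𝓝 x) (𝓝 y)

/-- the curvature tensor and its covariant derivatives at `x` -/
def Rm (g : Ten E M) (k : ℕ) (x : M) (v : Fin (k + 4) → E) : ℝ := rmG (co g x) k (pt E x, v)

/-- `|∇^k Rm| ≤ C` at `x` (operator norm) -/
def RmB (g : Ten E M) (k : ℕ) (x : M) (C : ℝ) : Prop :=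
  ∀ v : Fin (k + 4) → E, (∀ i, g x (v i) (v i) ≤ 1) → |Rm g k x v| ≤ C

/-- numerator of the sectional curvature of the plane spanned by `v, w` -/
def secN (g : Ten E M) (x : M) (v w : E) : ℝ := g x (curv (co g x) (pt E x) v w w) v

/-- all sectional curvatures at `x` are at least `κ` -/
def SecGe (g : Ten E M) (x : M) (κ : ℝ) : Prop :=
  ∀ v w, κ * (g x v v * g x w w - g x v w ^ 2) ≤ secN g x v w

/-- all sectional curvatures at `x` are at most `κ` -/
def SecLe (g : Ten E M) (x : M) (κ : ℝ) : Prop :=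
  ∀ v w, secN g x v w ≤ κ * (g x v v * g x w w - g x v w ^ 2)

/-- Ricci tensor -/
def Ric [FiniteDimensional ℝ E] (g : Ten E M) : Ten E M := fun x => ricG (co g x) (pt E x)

/-- scalar curvature -/
def Sc [FiniteDimensional ℝ E] (g : Ten E M) (x : M) : ℝ := scG (co g x) (pt E x)

/-- gradient -/
def grad (g : Ten E M) (φ : M → ℝ) (x : M) : E := gradG (co g x) (rd E φ x) (pt E x)

/-- inner product of the gradients -/
def gam (g : Ten E M) (φ ψ : M → ℝ) (x : M) : ℝ := gamG (co g x) (rd E φ x) (rd E ψ x) (pt E x)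

/-- Hessian -/
def hess (g : Ten E M) (φ : M → ℝ) : Ten E M := fun x => hessG (co g x) (rd E φ x) (pt E x)

/-- Laplacian -/
def lap (g : Ten E M) (φ : M → ℝ) (x : M) : ℝ := lapG (co g x) (rd E φ x) (pt E x)

variable (E) in
/-- velocity of a curve -/
def vel (γ : ℝ → M) (t : ℝ) : E := mfderiv 𝓘(ℝ, ℝ) 𝓘(ℝ, E) γ t (1 : ℝ)

/-- speed of a curve -/
def spd (g : Ten E M) (γ : ℝ → M) (t : ℝ) : ℝ := √(g (γ t) (vel E γ t) (vel E γ t))

/-- length of a curve on `[a, b]` -/
def len (g : Ten E M) (γ : ℝ → M) (a b : ℝ) : ℝ≥0∞ :=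
  ∫⁻ t in Ioo a b, ENNReal.ofReal (spd g γ t)

variable (E) in
/-- `γ` is a `C¹` curve on `[a, b]` inside `U` -/
structure Crv (U : Set M) (γ : ℝ → M) (a b : ℝ) : Prop where
  le : a ≤ b
  diff : ContMDiffOn 𝓘(ℝ, ℝ) 𝓘(ℝ, E) 1 γ (Icc a b)
  mem : MapsTo γ (Icc a b) U

/-- the Riemannian distance of `(U, g)` -/
def ed (g : Ten E M) (U : Set M) (x y : M) : ℝ≥0∞ :=
  ⨅ (γ : ℝ → M) (_ : Crv E U γ 0 1) (_ : γ 0 = x) (_ : γ 1 = y), len g γ 0 1

/-- the distance as a real number (`0` between different components) -/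
def dd (g : Ten E M) (U : Set M) (x y : M) : ℝ := (ed g U x y).toReal

/-- open ball -/
def bl (g : Ten E M) (U : Set M) (x : M) (r : ℝ) : Set M := {y | ed g U x y < ENNReal.ofReal r}

/-- closed ball -/
def cbl (g : Ten E M) (U : Set M) (x : M) (r : ℝ) : Set M := {y | ed g U x y ≤ ENNReal.ofReal r}

/-- complete up to radius `R` about `x` -/
def Cpt (g : Ten E M) (U : Set M) (x : M) (R : ℝ) : Prop := ∀ r < R, IsCompact (cbl g U x r)

/-- complete -/
def Cpl (g : Ten E M) (U : Set M) : Prop := ∀ x ∈ U, ∀ r, IsCompact (cbl g U x r)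

/-- `γ` is a geodesic on the set of times `s` (same shape as `P219.RG.IsGeodesicOn`) -/
structure Geo (g : Ten E M) (γ : ℝ → M) (s : Set ℝ) : Prop where
  cont : ContinuousOn γ s
  eqn : ∀ a, ∀ t ∈ s, γ t ∈ (chartAt E a).source →
    DifferentiableAt ℝ (cc (E := E) γ a) t ∧
    DifferentiableAt ℝ (deriv (cc (E := E) γ a)) t ∧
    deriv (deriv (cc (E := E) γ a)) t =
      - chris (co g a) (cc γ a t) (deriv (cc γ a) t) (deriv (cc γ a) t)

/-- `γ` is a unit speed minimising geodesic on `[0, L]` in `U`, defined a little longer -/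
structure MinGeo (g : Ten E M) (U : Set M) (γ : ℝ → M) (L : ℝ) : Prop where
  nonneg : 0 ≤ L
  geo : ∃ ε > 0, Geo g γ (Ioo (-ε) (L + ε)) ∧ MapsTo γ (Ioo (-ε) (L + ε)) U
  unit : ∀ t ∈ Icc 0 L, spd g γ t = 1
  min : ∀ s ∈ Icc 0 L, ∀ t ∈ Icc 0 L, ed g U (γ s) (γ t) = ENNReal.ofReal |s - t|

/-- `μ` is the Riemannian measure of `g` -/
def IsVol [FiniteDimensional ℝ E] [MeasurableSpace E] [BorelSpace E] [MeasurableSpace M]
    (g : Ten E M) (μ : Measure M) : Prop :=
  ∀ a, ∀ S, MeasurableSet S → S ⊆ (chartAt E a).source →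
    μ S = ∫⁻ z in chartAt E a '' S, ENNReal.ofReal (dens (co g a) z) ∂(Module.finBasis ℝ E).addHaar

/-- the Riemannian measure (it exists on second countable manifolds, for every `g`) -/
def vol [FiniteDimensional ℝ E] [MeasurableSpace E] [BorelSpace E] [MeasurableSpace M]
    (g : Ten E M) : Measure M := Classical.epsilon (IsVol g)

/-- a smooth family of Riemannian metrics on `U`, for times in `I` -/
structure Fam (g : ℝ → Ten E M) (I : Set ℝ) (U : Set M) : Prop where
  isOpen : IsOpen U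
  symm : ∀ t ∈ I, ∀ x ∈ U, ∀ v w, g t x v w = g t x w v
  pos : ∀ t ∈ I, ∀ x ∈ U, ∀ v, v ≠ 0 → 0 < g t x v v
  smooth : ∀ a, ContDiffOn ℝ ∞ (fun p : ℝ × E => co (g p.1) a p.2) (I ×ˢ dom E a U)

/-- a Ricci flow on `U`, for times in `I` -/
structure RF [FiniteDimensional ℝ E] (g : ℝ → Ten E M) (I : Set ℝ) (U : Set M) : Prop
    extends Fam g I U where
  eqn : ∀ t ∈ I, ∀ x ∈ U, HasDerivWithinAt (fun s => g s x) ((-2 : ℝ) • Ric (g t) x) I t

end Mfd

end Vale.Agent.P216R
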