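import Vale.Agent.P216R.Exi
import Vale.Agent.P216FB.Gf
import Vale.Agent.P216FB.Ham
import Vale.Agent.P216FB.Boch
import Vale.Agent.P216FB.Bar
import Vale.Agent.P216LS.Cutd
import Vale.Agent.P216TK.Tkb
import Vale.Agent.P216SH.Sht
import Vale.Agent.P216HY.Lncb
import Vale.Agent.P216HY.Fharn
import Vale.Agent.P216EO.Hex
import Vale.Agent.P216EO.Tok
import Vale.Agent.P216EO.Cnloc2
import Vale.Agent.P216EI.Mass
import Vale.Agent.P216EF.Ok
import Vale.Agent.P216D.Rgn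
import Vale.Agent.P216LN.Core
import Vale.Agent.P216G.Win
import Vale.Agent.P216DC.All
import Vale.Agent.P216CP.WinU
import Vale.Agent.P216ST.RF
import Vale.Agent.P216ST.Heat
import Vale.Agent.P216BG.Clamp
import Vale.Agent.P216BG.Bgc
import Vale.Agent.P216BG.Spl
import Vale.Agent.P216N.BCBD
import Vale.Agent.P216FI.NeckM
import Vale.Agent.P216J.Scale
import Vale.Agent.P216U.Tr
import Vale.Agent.P216HV.Regn
import Vale.Agent.P216LP.Lpx
import Vale.Agent.P216SD.Fwd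

/-!
# P216R: the good flows from the remaining blocks
-/

noncomputable section

namespace Vale.Agent.P216R

open Vale.Agent.P216FA

theorem cutD {c₀ : ℝ} (h : 0 < c₀) : ∃ ε₀ > 0, ∃ A > 0, CUTD c₀ A ε₀ :=
  let ⟨ε, e0, A, A0, c, c1, H⟩ := P216LS.cutd (s := 20) (by norm_num) h
  ⟨ε, e0, A, A0, c, c1, fun M _ _ _ _ _ g U U' K φ ψ h δ lo hi η y a1 a2 a3 a4 a5 a6 q hδ =>
    H M g U U' K φ ψ y h δ lo hi η a1 a3 a5 a2 a4 a6 q.neck hδ q.side q.cut q.met⟩

theorem winn_all : WINN := P216G.winn P216SD.rat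

theorem bca_all : BCA := P216G.bca P216CP.winA' winn_all P216N.bcbd

theorem core_all : CORE :=
  P216LN.core (P216LN.st1 bca_all P216CP.winA') (P216LN.ext P216CP.winA' P216HV.regn)
    (P216HY.bnd' P216LP.lpx' bca_all) (P216HY.kout' P216LP.lpx')

theorem cnloc_of (h : SOUT) : CNLOC :=
  P216EO.cnloc P216J.scale P216U.tr P216BG.als P216DC.kcn_all (P216LN.lcn core_all h)

theorem hex_all : P216FB.HEX :=
  P216EO.hex (P216ST.heat E3) (P216FB.ham P216FB.boch)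
    (P216EI.mass (P216EF.fok E3 (P216EO.tok E3))) P216BG.clamp

theorem tkb_all : P216FB.TKB :=
  P216TK.tkb P216EO.env (P216G.nkp P216J.scale P216CP.winA' winn_all) P216N.bcbd P216FI.neckm
    P216BG.bgc

/-- the no collapsing theorems -/
def NCA : Prop := ∃ c₀ > 0, ∀ A > 0, P216FB.NCM (P216E.Tb c₀ A) ∧ P216E.NCG (P216E.Tb c₀ A)

theorem gf2_of (h1 : SOUT) (h2 : CUTL) (h3 : NCA) : P216C.GF2 := by
  obtain ⟨c₀, c0, H⟩ := h3
  obtain ⟨ε₀, e0, A, A0, K⟩ := cutD c0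
  exact P216FB.gf2 (P216FB.gfi _ (exi (P216ST.ste E3) (cnloc_of h1) h2 K e0 (H A A0).2)
    (P216HY.lncb _ hex_all (P216D.rgn P216FB.bar) P216D.rg0 P216EO.adp (H A A0).1) (cnloc_of h1)
    P216EO.env tkb_all (P216SH.sht P216EO.env P216CP.winB'))

end Vale.Agent.P216R
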