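import Vale.Agent.P216R.Defs

/-!
# P216R: pull backs, charts, local diffeomorphisms, metrics
-/

open scoped Manifold ContDiff Topology ENNReal
open Set Filter

set_option maxSynthPendingDepth 3
set_option linter.unusedSectionVars false

noncomputable section

namespace Vale.Agent.P216R

open Vale.Agent.P219.RG

variable {E : Type} [NormedAddCommGroup E] [NormedSpace ℝ E]
  {M : Type} [TopologicalSpace M] [ChartedSpace E M]
  {N : Type} [TopologicalSpace N] [ChartedSpace E N]
  {P : Type} [TopologicalSpace P] [ChartedSpace E P]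

/-- differentiable at a point -/
abbrev MD (E : Type) [NormedAddCommGroup E] [NormedSpace ℝ E]
    {M : Type} [TopologicalSpace M] [ChartedSpace E M]
    {N : Type} [TopologicalSpace N] [ChartedSpace E N] (f : N → M) (x : N) : Prop :=
  MDifferentiableAt 𝓘(ℝ, E) 𝓘(ℝ, E) f x

/-- smooth at a point -/
abbrev SM (E : Type) [NormedAddCommGroup E] [NormedSpace ℝ E]
    {M : Type} [TopologicalSpace M] [ChartedSpace E M]
    {N : Type} [TopologicalSpace N] [ChartedSpace E N] (f : N → M) (x : N) : Prop :=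
  ContMDiffAt 𝓘(ℝ, E) 𝓘(ℝ, E) ∞ f x

theorem SM.md {f : N → M} {x : N} (h : SM E f x) : MD E f x := h.mdifferentiableAt (by simp)

theorem md_model (f : E → E) (x : E) : md E f x = fderiv ℝ f x := mfderiv_eq_fderiv

theorem md_id (x : M) : md E (id : M → M) x = ContinuousLinearMap.id ℝ E := mfderiv_id

theorem md_congr {f f' : N → M} {x : N} (h : f =ᶠ[𝓝 x] f') : md E f x = md E f' x :=
  h.mfderiv_eq

theorem md_comp {f : N → M} {k : P → N} {x : P} (hf : MD E f (k x)) (hk : MD E k x) :
    md E (f ∘ k) x = md E f (k x) ∘L md E k x := mfderiv_comp x hf hk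

theorem comap_apply (f : N → M) (g : Ten E M) (x : N) (v w : E) :
    comap f g x v w = g (f x) (md E f x v) (md E f x w) := rfl

theorem comap_model (f : E → E) (G : E → Bil E) (x v w : E) :
    comap f G x v w = G (f x) (fderiv ℝ f x v) (fderiv ℝ f x w) := by
  rw [comap_apply, md_model]

theorem comap_id (g : Ten E M) : comap id g = g := by
  funext x; ext v w; simp [comap_apply, md_id]

theorem comap_comp {f : N → M} {k : P → N} (g : Ten E M) {x : P} (hf : MD E f (k x))
    (hk : MD E k x) : comap k (comap f g) x = comap (f ∘ k) g x := by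
  ext v w; simp [comap_apply, md_comp hf hk]

theorem comap_congr {f f' : N → M} (g : Ten E M) {x : N} (h : f =ᶠ[𝓝 x] f') :
    comap f g x = comap f' g x := by
  ext v w; rw [comap_apply, comap_apply, md_congr h, h.self_of_nhds]

theorem comap_congr_right (f : N → M) {g h : Ten E M} {x : N} (hx : g (f x) = h (f x)) :
    comap f g x = comap f h x := by
  ext v w; rw [comap_apply, comap_apply, hx]

theorem comap_smul (f : N → M) (c : ℝ) (g : Ten E M) : comap f (c • g) = c • comap f g := by
  funext x; ext v w; simp [comap_apply]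

theorem comap_add (f : N → M) (g h : Ten E M) : comap f (g + h) = comap f g + comap f h := by
  funext x; ext v w; simp [comap_apply]

theorem comap_sub (f : N → M) (g h : Ten E M) : comap f (g - h) = comap f g - comap f h := by
  funext x; ext v w; simp [comap_apply]

theorem co_smul (c : ℝ) (g : Ten E M) (a : M) : co (c • g) a = c • co g a := comap_smul _ _ _

theorem co_add (g h : Ten E M) (a : M) : co (g + h) a = co g a + co h a := comap_add _ _ _

theorem co_sub (g h : Ten E M) (a : M) : co (g - h) a = co g a - co h a := comap_sub _ _ _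

@[simp] theorem co_model (G : E → Bil E) (a : E) : co G a = G := comap_id G

@[simp] theorem pt_model (a : E) : pt E a = a := rfl

@[simp] theorem rd_model {α : Type} (φ : E → α) (a : E) : rd E φ a = φ := rfl

@[simp] theorem dom_model (a : E) (U : Set E) : dom E a U = U := by
  ext u; simp [dom, chartAt_self_eq]

theorem symm_pt (x : M) : (chartAt E x).symm (pt E x) = x :=
  (chartAt E x).left_inv (mem_chart_source E x)

theorem pt_mem (x : M) : pt E x ∈ (chartAt E x).target :=
  (chartAt E x).map_source (mem_chart_source E x)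

theorem rd_pt {α : Type} (φ : M → α) (x : M) : rd E φ x (pt E x) = φ x := by
  simp [rd, symm_pt]

theorem mem_dom {a x : M} {U : Set M} (ha : x ∈ (chartAt E a).source) (hx : x ∈ U) :
    chartAt E a x ∈ dom E a U :=
  ⟨(chartAt E a).map_source ha, by simpa [(chartAt E a).left_inv ha] using hx⟩

theorem pt_mem_dom {x : M} {U : Set M} (hx : x ∈ U) : pt E x ∈ dom E x U :=
  mem_dom (mem_chart_source E x) hx

theorem isOpen_dom (a : M) {U : Set M} (hU : IsOpen U) : IsOpen (dom E a U) :=
  (chartAt E a).continuousOn_symm.isOpen_inter_preimage (chartAt E a).open_target hU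

theorem dom_mono (a : M) {U V : Set M} (h : U ⊆ V) : dom E a U ⊆ dom E a V :=
  fun _ hu => ⟨hu.1, h hu.2⟩

theorem tendsto_symm {a : M} {u : E} (hu : u ∈ (chartAt E a).target) :
    Tendsto (chartAt E a).symm (𝓝 u) (𝓝 ((chartAt E a).symm u)) :=
  (chartAt E a).continuousAt_symm hu

theorem tendsto_symm_pt (x : M) : Tendsto (chartAt E x).symm (𝓝 (pt E x)) (𝓝 x) := by
  have := tendsto_symm (pt_mem (E := E) x)
  rwa [symm_pt] at this

theorem rd_congr {α : Type} {φ ψ : M → α} {x : M} (h : φ =ᶠ[𝓝 x] ψ) :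
    rd E φ x =ᶠ[𝓝 (pt E x)] rd E ψ x := (tendsto_symm_pt x).eventually h

theorem co_congr' {g h : Ten E M} {a : M} {u : E} (hu : u ∈ (chartAt E a).target)
    (H : g =ᶠ[𝓝 ((chartAt E a).symm u)] h) : co g a =ᶠ[𝓝 u] co h a := by
  filter_upwards [(tendsto_symm hu).eventually H] with y hy using comap_congr_right _ hy

theorem co_congr {g h : Ten E M} {x : M} (H : g =ᶠ[𝓝 x] h) :
    co g x =ᶠ[𝓝 (pt E x)] co h x :=
  co_congr' (pt_mem x) (by rwa [symm_pt])

theorem Hs.mono {U V : Set M} (h : Hs U) (hV : V ⊆ U) : Hs V := Set.Pairwise.mono hV h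

theorem hs_of_t2 [T2Space M] (U : Set M) : Hs U := fun _ _ _ _ h => disjoint_nhds_nhds.2 h

/-! ### local diffeomorphisms -/

theorem LD.sm {f : N → M} {V : Set N} (h : LD E f V) {x : N} (hx : x ∈ V) : SM E f x :=
  h.smooth.contMDiffAt (h.isOpen.mem_nhds hx)

theorem LD.md {f : N → M} {V : Set N} (h : LD E f V) {x : N} (hx : x ∈ V) : MD E f x :=
  (h.sm hx).md

theorem LD.continuousAt {f : N → M} {V : Set N} (h : LD E f V) {x : N} (hx : x ∈ V) :
    ContinuousAt f x := (h.sm hx).continuousAt

theorem LD.mono {f : N → M} {V W : Set N} (h : LD E f V) (hW : IsOpen W) (hWV : W ⊆ V) :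
    LD E f W := ⟨hW, h.smooth.mono hWV, fun x hx => h.inj x (hWV hx)⟩

theorem LD.comp {f : N → M} {V : Set N} {k : P → N} {W : Set P} (h : LD E f V) (hk : LD E k W)
    (hm : MapsTo k W V) : LD E (f ∘ k) W :=
  ⟨hk.isOpen, h.smooth.comp hk.smooth hm, fun x hx => by
    rw [md_comp (h.md (hm hx)) (hk.md hx)]
    exact (h.inj _ (hm hx)).comp (hk.inj x hx)⟩

theorem LD.congr {f f' : N → M} {V : Set N} (h : LD E f V) (he : EqOn f' f V) : LD E f' V :=
  ⟨h.isOpen, h.smooth.congr he, fun x hx => by
    rw [md_congr (he.eventuallyEq_of_mem (h.isOpen.mem_nhds hx))]; exact h.inj x hx⟩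

theorem ld_id {V : Set M} (hV : IsOpen V) : LD E id V :=
  ⟨hV, contMDiffOn_id, fun x _ => by rw [md_id]; exact Function.injective_id⟩

theorem ld_model {f : E → E} {V : Set E} (hV : IsOpen V) (hf : ContDiffOn ℝ ∞ f V)
    (hi : ∀ x ∈ V, Function.Injective (fderiv ℝ f x)) : LD E f V :=
  ⟨hV, hf.contMDiffOn, fun x hx => by rw [md_model]; exact hi x hx⟩

theorem LD.contDiffOn {f : E → E} {V : Set E} (h : LD E f V) : ContDiffOn ℝ ∞ f V :=
  h.smooth.contDiffOn

theorem LD.inj' {f : E → E} {V : Set E} (h : LD E f V) {x : E} (hx : x ∈ V) :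
    Function.Injective (fderiv ℝ f x) := by rw [← md_model]; exact h.inj x hx

/-- a smooth map with a differentiable left inverse is a local diffeomorphism -/
theorem ld_of_left_inv {f : N → M} {V : Set N} (hV : IsOpen V)
    (hf : ContMDiffOn 𝓘(ℝ, E) 𝓘(ℝ, E) ∞ f V) {k : M → N} (hk : ∀ x ∈ V, MD E k (f x))
    (hi : ∀ x ∈ V, k (f x) = x) : LD E f V := by
  refine ⟨hV, hf, fun x hx => ?_⟩
  have h1 : MD E f x := SM.md (hf.contMDiffAt (hV.mem_nhds hx))
  have h2 : (k ∘ f) =ᶠ[𝓝 x] id := by
    filter_upwards [hV.mem_nhds hx] with y hy using hi y hy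
  have h3 := md_comp (hk x hx) h1
  rw [md_congr h2, md_id] at h3
  intro v w hvw
  have e1 := congrArg (fun L => L v) h3
  have e2 := congrArg (fun L => L w) h3
  simp only [ContinuousLinearMap.id_apply, ContinuousLinearMap.comp_apply] at e1 e2
  rw [e1, e2, hvw]

theorem LD.surj [FiniteDimensional ℝ E] {f : N → M} {V : Set N} (h : LD E f V) {x : N}
    (hx : x ∈ V) : Function.Surjective (P216R.md E f x) :=
  (LinearMap.injective_iff_surjective (f := (P216R.md E f x : E →ₗ[ℝ] E))).mp (h.inj x hx)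

section Smooth

variable [IsManifold 𝓘(ℝ, E) ∞ M]

theorem sm_chart {a x : M} (hx : x ∈ (chartAt E a).source) : SM E (chartAt E a) x :=
  (contMDiffOn_chart (I := 𝓘(ℝ, E)) (n := ∞) (x := a)).contMDiffAt
    ((chartAt E a).open_source.mem_nhds hx)

theorem sm_symm {a : M} {u : E} (hu : u ∈ (chartAt E a).target) : SM E (chartAt E a).symm u :=
  (contMDiffOn_chart_symm (I := 𝓘(ℝ, E)) (n := ∞) (x := a)).contMDiffAt
    ((chartAt E a).open_target.mem_nhds hu)

theorem ld_chart (a : M) : LD E (chartAt E a) (chartAt E a).source :=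
  ld_of_left_inv (chartAt E a).open_source (contMDiffOn_chart (I := 𝓘(ℝ, E)))
    (fun _ hx => (sm_symm ((chartAt E a).map_source hx)).md) fun _ hx => (chartAt E a).left_inv hx

theorem ld_symm (a : M) : LD E (chartAt E a).symm (chartAt E a).target :=
  ld_of_left_inv (chartAt E a).open_target (contMDiffOn_chart_symm (I := 𝓘(ℝ, E)))
    (fun _ hx => (sm_chart ((chartAt E a).map_target hx)).md) fun _ hx => (chartAt E a).right_inv hx

theorem md_chart_self (x : M) : md E (chartAt E x) x = ContinuousLinearMap.id ℝ E := by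
  have h : MD E (chartAt E x) x := (sm_chart (mem_chart_source E x)).md
  refine h.mfderiv.trans ?_
  have h2 : writtenInExtChartAt 𝓘(ℝ, E) 𝓘(ℝ, E) x (chartAt E x) =ᶠ[𝓝 (pt E x)] id := by
    filter_upwards [(chartAt E x).open_target.mem_nhds (pt_mem x)] with y hy
    simp [writtenInExtChartAt, (chartAt E x).right_inv hy, chartAt_self_eq]
  simp only [modelWithCornersSelf_coe, range_id, fderivWithin_univ]
  exact h2.fderiv_eq.trans fderiv_id

theorem md_symm_pt (x : M) : md E (chartAt E x).symm (pt E x) = ContinuousLinearMap.id ℝ E := by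
  have h1 : ((chartAt E x).symm ∘ chartAt E x : M → M) =ᶠ[𝓝 x] id := by
    filter_upwards [(chartAt E x).open_source.mem_nhds (mem_chart_source E x)] with y hy
    exact (chartAt E x).left_inv hy
  have h2 := md_comp (k := chartAt E x) (x := x) (sm_symm (pt_mem (E := E) x)).md
    (sm_chart (mem_chart_source E x)).md
  rw [md_congr h1, md_id, md_chart_self] at h2
  simpa [pt] using h2.symm

theorem co_pt (g : Ten E M) (x : M) : co g x (pt E x) = g x := by
  ext v w
  rw [co, comap_apply, md_symm_pt, symm_pt]; rfl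

/-- a metric is the pull back of its coordinate expression -/
theorem comap_chart (g : Ten E M) {a x : M} (hx : x ∈ (chartAt E a).source) :
    comap (chartAt E a) (co g a) x = g x := by
  rw [co, comap_comp g (sm_symm ((chartAt E a).map_source hx)).md (sm_chart hx).md,
    comap_congr g (f' := id), comap_id]
  filter_upwards [(chartAt E a).open_source.mem_nhds hx] with y hy
  exact (chartAt E a).left_inv hy

/-- pull back along any map, through a chart of the target -/
theorem comap_eq (g : Ten E M) {f : N → M} {y : N} {a : M} (hf : MD E f y)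
    (ha : f y ∈ (chartAt E a).source) :
    comap f g y = comap (chartAt E a ∘ f) (co g a) y := by
  rw [← comap_comp _ (sm_chart ha).md hf]
  exact comap_congr_right f (comap_chart g ha).symm

theorem contDiffAt_chart_comp {ψ : E → M} {y : E} {a : M} (h : SM E ψ y)
    (ha : ψ y ∈ (chartAt E a).source) : ContDiffAt ℝ ∞ (chartAt E a ∘ ψ) y :=
  ((sm_chart ha).comp y h).contDiffAt

theorem SM.eventually {f : N → M} {x : N} [IsManifold 𝓘(ℝ, E) ∞ N] (h : SM E f x) :
    ∀ᶠ y in 𝓝 x, MD E f y := by
  have h1 : ContMDiffAt 𝓘(ℝ, E) 𝓘(ℝ, E) 1 f x := h.of_le (by exact_mod_cast le_top)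
  filter_upwards [(contMDiffAt_iff_contMDiffAt_nhds (by simp)).1 h1] with y hy
  exact hy.mdifferentiableAt (by simp)

end Smooth

/-- smoothness of a pull back in the model space, with parameters -/
theorem contDiffWithinAt_comap {F : Type} [NormedAddCommGroup F] [NormedSpace ℝ F]
    {G : F → E → Bil E} {τ : E → E} {s : Set F} {p : F} {y : E}
    (hG : ContDiffWithinAt ℝ ∞ (fun q : F × E => G q.1 q.2) (s ×ˢ univ) (p, τ y))
    (hτ : ContDiffAt ℝ ∞ τ y) :
    ContDiffWithinAt ℝ ∞ (fun q : F × E => comap τ (G q.1) q.2) (s ×ˢ univ) (p, y) := by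
  have h0 : ContDiffWithinAt ℝ ∞ (fun q : F × E => (q.1, τ q.2)) (s ×ˢ univ) (p, y) :=
    (contDiffAt_fst.prodMk (ContDiffAt.comp (p, y) (g := τ) hτ contDiffAt_snd)).contDiffWithinAt
  have h1 : ContDiffWithinAt ℝ ∞ (fun q : F × E => G q.1 (τ q.2)) (s ×ˢ univ) (p, y) :=
    ContDiffWithinAt.comp (p, y) (g := fun q : F × E => G q.1 q.2) hG h0
      fun q hq => mk_mem_prod hq.1 (mem_univ _)
  have h2 : ContDiffWithinAt ℝ ∞ (fun q : F × E => fderiv ℝ τ q.2) (s ×ˢ univ) (p, y) :=
    (ContDiffAt.comp (p, y) (g := fderiv ℝ τ) (hτ.fderiv_right (m := ∞) (by simp))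
      contDiffAt_snd).contDiffWithinAt
  have hf : ∀ f : F × E → Bil E, ContDiffWithinAt ℝ ∞ f (s ×ˢ univ) (p, y) →
      ContDiffWithinAt ℝ ∞ (fun q => (f q).flip) (s ×ˢ univ) (p, y) := fun f hf =>
    ((ContinuousLinearMap.flipₗᵢ ℝ E E ℝ).toContinuousLinearEquiv.contDiff.contDiffAt
      ).comp_contDiffWithinAt _ hf
  have h3 := hf _ ((hf _ (h1.clm_comp h2)).clm_comp h2)
  refine h3.congr (fun q _ => ?_) ?_ <;>
  · ext v w
    rw [comap_model]; rfl

theorem contDiffAt_comap {G : E → Bil E} {τ : E → E} {y : E} (hG : ContDiffAt ℝ ∞ G (τ y))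
    (hτ : ContDiffAt ℝ ∞ τ y) : ContDiffAt ℝ ∞ (comap τ G) y := by
  have h := contDiffWithinAt_comap (F := ℝ) (G := fun _ => G) (s := univ) (p := 0)
    (ContDiffAt.comp ((0 : ℝ), τ y) (g := G) hG contDiffAt_snd).contDiffWithinAt hτ
  rw [univ_prod_univ, contDiffWithinAt_univ] at h
  exact h.comp y (f := fun y => ((0 : ℝ), y)) (contDiffAt_const.prodMk contDiffAt_id)

end Vale.Agent.P216R
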