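import Vale.Agent.P216R.Met
import Vale.Agent.P216SG.Glue

/-!
# P216R: one ambient manifold in which `N` successive caps can be attached

All possible caps are glued in advance, level by level.
-/

open scoped Manifold ContDiff Topology
open Set Function

noncomputable section

namespace Vale.Agent.P216R

open Vale.Agent.P216SG

variable {E : Type} [NormedAddCommGroup E] [NormedSpace ℝ E] [FiniteDimensional ℝ E]

section One

variable {M : Type} [TopologicalSpace M] [ChartedSpace E M] [IsManifold 𝓘(ℝ, E) ∞ M]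

/-- an injective local diffeomorphism from the model space as a homeomorphism onto its image -/
def LD.toH {e : E → M} {S : Set E} (h : LD E e S) (hi : InjOn e S) : OpenPartialHomeomorph E M where
  toFun := e
  invFun := invFunOn e S
  source := S
  target := e '' S
  map_source' := fun _ hx => mem_image_of_mem _ hx
  map_target' := fun _ hx => invFunOn_mem hx
  left_inv' := fun _ hx => hi.leftInvOn_invFunOn hx
  right_inv' := fun _ hx => invFunOn_eq hx
  open_source := h.isOpen
  open_target := h.isOpen_image h.isOpen Subset.rfl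
  continuousOn_toFun := h.smooth.continuousOn
  continuousOn_invFun := (h.inverse hi).smooth.continuousOn

theorem LD.toH_mem {e : E → M} {S : Set E} (h : LD E e S) (hi : InjOn e S) :
    (h.toH hi).symm ∈ IsManifold.maximalAtlas 𝓘(ℝ, E) ∞ M :=
  OpenPartialHomeomorph.mem_maximalAtlas_of_contMDiffOn _ (h.inverse hi).smooth h.smooth

variable (E) in
/-- every embedding of an open set `S` of the model space into `A` extends to every open set
`B ⊇ S`, the new points being in `C` -/
def Caps (A C : Set M) : Prop :=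
  ∀ (e : E → M) (S B : Set E), LD E e S → InjOn e S → MapsTo e S A → IsOpen B → S ⊆ B →
    ∃ c : E → M, LD E c B ∧ InjOn c B ∧ EqOn c e S ∧ MapsTo c (B \ S) C

variable (E M) in
/-- the index set of all caps -/
def CapIdx : Type :=
  {p : OpenPartialHomeomorph E M × Set E //
    IsOpen p.2 ∧ p.1.source ⊆ p.2 ∧ p.1.symm ∈ IsManifold.maximalAtlas 𝓘(ℝ, E) ∞ M}

variable (E M) in
/-- the gluing data of all caps -/
def allCaps : Dat E M (CapIdx E M) :=
  ⟨fun i => i.1.1, fun i => i.1.2, fun i => i.2.1, fun i => i.2.2.1⟩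

omit [FiniteDimensional ℝ E] in
theorem allCaps_isManifold : IsManifold 𝓘(ℝ, E) ∞ (allCaps E M).G :=
  Dat.isManifold fun i => i.2.2.2

omit [FiniteDimensional ℝ E] [IsManifold 𝓘(ℝ, E) ∞ M] in
theorem ld_inl {ι : Type} (D : Dat E M ι) : LD E D.inl univ :=
  ⟨isOpen_univ, Dat.contMDiff_inl.contMDiffOn, fun x _ => by
    have : md E D.inl x = ContinuousLinearMap.id ℝ E := (Dat.hasMFDerivAt_inl x).mfderiv
    rw [this]; exact injective_id⟩

omit [FiniteDimensional ℝ E] [IsManifold 𝓘(ℝ, E) ∞ M] in
theorem ld_cap {ι : Type} (D : Dat E M ι) [IsManifold 𝓘(ℝ, E) ∞ D.G] (i : ι) :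
    LD E (D.cap i) (D.B i) := by
  have hm : (D.capH i).symm ∈ IsManifold.maximalAtlas 𝓘(ℝ, E) ∞ D.G :=
    IsManifold.subset_maximalAtlas (Dat.capH_mem_atlas i)
  refine ld_of_left_inv (D.opn i) (contMDiffOn_symm_of_mem_maximalAtlas hm) (k := D.cinv i)
    (fun x hx => ?_) fun x hx => Dat.cinv_cap hx
  exact (contMDiffAt_of_mem_maximalAtlas hm (mem_image_of_mem _ hx)).mdifferentiableAt (by simp)

theorem caps_allCaps [Nonempty M] :
    Caps E (range (allCaps E M).inl) (range (allCaps E M).inl)ᶜ := by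
  have := allCaps_isManifold (E := E) (M := M)
  intro e S B he hi hm hB hSB
  focus
    have hinl := ld_inl (allCaps E M)
    have hinj : InjOn (allCaps E M).inl univ := Dat.inl_injective.injOn
    have hk := hinl.inverse hinj
    rw [image_univ] at hk
    have he' : LD E (invFunOn (allCaps E M).inl univ ∘ e) S := hk.comp he hm
    have hr : ∀ y ∈ S, (allCaps E M).inl (invFunOn (allCaps E M).inl univ (e y)) = e y :=
      fun y hy => invFunOn_eq (by obtain ⟨x, hx⟩ := hm hy; exact ⟨x, mem_univ _, hx⟩)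
    have hi' : InjOn (invFunOn (allCaps E M).inl univ ∘ e) S := fun a ha b hb hab =>
      hi ha hb (by rw [← hr a ha, ← hr b hb]; exact congrArg _ hab)
    let i : CapIdx E M := ⟨(he'.toH hi', B), hB, hSB, he'.toH_mem hi'⟩
    refine ⟨(allCaps E M).cap i, ld_cap _ i, fun a ha b hb hab => ?_, fun y hy => ?_,
      fun y hy => ?_⟩
    · rw [← Dat.cinv_cap (D := allCaps E M) (i := i) ha, hab, Dat.cinv_cap hb]
    · exact (Dat.cap_of_mem (D := allCaps E M) (i := i) hy).trans (hr y hy)
    · rintro ⟨x, hx⟩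
      exact hy.2 ((Dat.cap_eq_inl (D := allCaps E M) (i := i) hy.1).1 hx.symm).1

/-- caps are transported by an injective local diffeomorphism -/
theorem Caps.image {M' : Type} [TopologicalSpace M'] [ChartedSpace E M'] [IsManifold 𝓘(ℝ, E) ∞ M']
    {A C : Set M} (h : Caps E A C) {j : M → M'} (hj : LD E j univ) (hi : Injective j)
    [Nonempty M] : Caps E (j '' A) (j '' C) := by
  intro e S B he hie hm hB hSB
  have hk := hj.inverse hi.injOn
  have hm' : MapsTo e S (j '' univ) := fun y hy => image_mono (subset_univ _) (hm hy)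
  have hr : ∀ y ∈ S, j (invFunOn j univ (e y)) = e y := fun y hy => invFunOn_eq (hm' hy)
  obtain ⟨c, c1, c2, c3, c4⟩ := h (invFunOn j univ ∘ e) S B (hk.comp he hm')
    (fun a ha b hb hab => hie ha hb (by rw [← hr a ha, ← hr b hb]; exact congrArg _ hab))
    (fun y hy => by
      obtain ⟨x, hx, hxy⟩ := hm hy
      have : invFunOn j univ (e y) = x := hi ((hr y hy).trans hxy.symm)
      simpa [this] using hx) hB hSB
  exact ⟨j ∘ c, hj.comp c1 (mapsTo_univ _ _), hi.comp_injOn c2,
    fun y hy => (congrArg j (c3 hy)).trans (hr y hy), fun y hy => mem_image_of_mem _ (c4 hy)⟩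

omit [FiniteDimensional ℝ E] [IsManifold 𝓘(ℝ, E) ∞ M] in
theorem Caps.mono {A A' C C' : Set M} (h : Caps E A C) (hA : A' ⊆ A) (hC : C ⊆ C') :
    Caps E A' C' := fun e S B he hi hm hB hSB => by
  obtain ⟨c, c1, c2, c3, c4⟩ := h e S B he hi (hm.mono_right hA) hB hSB
  exact ⟨c, c1, c2, c3, c4.mono_right hC⟩

end One

/-- the universal ambient manifold with `N` levels of caps -/
theorem exists_univ (N : ℕ) : ∀ (M₀ : Type) [TopologicalSpace M₀] [ChartedSpace E M₀]
    [IsManifold 𝓘(ℝ, E) ∞ M₀] [Nonempty M₀],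
    ∃ (M : Type) (_ : TopologicalSpace M) (_ : ChartedSpace E M) (_ : IsManifold 𝓘(ℝ, E) ∞ M)
      (j : M₀ → M) (L : ℕ → Set M), LD E j univ ∧ Injective j ∧ L 0 = range j ∧ Monotone L ∧
      (∀ n, IsOpen (L n)) ∧ ∀ n < N, Caps E (L n) (L (n + 1) \ L n) := by
  induction N with
  | zero =>
    intro M₀ _ _ _ _
    exact ⟨M₀, _, _, inferInstance, id, fun _ => univ, ld_id isOpen_univ, injective_id,
      range_id.symm, monotone_const, fun _ => isOpen_univ, fun n hn => absurd hn n.not_lt_zero⟩
  | succ N ih =>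
    intro M₀ _ _ _ h0
    have := allCaps_isManifold (E := E) (M := M₀)
    have : Nonempty (allCaps E M₀).G := h0.map (allCaps E M₀).inl
    obtain ⟨M, _, _, _, j, L, h1, h2, h3, h4, h5, h6⟩ := ih (allCaps E M₀).G
    have hj : LD E (j ∘ (allCaps E M₀).inl) univ := h1.comp (ld_inl _) (mapsTo_univ _ _)
    have hsub : range (j ∘ (allCaps E M₀).inl) ⊆ L 0 := h3 ▸ range_comp_subset_range _ _
    refine ⟨M, _, _, inferInstance, j ∘ (allCaps E M₀).inl,
      fun n => Nat.casesOn n (range (j ∘ (allCaps E M₀).inl)) L, hj, h2.comp Dat.inl_injective, rfl,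
      monotone_nat_of_le_succ fun n => ?_, fun n => ?_, fun n hn => ?_⟩
    · cases n with
      | zero => exact hsub
      | succ n => exact h4 n.le_succ
    · cases n with
      | zero => exact image_univ ▸ hj.isOpen_image isOpen_univ Subset.rfl
      | succ n => exact h5 n
    · cases n with
      | zero =>
        refine (caps_allCaps.image h1 h2).mono (range_comp _ _).subset ?_
        rintro _ ⟨x, hx, rfl⟩
        exact ⟨h3.ge (mem_range_self x), fun ⟨y, hy⟩ => hx ⟨y, h2 hy⟩⟩
      | succ n => exact h6 n (Nat.lt_of_succ_lt_succ hn)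

end Vale.Agent.P216R
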