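import Vale.Agent.P216R.Max
import Vale.Agent.P216R.Univ
import Vale.Agent.P216C.Plan
import Vale.Agent.P216FI.Vol2

/-!
# P216R: existence of a flow with surgery on a finite horizon, from one surgery step

One cap is attached at each surgery time; after `n` cuts the flow runs until the maximum of the
scalar curvature is `(2 - 2⁻⁽ⁿ⁺¹⁾) Θ`.
-/

open scoped Manifold ContDiff Topology ENNReal
open Set Filter MeasureTheory Function

set_option maxSynthPendingDepth 3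

noncomputable section

namespace Vale.Agent.P216R

open Vale.Agent.P216SG (Cls)
open Vale.Agent.P216C (Mem RMIN VD)
open Vale.Agent.P216ST (STE)

/-- the class is invariant under diffeomorphisms -/
def ImgClosed (C : Cls) : Prop :=
  ∀ (M : Type) [TopologicalSpace M] [ChartedSpace E3 M] [IsManifold 𝓘(ℝ, E3) ∞ M]
    (M' : Type) [TopologicalSpace M'] [ChartedSpace E3 M'] [IsManifold 𝓘(ℝ, E3) ∞ M']
    (U : Set M) (i : M → M'), LD E3 i U → InjOn i U → C M U → C M' (i '' U)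

/-- predicates that describe one surgery: metrics, birth times, time, slice before, slice after -/
abbrev SgT : Type 1 :=
  ∀ (M : Type) [TopologicalSpace M] [ChartedSpace E3 M] [MeasurableSpace M],
    (ℝ → Ten E3 M) → (M → ℝ) → ℝ → Set M → Set M → Prop

/-- the properties of a surgery that the assembly uses -/
def SgOK (Sg : SgT) (Θ v : ℝ) : Prop :=
  ∀ (M : Type) [TopologicalSpace M] [ChartedSpace E3 M] [IsManifold 𝓘(ℝ, E3) ∞ M]
    [MeasurableSpace M] [BorelSpace M] (g : ℝ → Ten E3 M) (b : M → ℝ) (t : ℝ) (U U' : Set M),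
    Sg M g b t U U' →
    (∀ g' b', (∀ s < t, g' s = g s) → EqOn (g' t) (g t) (U ∪ U') → EqOn b' b U →
      Sg M g' b' t U U') ∧
    (Met (g t) U → Met (g t) U' → IsCompact U → IsCompact U' → Hs U → Hs U' →
      vol (g t) U' + ENNReal.ofReal v ≤ vol (g t) U ∧
      (∀ a ≤ 0, (∀ x ∈ U, a ≤ Sc (g t) x) → ∀ x ∈ U', a ≤ Sc (g t) x) ∧
      ∀ a, Θ ≤ a → (∀ x ∈ U, Sc (g t) x ≤ a) → ∀ x ∈ U', Sc (g t) x ≤ a)

section

variable {N : Type} [TopologicalSpace N] [ChartedSpace E3 N]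
  {M : Type} [TopologicalSpace M] [ChartedSpace E3 M] [MeasurableSpace M]

/-- `(U, g)` is an isometric copy of `(U₀, g₀)` -/
def Copy (g₀ : Ten E3 N) (U₀ : Set N) (g : Ten E3 M) (U : Set M) : Prop :=
  ∃ j : N → M, LD E3 j U₀ ∧ InjOn j U₀ ∧ j '' U₀ = U ∧ EqOn (comap j g) g₀ U₀

/-- a flow with surgery on `[0, T]` in the class `C` that starts at `(U₀, g₀)` -/
structure SG (C : Cls) (Sg : SgT) (g₀ : Ten E3 N) (U₀ : Set N) (g : ℝ → Ten E3 M) (b d : M → ℝ)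
    (T : ℝ) : Prop where
  sf : SF g b d 0 T
  mem : ∀ U t, Sl b d 0 T U t → Mem C U
  sg : ∀ t ∈ Ioo 0 T, preS b d t = postS b d t ∨ Sg M g b t (preS b d t) (postS b d t)
  init : Copy g₀ U₀ (g 0) (postS b d 0)

omit [MeasurableSpace M] in
theorem Copy.congr {g₀ : Ten E3 N} {U₀ : Set N} {g g' : Ten E3 M} {U : Set M}
    (h : Copy g₀ U₀ g U) (e : EqOn g' g U) : Copy g₀ U₀ g' U := by
  obtain ⟨j, h1, h2, rfl, h4⟩ := h
  exact ⟨j, h1, h2, rfl, fun x hx => (comap_congr_right _ (e (mem_image_of_mem _ hx))).trans (h4 hx)⟩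

theorem SG.mono {C : Cls} {Sg : SgT} {g₀ : Ten E3 N} {U₀ : Set N} {g : ℝ → Ten E3 M}
    {b d : M → ℝ} {T t : ℝ} (h : SG C Sg g₀ U₀ g b d T) (h0 : 0 < t) (h1 : t ≤ T) :
    SG C Sg g₀ U₀ g b d t :=
  ⟨h.sf.mono h0 h1, fun U s hs => h.mem U s (hs.mono h1),
    fun s hs => h.sg s ⟨hs.1, hs.2.trans_le h1⟩, h.init⟩

end

/-- the surgery step: when the curvature is large one cut is possible -/
def STEP (C : Cls) (Sg : SgT) {N : Type} [TopologicalSpace N] [ChartedSpace E3 N]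
    (g₀ : Ten E3 N) (U₀ : Set N) (Θ T : ℝ) : Prop :=
  ∀ (M : Type) [TopologicalSpace M] [ChartedSpace E3 M] [IsManifold 𝓘(ℝ, E3) ∞ M]
    [MeasurableSpace M] [BorelSpace M] (g : ℝ → Ten E3 M) (b d : M → ℝ) (t : ℝ) (F : Set M),
    t ≤ T → SG C Sg g₀ U₀ g b d t → (∀ U s, Sl b d 0 t U s → ∀ x ∈ U, Sc (g s) x ≤ 2 * Θ) →
    (∃ x ∈ preS b d t, Θ ≤ Sc (g t) x) → Caps E3 (preS b d t) F → Disjoint F (preS b d t) →
    ∃ U' g₁, Mem C U' ∧ Met g₁ U' ∧ U' ⊆ preS b d t ∪ F ∧ EqOn g₁ (g t) (preS b d t) ∧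
      Sg M (update g t g₁) b t (preS b d t) U'

section

variable {N : Type} [TopologicalSpace N] [ChartedSpace E3 N] [IsManifold 𝓘(ℝ, E3) ∞ N]
  [MeasurableSpace N] [BorelSpace N]
  {M : Type} [TopologicalSpace M] [ChartedSpace E3 M] [IsManifold 𝓘(ℝ, E3) ∞ M]
  [MeasurableSpace M] [BorelSpace M]
  {C : Cls} {Sg : SgT} {g₀ : Ten E3 N} {U₀ : Set N} {g h : ℝ → Ten E3 M} {b d : M → ℝ}
  {U : Set M} {Θ v T s t a : ℝ}

omit [IsManifold 𝓘(ℝ, E3) ∞ M] [MeasurableSpace M] [BorelSpace M] in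
theorem sc_eqOn {g g' : Ten E3 M} (hU : IsOpen U) (e : EqOn g' g U) {x : M} (hx : x ∈ U) :
    Sc g' x = Sc g x := Sc_congr (e.eventuallyEq_of_mem (hU.mem_nhds hx))

omit [MeasurableSpace M] [BorelSpace M] in
/-- a lower bound for the scalar curvature is preserved -/
theorem sc_ge_of_rmin (hR : RMIN) (H : RF h (Icc s t) U) (hc : IsCompact U) (hH : Hs U)
    (ha : 0 < a) (h0 : ∀ x ∈ U, -a ≤ Sc (h s) x) : ∀ u ∈ Icc s t, ∀ x ∈ U, -a ≤ Sc (h u) x := by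
  intro u hu x hx
  have h1 : 0 < 3 / (2 * a) := by positivity
  have := hR M h U s u (3 / (2 * a) - s) hu.1 (by linarith)
    (SF.rf_sub H (Icc_subset_Icc le_rfl hu.2) H.isOpen Subset.rfl) hc hH
    (fun y hy => le_trans (le_of_eq (by field_simp; ring)) (h0 y hy)) x hx
  refine le_trans (neg_le_neg ?_) this
  rw [div_le_iff₀ (by linarith [hu.1])]
  have : a * (2 * (3 / (2 * a))) = 3 := by field_simp
  nlinarith [hu.1]

theorem vol_le_of_vd (hV : VD) (H : RF h (Icc s t) U) (hst : s ≤ t) (hc : IsCompact U)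
    (h0 : ∀ u ∈ Icc s t, ∀ x ∈ U, -a ≤ Sc (h u) x) :
    vol (h t) U ≤ ENNReal.ofReal (Real.exp (a * (t - s))) * vol (h s) U := by
  have := hV M h U U U s t (fun u => -a * u) (fun _ => -a) hst H hc Subset.rfl Subset.rfl
    H.isOpen.measurableSet (fun u _ => by simpa using (hasDerivAt_id u).const_mul (-a)) h0
  rwa [show -a * s - -a * t = a * (t - s) by ring] at this

theorem Copy.vol_eq {g : Ten E3 M} (h : Copy g₀ U₀ g U) (hc : IsCompact U₀) :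
    vol g U = vol g₀ U₀ := by
  obtain ⟨j, h1, h2, rfl, h4⟩ := h
  rw [vol_image g h1 h2 hc.isLindelof Subset.rfl h1.isOpen.measurableSet Subset.rfl]
  exact vol_congr hc.isLindelof h1.isOpen.measurableSet Subset.rfl h4

omit [MeasurableSpace M] [BorelSpace M] [MeasurableSpace N] [BorelSpace N] in
theorem Copy.sc {g : Ten E3 M} (h : Copy g₀ U₀ g U) (hg : Met g U) {x : M} (hx : x ∈ U) :
    ∃ y ∈ U₀, Sc g x = Sc g₀ y := by
  obtain ⟨j, h1, h2, rfl, h4⟩ := h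
  obtain ⟨y, hy, rfl⟩ := hx
  exact ⟨y, hy, ((li_comap hg h1 hy (mem_image_of_mem _ hy)).Sc.symm).trans
    (sc_eqOn h1.isOpen h4 hy)⟩

/-- the thresholds -/
def thr (Θ : ℝ) (n : ℕ) : ℝ := (2 - (1 / 2) ^ n) * Θ

theorem thr_lt (hΘ : 0 < Θ) (n : ℕ) : thr Θ n < thr Θ (n + 1) := by
  have : (0 : ℝ) < (1 / 2) ^ n := by positivity
  simp only [thr, pow_succ]; nlinarith

theorem le_thr (hΘ : 0 < Θ) (n : ℕ) : Θ ≤ thr Θ n := by
  have : ((1 : ℝ) / 2) ^ n ≤ 1 := pow_le_one₀ (by norm_num) (by norm_num)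
  simp only [thr]; nlinarith

theorem thr_le (hΘ : 0 < Θ) (n : ℕ) : thr Θ n ≤ 2 * Θ := by
  have : (0 : ℝ) < (1 / 2) ^ n := by positivity
  simp only [thr]; nlinarith

/-- the state after `n` cuts -/
structure St (C : Cls) (Sg : SgT) (g₀ : Ten E3 N) (U₀ : Set N) (L : ℕ → Set M) (Θ v a T : ℝ)
    (n : ℕ) (g : ℝ → Ten E3 M) (b d : M → ℝ) (t : ℝ) : Prop where
  sg : SG C Sg g₀ U₀ g b d t
  le : t ≤ T
  fresh : ∀ x ∉ L n, d x < b x
  sc : ∀ U s, Sl b d 0 t U s → ∀ x ∈ U, -a ≤ Sc (g s) x ∧ Sc (g s) x ≤ thr Θ (n + 1)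
  stop : t = T ∨ ∃ x ∈ preS b d t, Sc (g t) x = thr Θ (n + 1)
  vl : vol (g t) (preS b d t) + ENNReal.ofReal (n * v) ≤
    ENNReal.ofReal (Real.exp (a * t)) * vol g₀ U₀

theorem st_zero (hs : STE E3) (hcl : CLOSE E3) (hb : SCB E3) (hR : RMIN) (hV : VD)
    {L : ℕ → Set M} {g₁ : Ten E3 M} (hU : Mem C U) (hg : Met g₁ U) (hc : IsCompact U₀)
    (hcopy : Copy g₀ U₀ g₁ U) (hL : U ⊆ L 0) (hΘ : 0 < Θ) (ha : 0 < a) (hT : 0 < T)
    (h0 : ∀ x ∈ U, -a ≤ Sc g₁ x ∧ Sc g₁ x ≤ Θ) :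
    ∃ g b d t, St C Sg g₀ U₀ L Θ v a T 0 g b d t := by
  obtain ⟨τ, h1, h, rfl, h2, h3, h4, h5⟩ := exists_until hs hcl hb hU.cpt hU.hs hg hT
    (Θ := thr Θ 1) fun x hx => (h0 x hx).2.trans_lt ((le_thr hΘ 0).trans_lt (thr_lt hΘ 0))
  obtain ⟨g, b, d, k1, k2, k3, k4, k5⟩ := exists_sf_of_rf h2 h1.1 hU.cpt hU.hs
  have hsl : ∀ W s, Sl b d 0 τ W s → W = U := by
    rintro W s (⟨hs, rfl⟩ | ⟨hs, rfl⟩)
    exacts [(k2.preS_eq hs).trans k3, (k2.postS_eq hs).trans k3]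
  have hpre : preS b d τ = U := hsl _ _ (sl_pre ⟨h1.1, le_rfl⟩)
  have hmin := sc_ge_of_rmin hR h2 hU.cpt hU.hs ha fun x hx => (h0 x hx).1
  refine ⟨g, b, d, τ, ⟨k1, fun W s hW => hsl W s hW ▸ hU, fun s hs => Or.inl
    ((hsl _ _ (sl_pre ⟨hs.1, hs.2.le⟩)).trans (hsl _ _ (sl_post ⟨hs.1.le, hs.2⟩)).symm), ?_⟩, h1.2,
    fun x hx => k5 x fun hx' => hx (hL hx'), fun W s hW x hx => ?_, ?_, ?_⟩
  · rw [hsl _ _ (sl_post ⟨le_rfl, h1.1⟩)]
    exact hcopy.congr (k4 0 ⟨le_rfl, h1.1.le⟩)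
  · rw [hsl W s hW] at hx
    rw [sc_eqOn hU.isOpen (k4 s hW.mem_Icc) hx]
    refine ⟨hmin s hW.mem_Icc x hx, ?_⟩
    rcases hW.mem_Icc.2.eq_or_lt with rfl | hlt
    exacts [h4 x hx, (h3 s ⟨hW.mem_Icc.1, hlt⟩ x hx).le]
  · refine h5.imp_right fun ⟨x, hx, e⟩ => ⟨x, hpre ▸ hx, ?_⟩
    rw [sc_eqOn hU.isOpen (k4 τ ⟨h1.1.le, le_rfl⟩) hx, e]
  · rw [hpre, vol_congr hU.cpt.isLindelof hU.isOpen.measurableSet Subset.rfl
      (k4 τ ⟨h1.1.le, le_rfl⟩), ← hcopy.vol_eq hc]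
    simpa using vol_le_of_vd hV h2 h1.1.le hU.cpt hmin

omit [IsManifold 𝓘(ℝ, E3) ∞ N] [BorelSpace N] in
theorem St.succ (hs : STE E3) (hcl : CLOSE E3) (hb : SCB E3) (hR : RMIN) (hV : VD)
    (hok : SgOK Sg Θ v) (hst : STEP C Sg g₀ U₀ Θ T) {L : ℕ → Set M} {n : ℕ}
    (hL : L n ⊆ L (n + 1)) (hcap : Caps E3 (L n) (L (n + 1) \ L n)) (hΘ : 0 < Θ) (ha : 0 < a)
    (hv : 0 ≤ v) (H : St C Sg g₀ U₀ L Θ v a T n g b d t) (ht : t < T) :
    ∃ g b d t, St C Sg g₀ U₀ L Θ v a T (n + 1) g b d t := by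
  have h0 := H.sg.sf.lt
  have hsl : Sl b d 0 t (preS b d t) t := sl_pre ⟨h0, le_rfl⟩
  have hP := H.sg.mem _ _ hsl
  have hPL : preS b d t ⊆ L n := fun x hx => by_contra fun k => by
    linarith [H.fresh x k, hx.1, hx.2]
  obtain ⟨x₀, hx₀, e₀⟩ := H.stop.resolve_left ht.ne
  obtain ⟨U', g₁, m1, m2, m3, m4, m5⟩ := hst M g b d t (L (n + 1) \ L n) ht.le H.sg
    (fun W s hW x hx => (H.sc W s hW x hx).2.trans (thr_le hΘ _))
    ⟨x₀, hx₀, e₀ ▸ le_thr hΘ _⟩ (hcap.mono hPL Subset.rfl)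
    (disjoint_left.2 fun x hx hx' => hx.2 (hPL hx'))
  obtain ⟨o1, o2⟩ := hok M _ b t _ U' m5
  rw [update_self] at o1 o2
  obtain ⟨o2, o3, o4⟩ := o2 ((H.sg.sf.met hsl).congr m4) m2 hP.cpt m1.cpt hP.hs m1.hs
  have p1 := o3 (-a) (by linarith) fun x hx => sc_eqOn hP.isOpen m4 hx ▸ (H.sc _ _ hsl x hx).1
  have p2 := o4 _ (le_thr hΘ (n + 1)) fun x hx => sc_eqOn hP.isOpen m4 hx ▸ (H.sc _ _ hsl x hx).2
  obtain ⟨τ, h1, h, rfl, h2, h3, h4, h5⟩ := exists_until hs hcl hb m1.cpt m1.hs m2 ht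
    (Θ := thr Θ (n + 2)) fun x hx => (p2 x hx).trans_lt (thr_lt hΘ _)
  obtain ⟨g', b', d', k1, k2, k3, k4, -, k6, k7, k8, k9, k10, k11⟩ :=
    H.sg.sf.extend h1.1 m1.cpt m1.hs h2 fun x hx => (m3 hx).imp (fun k => ⟨k, m4 k⟩)
      fun k => H.fresh x k.2
  have hmin := sc_ge_of_rmin hR h2 m1.cpt m1.hs ha p1
  have hcase : ∀ W s, Sl b' d' 0 τ W s →
      (Sl b d 0 t W s ∧ EqOn (g' s) (g s) W) ∨ (W = U' ∧ s ∈ Icc t τ) := by
    rintro W s (⟨hs, rfl⟩ | ⟨hs, rfl⟩)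
    · rcases le_or_gt s t with k | k
      · rw [k6 s k]
        refine Or.inl ⟨sl_pre ⟨hs.1, k⟩, ?_⟩
        rcases k.eq_or_lt with rfl | k
        · exact k3
        · rw [k2 s k]; exact fun _ _ => rfl
      · exact Or.inr ⟨(k8.preS_eq ⟨k, hs.2⟩).trans k9, k.le, hs.2⟩
    · rcases lt_or_ge s t with k | k
      · rw [k7 s k, k2 s k]
        exact Or.inl ⟨sl_post ⟨hs.1, k⟩, fun _ _ => rfl⟩
      · exact Or.inr ⟨(k8.postS_eq ⟨k, hs.2⟩).trans k9, k, hs.2.le⟩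
  have hpre : preS b' d' τ = U' := (k8.preS_eq ⟨h1.1, le_rfl⟩).trans k9
  refine ⟨g', b', d', τ, ⟨k1, fun W s hW => ?_, fun s hs => ?_, ?_⟩, h1.2, fun x hx => ?_,
    fun W s hW x hx => ?_, ?_, ?_⟩
  · rcases hcase W s hW with k | ⟨rfl, -⟩
    exacts [H.sg.mem W s k.1, m1]
  · rcases lt_trichotomy s t with k | rfl | k
    · rw [k6 s k.le, k7 s k]
      refine (H.sg.sg s ⟨hs.1, k⟩).imp_right fun q => (hok M g b s _ _ q).1 _ _
        (fun u hu => k2 u (hu.trans k)) (k2 s k ▸ fun _ _ => rfl) fun x hx => ?_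
      exact k10 x (hx.1.trans k) (hx.1.le.trans hx.2)
    · rw [k6 s le_rfl, k8.postS_eq ⟨le_rfl, h1.1⟩, k9]
      refine Or.inr (o1 _ _ (fun u hu => (k2 u hu).trans (update_of_ne hu.ne _ _).symm)
        (fun x hx => ?_) fun x hx => k10 x hx.1 (hx.1.le.trans hx.2))
      rcases hx with hx | hx
      exacts [(k3 hx).trans (m4 hx).symm, k4 s ⟨le_rfl, h1.1.le⟩ hx]
    · exact Or.inl ((k8.preS_eq ⟨k, hs.2.le⟩).trans (k8.postS_eq ⟨k.le, hs.2⟩).symm)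
  · rw [k7 0 h0, k2 0 h0]; exact H.sg.init
  · refine k11 x (fun k => hx ?_) (H.fresh x fun k => hx (hL k))
    exact (m3 k).elim (fun k => hL (hPL k)) fun k => k.1
  · rcases hcase W s hW with k | ⟨rfl, k⟩
    · rw [sc_eqOn (H.sg.sf.sl_open k.1) k.2 hx]
      exact ⟨(H.sc W s k.1 x hx).1, (H.sc W s k.1 x hx).2.trans (thr_lt hΘ _).le⟩
    · rw [sc_eqOn m1.isOpen (k4 s k) hx]
      refine ⟨hmin s k x hx, ?_⟩
      rcases k.2.eq_or_lt with rfl | hlt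
      exacts [h4 x hx, (h3 s ⟨k.1, hlt⟩ x hx).le]
  · refine h5.imp_right fun ⟨x, hx, e⟩ => ⟨x, hpre ▸ hx, ?_⟩
    rw [sc_eqOn m1.isOpen (k4 τ ⟨h1.1.le, le_rfl⟩) hx, e]
  · rw [hpre, vol_congr m1.cpt.isLindelof m1.isOpen.measurableSet Subset.rfl
      (k4 τ ⟨h1.1.le, le_rfl⟩)]
    have q1 := vol_le_of_vd hV h2 h1.1.le m1.cpt hmin
    rw [vol_congr hP.cpt.isLindelof hP.isOpen.measurableSet Subset.rfl m4] at o2
    have q2 : vol (h t) U' + ENNReal.ofReal ((n + 1 : ℕ) * v) ≤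
        ENNReal.ofReal (Real.exp (a * t)) * vol g₀ U₀ := by
      refine le_trans ?_ H.vl
      rw [Nat.cast_succ, add_mul, one_mul, add_comm (n * v),
        ENNReal.ofReal_add hv (by positivity), ← add_assoc]
      exact add_le_add_left o2 _
    have q3 : 1 ≤ ENNReal.ofReal (Real.exp (a * (τ - t))) :=
      ENNReal.one_le_ofReal.2 (Real.one_le_exp (mul_nonneg ha.le (by linarith [h1.1])))
    calc _ ≤ ENNReal.ofReal (Real.exp (a * (τ - t))) *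
          (vol (h t) U' + ENNReal.ofReal ((n + 1 : ℕ) * v)) := by
          rw [mul_add]
          exact add_le_add q1 (le_mul_of_one_le_left' q3)
      _ ≤ ENNReal.ofReal (Real.exp (a * (τ - t))) *
          (ENNReal.ofReal (Real.exp (a * t)) * vol g₀ U₀) := by gcongr
      _ = _ := by
          rw [← mul_assoc, ← ENNReal.ofReal_mul (Real.exp_pos _).le, ← Real.exp_add]
          congr 3; ring

/-- **existence** of the flow with surgery on `[0, T]` -/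
theorem exists_sg (hs : STE E3) (hcl : CLOSE E3) (hb : SCB E3) (hR : RMIN) (hV : VD)
    (hC : ImgClosed C) (hok : SgOK Sg Θ v) (hst : STEP C Sg g₀ U₀ Θ T) (hΘ : 0 < Θ) (hv : 0 < v)
    (hT : 0 < T) (hU : Mem C U₀) (hg : Met g₀ U₀) (hne : U₀.Nonempty)
    (h0 : ∀ x ∈ U₀, Sc g₀ x ≤ Θ) :
    ∃ (M : Type) (_ : TopologicalSpace M) (_ : ChartedSpace E3 M) (_ : IsManifold 𝓘(ℝ, E3) ∞ M)
      (_ : MeasurableSpace M) (_ : BorelSpace M) (g : ℝ → Ten E3 M) (b d : M → ℝ),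
      SG C Sg g₀ U₀ g b d T ∧
      ∀ U t, Sl b d 0 T U t → ∀ x ∈ U, Sc (g t) x ≤ 2 * Θ := by
  have : Nonempty N := ⟨hne.some⟩
  have hcont : ContinuousOn (Sc g₀) U₀ := (fam_continuousOn_Sc (hg.fam univ)).comp
    (f := fun x => ((0 : ℝ), x)) (by fun_prop) fun x hx => ⟨mem_univ _, hx⟩
  obtain ⟨a', ha'⟩ := hU.cpt.bddBelow_image hcont
  obtain ⟨a, ha, hmin⟩ : ∃ a > 0, ∀ x ∈ U₀, -a ≤ Sc g₀ x := ⟨|a'| + 1, by positivity, fun x hx => by
    linarith [neg_abs_le a', ha' (mem_image_of_mem _ hx)]⟩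
  have hfin : ENNReal.ofReal (Real.exp (a * T)) * vol g₀ U₀ ≠ ⊤ :=
    ENNReal.mul_ne_top ENNReal.ofReal_ne_top (vol_lt_top hg hU.cpt Subset.rfl).ne
  obtain ⟨K, hK⟩ := exists_nat_gt ((ENNReal.ofReal (Real.exp (a * T)) * vol g₀ U₀).toReal / v)
  obtain ⟨M, _, _, _, j, L, j1, j2, j3, j4, -, j6⟩ := exists_univ (E := E3) K N
  borelize M
  have j1' : LD E3 j U₀ := j1.mono hU.isOpen (subset_univ _)
  have hk := j1'.inverse j2.injOn
  have hkm : MapsTo (invFunOn j U₀) (j '' U₀) U₀ := fun _ hx => invFunOn_mem hx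
  have hcopy : Copy g₀ U₀ (comap (invFunOn j U₀) g₀) (j '' U₀) := by
    refine ⟨j, j1', j2.injOn, rfl, fun x hx => ?_⟩
    have e : invFunOn j U₀ ∘ j =ᶠ[𝓝 x] id := eventually_of_mem (hU.isOpen.mem_nhds hx)
      fun y hy => j2.injOn.leftInvOn_invFunOn hy
    rw [comap_comp _ (hk.md (mem_image_of_mem _ hx)) (j1'.md hx), comap_congr _ e, comap_id]
  have hg₁ := hg.comap hk hkm
  have hU₁ : Mem C (j '' U₀) := ⟨hC N M U₀ j j1' j2.injOn hU.cls, hk.isOpen,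
    hU.cpt.image_of_continuousOn j1'.smooth.continuousOn, ?_,
    hU.conn.image _ j1'.smooth.continuousOn⟩
  swap
  · rintro _ ⟨x, hx, rfl⟩ _ ⟨y, hy, rfl⟩ hxy
    rw [← j1'.map_nhds hx, ← j1'.map_nhds hy]
    exact (disjoint_map j2).2 (hU.hs hx hy fun e => hxy (congrArg j e))
  have key : ∀ n ≤ K, (∃ m g b d, St C Sg g₀ U₀ L Θ v a T m g b d T) ∨
      ∃ g b d t, St C Sg g₀ U₀ L Θ v a T n g b d t := by
    intro n hn
    induction n with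
    | zero =>
      refine Or.inr (st_zero hs hcl hb hR hV hU₁ hg₁ hU.cpt hcopy
        (j3 ▸ image_subset_range _ _) hΘ ha hT fun x hx => ?_)
      obtain ⟨y, hy, e⟩ := hcopy.sc hg₁ hx
      exact e ▸ ⟨hmin y hy, h0 y hy⟩
    | succ n ih =>
      rcases ih (Nat.le_of_succ_le hn) with k | ⟨g, b, d, t, k⟩
      · exact Or.inl k
      · rcases k.le.eq_or_lt with rfl | ht
        · exact Or.inl ⟨n, g, b, d, k⟩
        · exact Or.inr (k.succ hs hcl hb hR hV hok hst (j4 n.le_succ) (j6 n hn) hΘ ha hv.le ht)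
  rcases key K le_rfl with ⟨m, g, b, d, k⟩ | ⟨g, b, d, t, k⟩
  · exact ⟨M, _, _, inferInstance, _, inferInstance, g, b, d, k.sg,
      fun U t hU x hx => (k.sc U t hU x hx).2.trans (thr_le hΘ _)⟩
  · exfalso
    have q : ENNReal.ofReal (K * v) ≤ ENNReal.ofReal (Real.exp (a * T)) * vol g₀ U₀ :=
      (le_add_self.trans k.vl).trans (by gcongr; exact k.le)
    rw [div_lt_iff₀ hv] at hK
    exact absurd ((ENNReal.ofReal_le_iff_le_toReal hfin).1 q) (not_le.2 hK)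

end

end Vale.Agent.P216R
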