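import Vale.Agent.P216R.Flow
import Mathlib.Geometry.Manifold.PartitionOfUnity

/-!
# P216R: change of the model space, smooth structure on coverings, existence of metrics
-/

open scoped Manifold ContDiff Topology ENNReal
open Set Filter

set_option maxSynthPendingDepth 3
set_option linter.unusedSectionVars false

noncomputable section

namespace Vale.Agent.P216R

open Vale.Agent.P219.RG

variable {E : Type} [NormedAddCommGroup E] [NormedSpace ℝ E]
  {F : Type} [NormedAddCommGroup F] [NormedSpace ℝ F]

/-- criterion for a charted space whose atlas consists of the preferred charts -/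
theorem isManifold_of_trans {M : Type} [TopologicalSpace M] [ChartedSpace E M]
    (h : ∀ e ∈ atlas E M, ∀ e' ∈ atlas E M, ∀ x ∈ e.source, x ∈ e'.source →
      ContDiffAt ℝ ∞ (e' ∘ e.symm) (e x)) : IsManifold 𝓘(ℝ, E) ∞ M := by
  refine isManifold_of_contDiffOn _ _ _ fun e e' he he' u hu => ?_
  simp only [modelWithCornersSelf_coe_symm, preimage_id, modelWithCornersSelf_coe, range_id,
    inter_univ, OpenPartialHomeomorph.trans_source, OpenPartialHomeomorph.symm_source,
    mem_inter_iff, mem_preimage, OpenPartialHomeomorph.coe_trans] at hu ⊢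
  have := h e he e' he' _ (e.map_target hu.1) hu.2
  rw [e.right_inv hu.1] at this
  exact this.contDiffWithinAt

theorem contDiffAt_atlas {M : Type} [TopologicalSpace M] [ChartedSpace E M]
    [IsManifold 𝓘(ℝ, E) ∞ M] {e e' : OpenPartialHomeomorph M E} (he : e ∈ atlas E M)
    (he' : e' ∈ atlas E M) {x : M} (hx : x ∈ e.source) (hx' : x ∈ e'.source) :
    ContDiffAt ℝ ∞ (e' ∘ e.symm) (e x) := by
  have h1 := contMDiffAt_symm_of_mem_maximalAtlas (I := 𝓘(ℝ, E)) (n := ∞)
    (IsManifold.subset_maximalAtlas he) (e.map_source hx)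
  have h2 := contMDiffAt_of_mem_maximalAtlas (I := 𝓘(ℝ, E)) (n := ∞)
    (IsManifold.subset_maximalAtlas he') hx'
  rw [← e.left_inv hx] at h2
  exact (h2.comp _ h1).contDiffAt

/-! ### change of the model space -/

/-- the same space, with charts in `F` -/
def Re (_L : E ≃L[ℝ] F) (M : Type) : Type := M

section Re

variable (L : E ≃L[ℝ] F) (M : Type) [TopologicalSpace M]

instance : TopologicalSpace (Re L M) := inferInstanceAs (TopologicalSpace M)

instance [T2Space M] : T2Space (Re L M) := inferInstanceAs (T2Space M)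

instance [CompactSpace M] : CompactSpace (Re L M) := inferInstanceAs (CompactSpace M)

instance [ConnectedSpace M] : ConnectedSpace (Re L M) := inferInstanceAs (ConnectedSpace M)

/-- the identity as a homeomorphism -/
def Re.homeo : Re L M ≃ₜ M := Homeomorph.refl M

variable [ChartedSpace E M]

instance : ChartedSpace F (Re L M) where
  atlas := (fun e : OpenPartialHomeomorph M E => e.transHomeomorph L.toHomeomorph) '' atlas E M
  chartAt x := (chartAt E (show M from x)).transHomeomorph L.toHomeomorph
  mem_chart_source x := mem_chart_source E (show M from x)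
  chart_mem_atlas x := mem_image_of_mem _ (chart_mem_atlas E (show M from x))

instance [IsManifold 𝓘(ℝ, E) ∞ M] : IsManifold 𝓘(ℝ, F) ∞ (Re L M) := by
  refine isManifold_of_trans ?_
  rintro _ ⟨e, he, rfl⟩ _ ⟨e', he', rfl⟩ x hx hx'
  have h := contDiffAt_atlas he he' (x := x) hx hx'
  have h1 : ContDiffAt ℝ ∞ (e' ∘ e.symm) (L.symm (L (e x))) := by rwa [L.symm_apply_apply]
  exact L.contDiff.contDiffAt.comp _ (h1.comp _ L.symm.contDiff.contDiffAt)

end Re

/-- every manifold of dimension three has charts in `E3` -/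
theorem exists_equiv_E3 [FiniteDimensional ℝ E] (h : Module.finrank ℝ E = 3) :
    Nonempty (E ≃L[ℝ] E3) :=
  ⟨ContinuousLinearEquiv.ofFinrankEq (by simp [h])⟩

/-! ### coverings -/

/-- the total space of a local homeomorphism -/
def Up {X N : Type} [TopologicalSpace X] [TopologicalSpace N] {p : X → N}
    (_hp : IsLocalHomeomorph p) : Type := X

section Up

variable {X N : Type} [TopologicalSpace X] [TopologicalSpace N] {p : X → N}
  (hp : IsLocalHomeomorph p)

instance : TopologicalSpace (Up hp) := inferInstanceAs (TopologicalSpace X)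

instance [T2Space X] : T2Space (Up hp) := inferInstanceAs (T2Space X)

instance [CompactSpace X] : CompactSpace (Up hp) := inferInstanceAs (CompactSpace X)

instance [ConnectedSpace X] : ConnectedSpace (Up hp) := inferInstanceAs (ConnectedSpace X)

/-- the identity as a homeomorphism -/
def Up.homeo : Up hp ≃ₜ X := Homeomorph.refl X

/-- the projection -/
def Up.pr : Up hp → N := p

/-- a local branch of the projection -/
def Up.br (x : X) : OpenPartialHomeomorph X N := (hp x).choose

theorem Up.mem_br (x : X) : x ∈ (Up.br hp x).source := (hp x).choose_spec.1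

theorem Up.br_eq (x y : X) : Up.br hp x y = p y := (congrFun (hp x).choose_spec.2 y).symm

variable [ChartedSpace E N]

/-- the charts of the total space -/
def Up.ch (x : X) : OpenPartialHomeomorph X E := (Up.br hp x).trans (chartAt E (p x))

theorem Up.ch_apply (x y : X) : Up.ch (E := E) hp x y = chartAt E (p x) (p y) := by
  simp [Up.ch, Up.br_eq]

theorem Up.ch_source {x y : X} (h : y ∈ (Up.ch (E := E) hp x).source) :
    p y ∈ (chartAt E (p x)).source := by simpa [Up.br_eq] using h.2

theorem Up.p_symm {x : X} {u : E} (h : u ∈ (Up.ch (E := E) hp x).target) :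
    p ((Up.ch (E := E) hp x).symm u) = (chartAt E (p x)).symm u := by
  have h1 := (Up.ch (E := E) hp x).right_inv h
  rw [Up.ch_apply] at h1
  rw [← (chartAt E (p x)).left_inv (Up.ch_source hp ((Up.ch (E := E) hp x).map_target h)), h1]

instance : ChartedSpace E (Up hp) where
  atlas := range (Up.ch hp)
  chartAt := Up.ch hp
  mem_chart_source x := ⟨Up.mem_br hp x, (Up.br_eq hp x x).symm ▸ mem_chart_source E (p x)⟩
  chart_mem_atlas x := mem_range_self x

variable [IsManifold 𝓘(ℝ, E) ∞ N]

instance : IsManifold 𝓘(ℝ, E) ∞ (Up hp) := by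
  refine isManifold_of_trans ?_
  rintro _ ⟨a, rfl⟩ _ ⟨b, rfl⟩ x hx hx'
  have h := contDiffAt_atlas (chart_mem_atlas E (p a)) (chart_mem_atlas E (p b))
    (Up.ch_source hp hx) (Up.ch_source hp hx')
  refine ContDiffAt.congr_of_eventuallyEq ((Up.ch_apply (E := E) hp a x).symm ▸ h) ?_
  filter_upwards [(Up.ch (E := E) hp a).open_target.mem_nhds ((Up.ch hp a).map_source hx)] with u hu
  exact (Up.ch_apply hp _ _).trans (congrArg _ (Up.p_symm hp hu))

theorem Up.pr_eventuallyEq (x : Up hp) :
    Up.pr hp =ᶠ[𝓝 x] (chartAt E (p x)).symm ∘ chartAt E x := by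
  filter_upwards [(chartAt E x).open_source.mem_nhds (mem_chart_source E x)] with y hy
  exact ((chartAt E (p x)).left_inv (Up.ch_source hp hy)).symm.trans
    (congrArg _ (Up.ch_apply hp x y).symm)

theorem Up.ld : LD E (Up.pr hp) univ := by
  have h : ∀ x : Up hp, chartAt E x x ∈ (chartAt E (p x)).target := fun x =>
    (Up.ch_apply (E := E) hp x x).symm ▸ pt_mem (E := E) (p x)
  refine ⟨isOpen_univ, fun x _ => ?_, fun x _ => ?_⟩
  · exact (((sm_symm (h x)).comp x (sm_chart (mem_chart_source E x))).congr_of_eventuallyEq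
      (Up.pr_eventuallyEq hp x)).contMDiffWithinAt
  · rw [md_congr (Up.pr_eventuallyEq (E := E) hp x),
      md_comp (sm_symm (h x)).md (sm_chart (mem_chart_source E x)).md]
    exact ((ld_symm _).inj _ (h x)).comp ((ld_chart x).inj _ (mem_chart_source E x))

/-- a continuous map into the total space is smooth if its projection is -/
theorem Up.sm_of_pr [FiniteDimensional ℝ E] {Y : Type} [TopologicalSpace Y] [ChartedSpace E Y]
    {f : Y → Up hp} {y : Y} (hc : ContinuousAt f y) (h : SM E (Up.pr hp ∘ f) y) : SM E f y := by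
  obtain ⟨k, k1, k2, -⟩ := exists_inv ((Up.ld (E := E) hp).sm (mem_univ (f y)))
    ((Up.ld hp).inj _ (mem_univ _))
  exact (k1.comp y h).congr_of_eventuallyEq ((hc.eventually k2).mono fun z hz => hz.symm)

/-- lifts of local diffeomorphisms, for instance deck transformations -/
theorem Up.ld_of_pr [FiniteDimensional ℝ E] {Y : Type} [TopologicalSpace Y] [ChartedSpace E Y]
    {f : Y → Up hp} {V : Set Y} (hc : ContinuousOn f V) (h : LD E (Up.pr hp ∘ f) V) : LD E f V := by
  have hs : ∀ y ∈ V, SM E f y := fun y hy =>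
    Up.sm_of_pr hp (hc.continuousAt (h.isOpen.mem_nhds hy)) (h.sm hy)
  refine ⟨h.isOpen, fun y hy => (hs y hy).contMDiffWithinAt, fun y hy => ?_⟩
  have := h.inj y hy
  rw [md_comp ((Up.ld hp).md (mem_univ _)) (hs y hy).md] at this
  exact Function.Injective.of_comp this

end Up

/-! ### existence of metrics -/

theorem exists_pd [FiniteDimensional ℝ E] :
    ∃ B : Bil E, (∀ v w, B v w = B w v) ∧ ∀ v, v ≠ 0 → 0 < B v v := by
  let L := toEuclidean (E := E)
  refine ⟨(innerSL ℝ).bilinearComp L.toContinuousLinearMap L.toContinuousLinearMap,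
    fun v w => real_inner_comm (L w) (L v), fun v hv => ?_⟩
  exact real_inner_self_pos.2 fun h => hv (L.injective (h.trans (map_zero _).symm))

theorem exists_met (E : Type) [NormedAddCommGroup E] [NormedSpace ℝ E] [FiniteDimensional ℝ E]
    (M : Type) [TopologicalSpace M] [ChartedSpace E M] [IsManifold 𝓘(ℝ, E) ∞ M] [T2Space M]
    [CompactSpace M] : ∃ g : Ten E M, Met g univ := by
  obtain ⟨B, hs, hp⟩ := exists_pd (E := E)
  obtain ⟨t, ht⟩ := isCompact_univ.elim_finite_subcover (fun a : M => (chartAt E a).source)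
    (fun a => (chartAt E a).open_source) fun x _ => mem_iUnion.2 ⟨x, mem_chart_source E x⟩
  obtain ⟨ρ, hρ⟩ := SmoothPartitionOfUnity.exists_isSubordinate (ι := t) 𝓘(ℝ, E) isClosed_univ
    (fun a => (chartAt E a.1).source) (fun a => (chartAt E a.1).open_source)
    (fun x hx => by simpa using ht hx)
  have hm : ∀ a : M, Met (comap (chartAt E a) fun _ => B) (chartAt E a).source := fun a =>
    (met_model.2 ⟨isOpen_univ, contDiffOn_const, fun _ _ => hs, fun _ _ => hp⟩).comap (ld_chart a)
      (mapsTo_univ _ _)
  refine ⟨fun x => ∑ a : t, ρ a x • comap (chartAt E a.1) (fun _ => B) x, isOpen_univ,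
    fun x _ v w => ?_, fun x _ v hv => ?_, fun b u hu => ?_⟩
  · simp only [sum_apply, smul_apply, comap_apply, hs (md E _ x v)]
  · obtain ⟨a, ha⟩ := ρ.exists_pos_of_mem (mem_univ x)
    simp only [sum_apply, smul_apply, smul_eq_mul]
    refine Finset.sum_pos' (fun i _ => mul_nonneg (ρ.nonneg i x) (nonneg_of_pos hp _))
      ⟨a, Finset.mem_univ a, mul_pos ha ((hm a).pos x (hρ a (subset_tsupport _ ha.ne')) v hv)⟩
  · have e : co (fun x => ∑ a : t, ρ a x • comap (chartAt E a.1) (fun _ => B) x) b = fun u =>
        ∑ a : t, ρ a ((chartAt E b).symm u) • co (comap (chartAt E a.1) fun _ => B) b u := by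
      funext u; ext v w
      simp [co, comap_apply]
    rw [e]
    refine (ContDiffAt.sum fun a _ => ?_).contDiffWithinAt
    by_cases h : (chartAt E b).symm u ∈ (chartAt E a.1).source
    · exact ((ρ a).contMDiff.contMDiffAt.comp u (sm_symm hu.1)).contDiffAt.smul
        (((hm a).isMetricOn b).contDiffAt ⟨hu.1, h⟩)
    · refine (contDiffAt_const (c := 0)).congr_of_eventuallyEq ?_
      filter_upwards [(tendsto_symm hu.1).eventually
        (notMem_tsupport_iff_eventuallyEq.1 fun h' => h (hρ a h'))] with z hz
      rw [hz]; simp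

end Vale.Agent.P216R
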