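import Vale.Agent.P216R.TGlue
import Vale.Agent.P216ST.Stmt

/-!
# P216R: maximal Ricci flows on closed manifolds
-/

open scoped Manifold ContDiff Topology
open Set Filter

set_option maxSynthPendingDepth 3

noncomputable section

namespace Vale.Agent.P216R

open Vale.Agent.P216ST (STE)

variable (E : Type) [NormedAddCommGroup E] [NormedSpace ℝ E] [FiniteDimensional ℝ E]

/-- a flow with bounded curvature on a closed manifold extends to the closed interval -/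
def CLOSE : Prop :=
  ∀ (M : Type) [TopologicalSpace M] [ChartedSpace E M] [IsManifold 𝓘(ℝ, E) ∞ M] (U : Set M)
    (g : ℝ → Ten E M) (a b C : ℝ), IsCompact U → Hs U → a < b → RF g (Ico a b) U →
    (∀ t ∈ Ico a b, ∀ x ∈ U, RmB (g t) 0 x C) →
    ∃ g' : ℝ → Ten E M, RF g' (Icc a b) U ∧ ∀ t ∈ Ico a b, EqOn (g' t) (g t) U

/-- on a closed manifold bounded scalar curvature implies bounded curvature -/
def SCB : Prop :=
  ∀ (M : Type) [TopologicalSpace M] [ChartedSpace E M] [IsManifold 𝓘(ℝ, E) ∞ M] (U : Set M)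
    (g : ℝ → Ten E M) (a b Θ : ℝ), IsCompact U → Hs U → a < b → RF g (Ico a b) U →
    (∀ t ∈ Ico a b, ∀ x ∈ U, Sc (g t) x ≤ Θ) → ∃ C, ∀ t ∈ Ico a b, ∀ x ∈ U, RmB (g t) 0 x C

variable {E} {M : Type} [TopologicalSpace M] [ChartedSpace E M]
  {g : ℝ → Ten E M} {g₀ : Ten E M} {U : Set M} {I J : Set ℝ} {a T Θ : ℝ}

theorem rf_shift (H : RF g I U) (c : ℝ) (hm : MapsTo (fun t => t - c) J I) :
    RF (fun t => g (t - c)) J U where
  toFam := by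
    simpa only [one_smul, id] using H.toFam.resc one_pos (contDiffOn_id.sub contDiffOn_const) hm
  eqn t ht x hx := by
    have := (H.eqn _ (hm ht) x hx).scomp t ((hasDerivWithinAt_id t J).sub_const c) hm
    rw [one_smul] at this
    exact this

variable [IsManifold 𝓘(ℝ, E) ∞ M]

theorem fam_continuousOn_Sc (H : Fam g I U) :
    ContinuousOn (fun p : ℝ × M => Sc (g p.1) p.2) (I ×ˢ U) := by
  rintro ⟨t, x⟩ ⟨ht, hx⟩
  have h1 : PS (fun s => co (g s) x) I t (pt E x) :=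
    contDiffWithinAt_univ_of (H.smooth x) (isOpen_dom x H.isOpen) ht (pt_mem_dom hx)
  have h2 := (h1.scG ht (((H.met ht).isMetricOn x).pos _ (pt_mem_dom hx))).continuousWithinAt
  have h3 : ContinuousWithinAt (fun p : ℝ × M => (p.1, chartAt E x p.2)) (I ×ˢ U) (t, x) :=
    (continuousAt_fst.prodMk (ContinuousAt.comp (g := chartAt E x)
      ((chartAt E x).continuousAt (mem_chart_source E x)) continuousAt_snd)).continuousWithinAt
  refine (ContinuousWithinAt.comp (g := fun q : ℝ × E => scG (co (g q.1) x) q.2)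
    (f := fun p : ℝ × M => (p.1, chartAt E x p.2)) (x := (t, x)) h2 h3
    fun p hp => ⟨hp.1, mem_univ _⟩).congr_of_eventuallyEq ?_ ?_
  · filter_upwards [self_mem_nhdsWithin, mem_nhdsWithin_of_mem_nhds (continuousAt_snd.eventually
      ((chartAt E x).open_source.mem_nhds (mem_chart_source E x)))] with p hp hq
    exact (H.met hp.1).Sc_chart hp.2 hq
  · exact (H.met ht).Sc_chart hx (mem_chart_source E x)

theorem exists_short (hs : STE E) (hc : IsCompact U) (hH : Hs U) (hg : Met g₀ U) (a : ℝ) :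
    ∃ b, a < b ∧ ∃ g : ℝ → Ten E M, RF g (Icc a b) U ∧ g a = g₀ := by
  obtain ⟨ε, h0, g, h1, h2⟩ := hs M U g₀ hc hH hg
  refine ⟨a + ε, by linarith, fun t => g (t - a), rf_shift h1 a fun t ht => ?_, by simp [h2]⟩
  exact ⟨sub_nonneg.2 ht.1, sub_le_iff_le_add'.2 ht.2⟩

/-- a flow on a closed interval can be continued -/
theorem exists_continue (hs : STE E) (hc : IsCompact U) (hH : Hs U) {b : ℝ} (hab : a ≤ b)
    (H : RF g (Icc a b) U) :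
    ∃ c, b < c ∧ ∃ g' : ℝ → Ten E M, RF g' (Icc a c) U ∧ ∀ t ≤ b, g' t = g t := by
  obtain ⟨c, h1, h, h2, h3⟩ := exists_short hs hc hH (H.toFam.met ⟨hab, le_rfl⟩) b
  exact ⟨c, h1, cat g h b, H.cat h2 hab h1.le (by rw [h3]; exact fun _ _ => rfl),
    fun t ht => cat_of_le ht⟩

/-- the maximal flow up to the horizon `T` -/
theorem exists_maximal (hs : STE E) (hcl : CLOSE E) (hc : IsCompact U) (hH : Hs U)
    (hg : Met g₀ U) (hT : a < T) : ∃ g : ℝ → Ten E M, g a = g₀ ∧ (RF g (Icc a T) U ∨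
      ∃ τ ∈ Ioc a T, RF g (Ico a τ) U ∧ ∀ C, ∃ t ∈ Ico a τ, ∃ x ∈ U, ¬ RmB (g t) 0 x C) := by
  classical
  let S := {p : ℝ × (ℝ → Ten E M) // p.1 ∈ Ioc a T ∧ RF p.2 (Ico a p.1) U ∧ p.2 a = g₀}
  let r : S → S → Prop := fun p q => p.1.1 ≤ q.1.1 ∧ ∀ t ∈ Ico a p.1.1, q.1.2 t = p.1.2 t
  have mk : ∀ c, a < c → ∀ g : ℝ → Ten E M, RF g (Icc a c) U → g a = g₀ →
      min c T ∈ Ioc a T ∧ RF g (Ico a (min c T)) U ∧ g a = g₀ := fun c h1 g h2 h3 =>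
    ⟨⟨lt_min h1 hT, min_le_right _ _⟩, SF.rf_sub h2
      (fun t ht => ⟨ht.1, ht.2.le.trans (min_le_left _ _)⟩) h2.isOpen Subset.rfl, h3⟩
  have hne : Nonempty S := by
    obtain ⟨b, h1, g, h2, h3⟩ := exists_short hs hc hH hg a
    exact ⟨⟨(min b T, g), mk b h1 g h2 h3⟩⟩
  obtain ⟨m, hm⟩ := exists_maximal_of_nonempty_chains_bounded (r := r) (fun c hch hcn => by
    let G : ℝ → Ten E M := fun t => if h : ∃ p ∈ c, t < p.1.1 then h.choose.1.2 t else g₀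
    have hG : ∀ p ∈ c, ∀ t ∈ Ico a p.1.1, G t = p.1.2 t := fun p hp t ht => by
      have h : ∃ p ∈ c, t < p.1.1 := ⟨p, hp, ht.2⟩
      simp only [G, h, dif_pos]
      by_cases e : h.choose = p
      · rw [e]
      · rcases hch h.choose_spec.1 hp e with k | k
        · exact (k.2 t ⟨ht.1, h.choose_spec.2⟩).symm
        · exact k.2 t ht
    have hb : BddAbove ((fun p : S => p.1.1) '' c) := ⟨T, by rintro _ ⟨p, -, rfl⟩; exact p.2.1.2⟩
    obtain ⟨p₀, hp₀⟩ := hcn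
    have hle : ∀ p ∈ c, p.1.1 ≤ sSup ((fun p : S => p.1.1) '' c) := fun p hp =>
      le_csSup hb (mem_image_of_mem _ hp)
    refine ⟨⟨(sSup ((fun p : S => p.1.1) '' c), G), ⟨p₀.2.1.1.trans_le (hle p₀ hp₀),
      csSup_le ⟨_, mem_image_of_mem _ hp₀⟩ ?_⟩, rf_of_local hg.isOpen fun t ht x hx => ?_,
      (hG p₀ hp₀ a ⟨le_rfl, p₀.2.1.1⟩).trans p₀.2.2.2⟩, fun p hp => ⟨hle p hp, hG p hp⟩⟩
    · rintro _ ⟨p, -, rfl⟩; exact p.2.1.2
    · obtain ⟨_, ⟨p, hp, rfl⟩, h1⟩ := exists_lt_of_lt_csSup ⟨_, mem_image_of_mem _ hp₀⟩ ht.2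
      refine ⟨Ico a p.1.1, ?_, U, hx, rf_congr p.2.2.1 fun s hs => ?_⟩
      · filter_upwards [self_mem_nhdsWithin, mem_nhdsWithin_of_mem_nhds (Iio_mem_nhds h1)]
          with s h2 h3 using ⟨h2.1, h3⟩
      · exact fun y _ => congrFun (hG p hp s hs) y)
    (fun h1 h2 => ⟨h1.1.trans h2.1, fun t ht =>
      (h2.2 t ⟨ht.1, ht.2.trans_le h1.1⟩).trans (h1.2 t ht)⟩)
  obtain ⟨⟨τ, g⟩, h1, h2, h3⟩ := m
  by_cases hb : ∀ C, ∃ t ∈ Ico a τ, ∃ x ∈ U, ¬ RmB (g t) 0 x C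
  · exact ⟨g, h3, Or.inr ⟨τ, h1, h2, hb⟩⟩
  push Not at hb
  obtain ⟨C, hC⟩ := hb
  obtain ⟨g', h4, h5⟩ := hcl M U g a τ C hc hH h1.1 h2 hC
  let g₁ : ℝ → Ten E M := fun t => if t < τ then g t else g' t
  have h6 : RF g₁ (Icc a τ) U := rf_congr h4 fun t ht => by
    by_cases k : t < τ
    · simp only [g₁, k, if_true]; exact (h5 t ⟨ht.1, k⟩).symm
    · simp only [g₁, k, if_false]; exact fun _ _ => rfl
  have h7 : ∀ t < τ, g₁ t = g t := fun t ht => if_pos ht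
  rcases h1.2.eq_or_lt with rfl | hlt
  · exact ⟨g₁, (h7 a h1.1).trans h3, Or.inl h6⟩
  · obtain ⟨c, k1, g₂, k2, k3⟩ := exists_continue hs hc hH h1.1.le h6
    have k4 : ∀ t < τ, g₂ t = g t := fun t ht => (k3 t ht.le).trans (h7 t ht)
    have := hm ⟨(min c T, g₂), mk c (h1.1.trans k1) g₂ k2 ((k4 a h1.1).trans h3)⟩
      ⟨(lt_min k1 hlt).le, fun t ht => k4 t ht.2⟩
    exact absurd this.1 (not_le.2 (lt_min k1 hlt))

/-- the first time at which the scalar curvature reaches `Θ` -/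
theorem exists_first (hc : IsCompact U) {b : ℝ} (H : Fam g (Icc a b) U)
    (h0 : ∀ x ∈ U, Sc (g a) x < Θ) (hab : a ≤ b) (h1 : ∃ x ∈ U, Θ ≤ Sc (g b) x) :
    ∃ τ ∈ Ioc a b, (∀ t ∈ Ico a τ, ∀ x ∈ U, Sc (g t) x < Θ) ∧ (∀ x ∈ U, Sc (g τ) x ≤ Θ) ∧
      ∃ x ∈ U, Sc (g τ) x = Θ := by
  have hcont := fam_continuousOn_Sc H
  have hK : IsCompact ((Icc a b ×ˢ U) ∩ (fun p : ℝ × M => Sc (g p.1) p.2) ⁻¹' Ici Θ) := by
    obtain ⟨W, w1, w2⟩ := (continuousOn_iff_isClosed.1 hcont) _ isClosed_Ici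
    rw [inter_comm, w2]
    exact (isCompact_Icc.prod hc).inter_left w1
  obtain ⟨x₁, k1, k2⟩ := h1
  obtain ⟨⟨τ, x⟩, ⟨⟨m1, m2⟩, m3⟩, m4⟩ := hK.exists_isMinOn
    ⟨(b, x₁), ⟨⟨hab, le_rfl⟩, k1⟩, k2⟩ continuous_fst.continuousOn
  have hτ : a < τ := lt_of_le_of_ne m1.1 fun e => by
    have := h0 x m2
    rw [e] at this
    exact absurd m3 (not_le.2 this)
  have hlt : ∀ t ∈ Ico a τ, ∀ y ∈ U, Sc (g t) y < Θ := fun t ht y hy => by
    by_contra k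
    exact absurd (m4 (a := (t, y)) ⟨⟨⟨ht.1, ht.2.le.trans m1.2⟩, hy⟩, not_lt.1 k⟩) (not_le.2 ht.2)
  have hle : ∀ y ∈ U, Sc (g τ) y ≤ Θ := fun y hy => by
    have c1 : ContinuousWithinAt (fun t => Sc (g t) y) (Ico a τ) τ :=
      ContinuousWithinAt.comp (g := fun p : ℝ × M => Sc (g p.1) p.2) (f := fun t => (t, y))
        (hcont (τ, y) ⟨m1, hy⟩) (continuous_id.prodMk continuous_const).continuousWithinAt
        fun t ht => ⟨⟨ht.1, ht.2.le.trans m1.2⟩, hy⟩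
    have : (𝓝[Ico a τ] τ).NeBot := right_nhdsWithin_Ico_neBot hτ
    exact le_of_tendsto c1 (eventually_of_mem self_mem_nhdsWithin fun t ht => (hlt t ht y hy).le)
  exact ⟨τ, ⟨hτ, m1.2⟩, hlt, hle, x, m2, le_antisymm (hle x m2) m3⟩

/-- the flow exists until the scalar curvature reaches `Θ` or the horizon `T` is reached -/
theorem exists_until (hs : STE E) (hcl : CLOSE E) (hb : SCB E) (hc : IsCompact U) (hH : Hs U)
    (hg : Met g₀ U) (hT : a < T) (h0 : ∀ x ∈ U, Sc g₀ x < Θ) :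
    ∃ τ ∈ Ioc a T, ∃ g : ℝ → Ten E M, g a = g₀ ∧ RF g (Icc a τ) U ∧
      (∀ t ∈ Ico a τ, ∀ x ∈ U, Sc (g t) x < Θ) ∧ (∀ x ∈ U, Sc (g τ) x ≤ Θ) ∧
      (τ = T ∨ ∃ x ∈ U, Sc (g τ) x = Θ) := by
  obtain ⟨g, rfl, H⟩ := exists_maximal hs hcl hc hH hg hT
  have key : ∀ b ∈ Icc a T, RF g (Icc a b) U → (∃ x ∈ U, Θ ≤ Sc (g b) x) →
      ∃ τ ∈ Ioc a T, ∃ g' : ℝ → Ten E M, g' a = g a ∧ RF g' (Icc a τ) U ∧
      (∀ t ∈ Ico a τ, ∀ x ∈ U, Sc (g' t) x < Θ) ∧ (∀ x ∈ U, Sc (g' τ) x ≤ Θ) ∧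
      (τ = T ∨ ∃ x ∈ U, Sc (g' τ) x = Θ) := fun b hb H h1 => by
    obtain ⟨τ, k1, k2, k3, k4⟩ := exists_first hc H.toFam h0 hb.1 h1
    exact ⟨τ, ⟨k1.1, k1.2.trans hb.2⟩, g, rfl,
      SF.rf_sub H (Icc_subset_Icc le_rfl k1.2) H.isOpen Subset.rfl, k2, k3, Or.inr k4⟩
  rcases H with H | ⟨τ, h1, H, h2⟩
  · by_cases k : ∃ b ∈ Icc a T, ∃ x ∈ U, Θ ≤ Sc (g b) x
    · obtain ⟨b, k1, k2⟩ := k
      exact key b k1 (SF.rf_sub H (Icc_subset_Icc le_rfl k1.2) H.isOpen Subset.rfl) k2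
    · push Not at k
      exact ⟨T, ⟨hT, le_rfl⟩, g, rfl, H, fun t ht => k t (Ico_subset_Icc_self ht),
        fun x hx => (k T ⟨hT.le, le_rfl⟩ x hx).le, Or.inl rfl⟩
  · by_cases k : ∃ b ∈ Ico a τ, ∃ x ∈ U, Θ ≤ Sc (g b) x
    · obtain ⟨b, k1, k2⟩ := k
      exact key b ⟨k1.1, k1.2.le.trans h1.2⟩
        (SF.rf_sub H (fun t ht => ⟨ht.1, ht.2.trans_lt k1.2⟩) H.isOpen Subset.rfl) k2
    · push Not at k
      obtain ⟨C, hC⟩ := hb M U g a τ Θ hc hH h1.1 H fun t ht x hx => (k t ht x hx).le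
      obtain ⟨t, k1, x, k2, k3⟩ := h2 C
      exact absurd (hC t k1 x k2) k3

end Vale.Agent.P216R
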