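import Vale.Agent.P216R.Good
import Vale.Agent.P216E.Tb
import Vale.Agent.P216FA.Plan
import Vale.Agent.P216LS.TubC
import Vale.Agent.P216EO.Pp
import Vale.Agent.P216CP.HR
import Vale.Agent.P216SG.Tri

/-!
# P216R: existence of flows with arbitrarily fine surgeries
-/

open scoped Manifold ContDiff Topology ENNReal
open Set Filter MeasureTheory Function Metric Real

set_option maxSynthPendingDepth 3

noncomputable section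

namespace Vale.Agent.P216R

open Vale.Agent.P216SG Vale.Agent.P216MP Vale.Agent.P216FA Vale.Agent.P216BF Vale.Agent.P216DC
open Vale.Agent.P216C (Mem Ori Thick)
open Vale.Agent.P216LS (Tub CutD tub_of_cn)
open Vale.Agent.P216FB (Fw Gd EXI)
open Vale.Agent.P216E (NCG)

/-- the entropy cut is possible at a surgery in a tube -/
def CUTD (c₀ A ε₀ : ℝ) : Prop :=
  ∃ c ≥ 1, ∀ (M : Type) [TopologicalSpace M] [ChartedSpace E3 M] [IsManifold 𝓘(ℝ, E3) ∞ M]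
    [MeasurableSpace M] [BorelSpace M] (g : Ten E3 M) (U U' K : Set M) (φ ψ : E3 → M)
    (h δ lo hi η : ℝ) (y : M), Met g U → Met g U' → IsCompact U → IsCompact U' → Hs U → Hs U' →
    Cut1 h δ g U U' K φ ψ → δ ≤ ε₀ → y ∈ φ '' sphere 0 1 → Tub ε₀ lo hi g U y → 0 < lo →
    c * lo * h ^ 2 ≤ 1 → c ≤ hi * h ^ 2 → (1 + c * lo) * (c * lo * h ^ 2) ^ 3 ≤ η →
    (1 + hi) * c ^ 3 ≤ η * (hi * h ^ 2) ^ 3 → CutD c₀ A η g U U'

theorem ev_small (a : ℝ) {e : ℝ} (he : 0 < e) : ∀ᶠ h in 𝓝[>] (0 : ℝ), a * h ≤ e :=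
  mem_nhdsWithin_of_mem_nhds ((Continuous.tendsto' (by fun_prop) 0 0 (by simp)).eventually
    (ge_mem_nhds he))

theorem col_refl {M : Type} [TopologicalSpace M] [ChartedSpace E3 M] [MeasurableSpace M]
    (g : Ten E3 M) (U : Set M) (ε : ℝ) : P216FB.Col g U U ε :=
  ⟨⟨∅, by simp, pairwise_empty _, fun _ h k => absurd h k⟩, by simp⟩

variable {c₀ A ε₀ : ℝ}

/-- the total error of the entropy cuts is small -/
theorem ev_tb (hcd : CUTD c₀ A ε₀) {lo V T η : ℝ} (hlo : 0 < lo) (hη : 0 < η) :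
    ∀ᶠ h in 𝓝[>] (0 : ℝ), ∀ (N : Type) [TopologicalSpace N] [ChartedSpace E3 N] (M : Type)
      [TopologicalSpace M] [ChartedSpace E3 M] [IsManifold 𝓘(ℝ, E3) ∞ M] [MeasurableSpace M]
      [BorelSpace M] (C : Cls) (g₀ : Ten E3 N) (U₀ : Set N) (g : ℝ → Ten E3 M) (b d : M → ℝ)
      (t ε δ : ℝ), SG C (Surg ε lo (h ^ 5)⁻¹ h δ) g₀ U₀ g b d t → t ≤ T → ε ≤ ε₀ → δ ≤ ε₀ →
      (sgT b d t).ncard * h ^ 3 ≤ V → P216E.Tb c₀ A M g b d t η := by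
  classical
  obtain ⟨c, c1, K⟩ := hcd
  obtain ⟨B, B1, B2⟩ : ∃ B, (1 + c * lo) * (c * lo) ^ 3 ≤ B ∧ 2 * c ^ 3 ≤ B :=
    ⟨max _ _, le_max_left _ _, le_max_right _ _⟩
  have B0 : 0 < B := lt_of_lt_of_le (by positivity) B2
  filter_upwards [self_mem_nhdsWithin, ev_small 1 one_pos, ev_small (c * lo) one_pos,
    ev_small c one_pos, ev_small (V * B * (1 + T)) hη] with h h0 h1 h2 h3 h4
    N _ _ M _ _ _ _ _ C g₀ U₀ g b d t ε δ H ht hε hδ hV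
  replace h0 : 0 < h := h0
  have t0 := H.sf.lt
  have h5 : h ^ 2 ≤ 1 := pow_le_one₀ h0.le (by linarith)
  refine ⟨H.sf.finite_sgT.toFinset, B * h ^ 4, by positivity, ?_, fun s hs => ?_⟩
  · rw [← ncard_eq_toFinset_card _ H.sf.finite_sgT]
    calc _ = (sgT b d t).ncard * h ^ 3 * (B * (1 + t) * h) := by ring
      _ ≤ V * (B * (1 + T) * h) := by gcongr; exact le_trans (by positivity) hV
      _ ≤ η := by linarith
  by_cases e : preS b d s = postS b d s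
  · exact Or.inl e
  obtain ⟨φ, ψ, K', q, ⟨y, hy, hT⟩, -⟩ := (H.sg s hs).resolve_left e
  have s1 : Sl b d 0 t _ s := sl_pre ⟨hs.1, hs.2.le⟩
  have s2 : Sl b d 0 t _ s := sl_post ⟨hs.1.le, hs.2⟩
  have e2 : (h ^ 5)⁻¹ * h ^ 2 = (h ^ 3)⁻¹ := by field_simp
  refine Or.inr ⟨H.sf.finite_sgT.mem_toFinset.2 ⟨hs, e⟩, K M _ _ _ K' φ ψ h δ lo _ _ y (H.sf.met s1)
    (H.sf.met s2) (H.sf.sl_cpt s1) (H.sf.sl_cpt s2) (H.sf.sl_hs s1) (H.sf.sl_hs s2) q hδ hy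
    (hT.mono hε) hlo ?_ ?_ ?_ ?_⟩
  · nlinarith [mul_pos (mul_pos (one_pos.trans_le c1) hlo) h0]
  · rw [e2, le_inv_comm₀ (by linarith) (by positivity), ← one_div, le_div_iff₀ (by linarith)]
    nlinarith [mul_pos (one_pos.trans_le c1) h0]
  · calc _ = (1 + c * lo) * (c * lo) ^ 3 * h ^ 4 * h ^ 2 := by ring
      _ ≤ B * h ^ 4 * 1 := by gcongr
      _ = _ := mul_one _
  · have h6 : 1 ≤ (h ^ 5)⁻¹ := (one_le_inv₀ (by positivity)).2 (pow_le_one₀ h0.le (by linarith))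
    calc _ ≤ ((h ^ 5)⁻¹ + (h ^ 5)⁻¹) * c ^ 3 := by gcongr
      _ = 2 * c ^ 3 * (h ^ 5)⁻¹ := by ring
      _ ≤ B * (h ^ 5)⁻¹ := by gcongr
      _ = _ := by rw [e2]; field_simp

/-- the flows with fine surgeries are good -/
theorem exists_gd (hcd : CUTD c₀ A ε₀) (h0 : 0 < ε₀) (hn : NCG (P216E.Tb c₀ A)) :
    ∃ c : ℕ → ℝ, (∀ j, 1 ≤ c j) ∧ ∀ (C : Cls) (T : ℝ), CutClosed C →
    (∀ (M : Type) [TopologicalSpace M] [ChartedSpace E3 M] (U : Set M), C M U → Ori U) →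
    ∀ (N : Type) [TopologicalSpace N] [ChartedSpace E3 N] [IsManifold 𝓘(ℝ, E3) ∞ N]
      [MeasurableSpace N] [BorelSpace N] (U₀ : Set N) (g₀ : Ten E3 N), Mem C U₀ → Met g₀ U₀ →
      ∃ κ > 0, ∃ V ≥ 0, ∀ e > 0, ∀ δ' > 0, ∃ δ₀ > 0, ∃ η ≤ e, ∀ lo > 0, ∀ᶠ h in 𝓝[>] (0 : ℝ),
      ∀ (M : Type) [TopologicalSpace M] [ChartedSpace E3 M] [IsManifold 𝓘(ℝ, E3) ∞ M]
        [MeasurableSpace M] [BorelSpace M] (g : ℝ → Ten E3 M) (b d : M → ℝ) (t ε δ Θ : ℝ),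
        SG C (Surg ε lo (h ^ 5)⁻¹ h δ) g₀ U₀ g b d t → t ≤ T → ε ≤ ε₀ → δ ≤ δ₀ →
        (∀ W s, Sl b d 0 t W s → ∀ y ∈ W, Sc (g s) y ≤ Θ) →
        Gd C c (P216E.Tb c₀ A) g₀ U₀ g b d t h δ' e η κ V := by
  obtain ⟨c, c1, hL⟩ := exists_srgL
  obtain ⟨C₁, δ₁, d1, hok⟩ := exists_sgOK
  obtain ⟨δ₂, d2, hP⟩ := exists_sg_pinch
  refine ⟨c, c1, fun C T hC hO N _ _ _ _ _ U₀ g₀ hU hg => ?_⟩
  obtain ⟨κ, k0, η₀, e0, hn⟩ := hn N U₀ g₀ T hg hU.cpt hU.hs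
  obtain ⟨τ, t0, hτ⟩ := exists_age hg hU.cpt
  have hfin : ENNReal.ofReal (exp (3 / τ * T)) * vol g₀ U₀ ≠ ⊤ :=
    ENNReal.mul_ne_top ENNReal.ofReal_ne_top (vol_lt_top hg hU.cpt Subset.rfl).ne
  refine ⟨κ, k0, _, ENNReal.toReal_nonneg (a := ENNReal.ofReal (exp (3 / τ * T)) * vol g₀ U₀),
    fun e he δ' hδ' => ?_⟩
  obtain ⟨δ₃, d3, hL⟩ := hL δ' hδ'
  obtain ⟨δ₄, d4, hcol⟩ := exists_col he
  refine ⟨min (min δ₁ δ₂) (min (min δ₃ δ₄) ε₀), by positivity, min e η₀, min_le_left _ _,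
    fun lo hlo => ?_⟩
  filter_upwards [self_mem_nhdsWithin, ev_tb hcd (T := T) hlo (lt_min he e0)] with h h1 htb
    M _ _ _ _ _ g b d t ε δ Θ H ht hε hδ hΘ
  replace h1 : 0 < h := h1
  simp only [le_min_iff] at hδ
  have ok := hok ε lo (h ^ 5)⁻¹ h δ (C₁ / h ^ 2) hδ.1.1 (le_of_eq (by field_simp))
  obtain ⟨v1, v2⟩ := H.count ok (by positivity) (a := 3 / τ) (by positivity)
    (fun x hx => neg_div τ 3 ▸ (hτ x hx).1) hU.cpt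
    ((ENNReal.ofReal_toReal hfin).ge.trans' (by gcongr)) ENNReal.toReal_nonneg
  have hp := fun W s hW (hs : 0 < s) x hx => Pinch.mono
    (hP N M C g₀ U₀ g b d t ε lo _ h δ τ H hδ.1.2 t0 hτ W s hW x hx) hs (by linarith)
  have tb := htb N M C g₀ U₀ g b d t ε δ H ht hε hδ.2.2 v2
  have i0 := H.sf.met (sl_post ⟨le_rfl, H.sf.lt⟩)
  refine ⟨⟨H.sf, fun W s k => (H.mem W s k).conn, fun U s x D k hx => ⟨H.sf,
    fun W s k => (H.mem W s k).conn, k, hx, h1, hδ', fun s hs =>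
      hL M g b d t s ε lo _ h δ H.sf hs hδ.2.1.1 h1 (H.sg s hs),
      fun W s k => hO M W (H.mem W s k).cls, fun W s k => sepa_of_mem hC (H.mem W s k)⟩,
    fun W s k hs => pin_of_pinchAt (H.sf.met k) hs (hp W s k hs), Θ, hΘ⟩, H.mem, fun s hs => ?_,
    tb, fun W s k hs x hx => neg_div s 3 ▸ (hp W s k hs x hx).1, v1,
    hn M g b d t _ H.sf ht H.init (min_le_right _ _) tb, (H.init.vol_eq hU.cpt).le,
    fun a k x hx => ?_, fun s hs => ?_⟩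
  · rcases H.sg s hs with k | ⟨φ, ψ, K, q, -⟩
    · exact k ▸ col_refl _ _ _
    · exact hcol M _ _ _ K φ ψ h δ (H.sf.met (sl_pre ⟨hs.1, hs.2.le⟩)) q hδ.2.1.2
  · obtain ⟨y, hy, e⟩ := H.init.sc i0 hx
    exact e ▸ k y hy
  · rcases H.ok ok hs with k | k
    · exact k ▸ ⟨le_rfl, fun _ _ => id⟩
    · exact ⟨le_self_add.trans k.1, k.2⟩

section

variable {M : Type} [TopologicalSpace M] [ChartedSpace E3 M] [IsManifold 𝓘(ℝ, E3) ∞ M]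
  [MeasurableSpace M] {c : ℕ → ℝ} {g : ℝ → Ten E3 M} {b d : M → ℝ} {W : Set M} {y : M}
  {T h δ κ s r τ a : ℝ}

/-- the environment for the trivial region function -/
theorem env_zero (H : Fw c g b d T h δ)
    (nc : ∀ W s, Sl b d 0 T W s → ∀ y ∈ W, ∀ ρ ∈ Ioc (0 : ℝ) 1, NC κ (g s) W y ρ)
    (hW : Sl b d 0 T W s) (hr : r ≤ 1) (ha : 0 < a) (hs : a + τ ≤ s) :
    Dat.Env ⟨g, b, d, 0, T, W, s, y, fun _ _ _ => 0, h, δ⟩ κ 0 r τ a :=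
  ⟨by simp only; linarith, fun V u k hu => P216EO.pin_mono (H.sf.met k)
      (H.pin V u k (by linarith [hu.1])) ha (by linarith [hu.1]),
    fun _ _ _ _ _ _ => add_nonneg le_rfl ENNReal.toReal_nonneg, fun _ _ _ _ _ _ _ _ _ _ => by simp,
    fun V u z k ρ hρ => nc V u (P216EO.prec_sl k.prec hW (by linarith [k.le])).1 z k.mem ρ
      ⟨hρ.1, hρ.2.trans hr⟩⟩

theorem cn_two {g : Ten E3 M} {ε C A w : ℝ} (hC : 0 < C) (H : CN ε C A w g W y) :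
    CN ε (2 * C) A w g W y := by
  have p := H.pos
  refine ⟨p, ⟨rmB_mono H.dt.r0 (by gcongr; linarith), rmB_mono H.dt.r1 (by gcongr; linarith),
    rmB_mono H.dt.r2 (by gcongr; linarith), fun z hz => ?_⟩, H.nt⟩
  obtain ⟨h1, h2⟩ := H.dt.two z hz
  exact ⟨by linarith, by nlinarith⟩

end

/-- a thick point has bounded curvature -/
theorem lowpt {C A a : ℝ} (hC : 0 < C) (hA : 0 < A) (ha : 0 < a) (K : ℝ) : ∃ K₁ > 0,
    ∀ (M : Type) [TopologicalSpace M] [ChartedSpace E3 M] [IsManifold 𝓘(ℝ, E3) ∞ M]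
      [MeasurableSpace M] (g : Ten E3 M) (U : Set M) (x : M) (ε w : ℝ), 0 < w → Met g U →
      Pin g U a → (∀ r > 0, (∀ y ∈ bl g U x r, SecGe g y (-(1 / r ^ 2))) → Vl w g U x r) →
      (K ≤ Sc g x → CN ε C A (w / 2) g U x) → Sc g x ≤ K₁ := by
  refine ⟨max K (A ^ 2 * (exp (3 + 1 / (C * A ^ 2)⁻¹) / a)), lt_max_of_lt_right (by positivity),
    fun M _ _ _ _ g U x ε w hw hg hp hT hcn => le_of_not_gt fun k => ?_⟩
  obtain ⟨k1, k2⟩ := max_lt_iff.1 k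
  have H := hcn k1.le
  have h0 := H.pos
  have h1 : 0 < sg g x := inv_pos.2 (sqrt_pos.2 h0)
  have h2 : sg g x ^ 2 * Sc g x = 1 := by
    rw [sg, inv_pow, sq_sqrt h0.le, inv_mul_cancel₀ h0.ne']
  obtain ⟨ρ, hρ, hv⟩ := H.nt.thin
  have h3 := h1.trans_le hρ.1
  have h4 : Sc g x / A ^ 2 ≤ 1 / ρ ^ 2 := by
    rw [div_le_div_iff₀ (by positivity) (by positivity)]
    nlinarith [mul_le_mul_of_nonneg_right (pow_le_pow_left₀ h3.le hρ.2 2) h0.le]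
  have := (hT ρ h3 fun y hy => secGe_mono hg (bl_subset hy) (hp y (bl_subset hy) (C * A ^ 2)⁻¹
    (by positivity)) (neg_le_neg (le_trans (max_le ?_ ?_) h4))).trans hv
  · rw [ENNReal.ofReal_le_ofReal_iff (by positivity)] at this
    nlinarith [pow_pos h3 3]
  · rw [inv_mul_le_iff₀ (by positivity)]
    exact (H.dt.two y (bl_mono hρ.2 hy)).2.trans_eq (by field_simp)
  · rw [le_div_iff₀ (by positivity)]; linarith

theorem surg_of_neck {M : Type} [TopologicalSpace M] [ChartedSpace E3 M] [MeasurableSpace M]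
    {g : ℝ → Ten E3 M} {b d : M → ℝ} {U U' K : Set M} {φ φ' ψ : E3 → M} {g₁ : Ten E3 M} {y : M}
    {T t h δ δ₁ ε lo hi : ℝ} (H : SF g b d 0 T) (n : SNeck g U φ t h δ₁) (hδ : δ₁ ≤ δ)
    (hy : y ∈ φ '' sphere 0 1) (tb : Tub ε lo hi (g t) U y) (e : φ' = φ ∨ φ' = φ ∘ inv)
    (o4 : EqOn g₁ (g t) U) (o5 : Cut1 h δ g₁ U U' K φ' ψ) :
    Surg ε lo hi h δ M (update g t g₁) b t U U' := by
  have age : ∀ x ∈ anl δ⁻¹, b (φ x) ≤ t - h ^ 2 / 2 := fun x hx =>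
    (H.subset_liv (by nlinarith) n.rf.toFam (mem_image_of_mem _ (anl_mono (inv_anti₀
      n.neck.dpos hδ) hx))).1
  refine ⟨φ', ψ, K, by rwa [update_self], ⟨y, ?_, ?_⟩, ?_⟩
  · rcases e with rfl | rfl
    · exact hy
    · rwa [image_comp, inv_image_sphere]
  · rw [update_self]; exact tb.congr o5.isOpen o4
  · rcases e with rfl | rfl
    exacts [age, fun x hx => age _ (inv_mem_anl hx)]

/-- a strong neck in a tube -/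
theorem find_neck {X : Mf} {c : ℕ → ℝ} {g : ℝ → Ten E3 X.M} {b d : X.M → ℝ} {x z : X.M}
    {t h δ δ₁ κ ε C A w r K K₂ Λ : ℝ} (G : Fw c g b d t h δ)
    (nc : ∀ W s, Sl b d 0 t W s → ∀ y ∈ W, ∀ ρ ∈ Ioc (0 : ℝ) 1, NC κ (g s) W y ρ)
    (hcn : ∀ F : Dat X.M, F.Bas c → F.δ = δ → F.Env κ 0 r (r ^ 2) (r ^ 2) →
      K ≤ r ^ 2 * Sc (F.g F.t) F.x → CN ε C A w (F.g F.t) F.U F.x)
    (hct : ∀ (F : Dat X.M) (γ : ℝ → X.M) (ℓ : ℝ), F.Bas c → F.δ = δ →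
      (∀ W s y, F.D W s y = 0) → F.Env κ 0 (Λ * F.h) (Λ * F.h ^ 2) (Λ * F.h ^ 2) →
      F.CNR ε C A w (Λ * F.h) (Λ * F.h ^ 2) (1 / (Λ * F.h ^ 2)) →
      MinGeo (F.g F.t) F.U γ ℓ → Λ * F.h ^ 2 * Sc (F.g F.t) (γ 0) ≤ 1 →
      Λ ≤ F.h ^ 2 * Sc (F.g F.t) (γ ℓ) →
      ∃ φ, SNeck F.g F.U φ F.t F.h δ₁ ∧ ∃ u ∈ Icc 0 ℓ, γ u ∈ φ '' sphere 0 1)
    (hx : x ∈ preS b d t) (hz : z ∈ preS b d t) (r0 : 0 < r) (r1 : r ≤ 1) (ht : 3 * r ^ 2 ≤ t)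
    (hx' : Pin (g t) (preS b d t) (r ^ 2) → (K / r ^ 2 ≤ Sc (g t) x →
      CN ε C A w (g t) (preS b d t) x) → Sc (g t) x ≤ K₂)
    (hz' : 3 * C * (h ^ 5)⁻¹ ≤ Sc (g t) z) (C1 : 1 ≤ C) (K0 : 0 < K) (k2 : 0 < K₂) (h0 : 0 < h)
    (l0 : 0 < Λ) (h1 : Λ * h ≤ 1) (l1 : Λ * h ^ 2 ≤ r ^ 2) (h3 : Λ * (K / r ^ 2) * h ^ 2 ≤ 1)
    (h4 : Λ * K₂ * h ^ 2 ≤ 1) (h6 : Λ ≤ h ^ 2 * (3 * C * (h ^ 5)⁻¹)) :
    ∃ φ, SNeck g (preS b d t) φ t h δ₁ ∧ ∃ y ∈ φ '' sphere 0 1,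
      Tub ε (2 * C * K₂ + K / r ^ 2 + 1) (h ^ 5)⁻¹ (g t) (preS b d t) y := by
  have hsl : Sl b d 0 t _ t := sl_pre ⟨G.sf.lt, le_rfl⟩
  have hm := G.sf.met hsl
  have r3 : 0 < r ^ 2 := by positivity
  have gcn : ∀ W s, Sl b d 0 t W s → 2 * r ^ 2 ≤ s → ∀ y ∈ W, K / r ^ 2 ≤ Sc (g s) y →
      CN ε C A w (g s) W y := fun W s k hs y hy hK =>
    hcn ⟨g, b, d, 0, t, W, s, y, fun _ _ _ => 0, h, δ⟩ (G.bas W s y _ k hy) rfl
      (env_zero G nc k r1 r3 (by linarith)) ((div_le_iff₀' r3).1 hK)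
  have hx2 := hx' (P216EO.pin_mono hm (G.pin _ t hsl G.sf.lt) r3 (by linarith))
    (gcn _ t hsl (by linarith) x hx)
  obtain ⟨γ, g1, g2, g3⟩ := P216CP.exists_minGeo_cpl hm (G.sf.sl_hs hsl)
    (hm.cpl (G.sf.sl_cpt hsl)) (hm.ed_ne_top (G.con _ t hsl) Subset.rfl hx hz)
  have l2 : 0 < Λ * h ^ 2 := by positivity
  obtain ⟨φ, n1, u, hu, n2⟩ := hct ⟨g, b, d, 0, t, _, t, x, fun _ _ _ => 0, h, δ⟩ γ _
    (G.bas _ t x _ hsl hx) rfl (fun _ _ _ => rfl) (env_zero G nc hsl h1 l2 (by linarith))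
    (fun W s y k hK => gcn W s (P216EO.prec_sl k.prec hsl (by linarith [k.le])).1
      (by linarith [k.le]) y k.mem (le_trans (by rw [le_div_iff₀ l2]; linarith) hK)) g1
    (by rw [g2]; nlinarith) (by rw [g3]; exact h6.trans (by gcongr))
  refine ⟨φ, n1, _, n2, tub_of_cn (C := 2 * C) (A := A) (w := w) (seg_of_minGeo g1) hu
    (by linarith) (by positivity) (by rw [g2]; nlinarith [div_pos K0 r3])
    (by rw [g3]; nlinarith [inv_pos.2 (pow_pos h0 5)]) fun s hs k => cn_two (by linarith)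
      (gcn _ t hsl (by linarith) _ ((seg_of_minGeo g1).mem hs) ?_)⟩
  nlinarith [k.1, mul_pos (one_pos.trans_le C1) k2]

/-- **existence** of flows with arbitrarily fine surgeries -/
theorem exi (hs : P216ST.STE E3) (hcn : CNLOC) (hct : CUTL) (hcd : CUTD c₀ A ε₀) (h0 : 0 < ε₀)
    (hn : NCG (P216E.Tb c₀ A)) : EXI (P216E.Tb c₀ A) := by
  obtain ⟨c, c1, hG⟩ := exists_gd hcd h0 hn
  obtain ⟨e₁, e1, hcn⟩ := hcn c c1
  obtain ⟨e₂, e2, hct⟩ := hct c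
  obtain ⟨C₁, δ₁, d1, hok⟩ := exists_sgOK
  obtain ⟨δ₂, d2, hE⟩ := exists_early
  refine ⟨c, c1, fun C w T hw hT hC hI hth hO N _ _ _ _ _ U₀ g₀ hU hg => ?_⟩
  obtain ⟨κ, k0, V, V0, hG⟩ := hG C T hC hO N U₀ g₀ hU hg
  obtain ⟨τ, t0, hτ⟩ := exists_age hg hU.cpt
  obtain ⟨K₀, hK₀⟩ := hU.cpt.bddAbove_image hg.continuousOn_Sc
  replace hK₀ : ∀ x ∈ U₀, Sc g₀ x ≤ K₀ := fun x hx => hK₀ (mem_image_of_mem _ hx)
  obtain ⟨K₁, k1, t₀, t1, hE⟩ := hE τ t0 K₀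
  obtain ⟨r, r0, r1, r2⟩ : ∃ r > 0, r ≤ 1 ∧ 3 * r ^ 2 ≤ t₀ :=
    ((eventually_mem_nhdsWithin.and ((ev_small 1 one_pos).and (ev_small 3 t1))).exists).imp
      fun r k => ⟨k.1, by linarith [k.2.1], by nlinarith [mem_Ioi.1 k.1, k.2.1, k.2.2]⟩
  obtain ⟨ε, ε0, ε1, ε2, ε3⟩ : ∃ ε > 0, ε ≤ e₁ ∧ ε ≤ e₂ ∧ ε ≤ ε₀ := ⟨min e₁ (min e₂ ε₀),
    by positivity, min_le_left _ _, min_le_of_right_le (min_le_left _ _),
    min_le_of_right_le (min_le_right _ _)⟩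
  obtain ⟨Cc, C1, A, A1, K, K0, δ₃, d3, hcn⟩ := hcn ε ⟨ε0, ε1⟩ κ k0 (w / 2) (half_pos hw) 0 le_rfl
  obtain ⟨K₂, k2, hlow⟩ := lowpt (C := Cc) (A := A) (a := r ^ 2) (by linarith) (by linarith)
    (by positivity) (K / r ^ 2)
  refine ⟨κ, k0, V, V0, fun e he => ?_⟩
  have c0 := one_pos.trans_le (c1 0)
  obtain ⟨δ', p0, p1, p2, p3⟩ : ∃ δ' > 0, δ' ≤ e ∧ δ' ≤ δ₃ ∧ δ' * c 0 ≤ 1 / 8 :=
    ((eventually_mem_nhdsWithin.and ((ev_small 1 he).and ((ev_small 1 d3).and (ev_small (c 0)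
      (by norm_num : (0 : ℝ) < 1 / 8))))).exists).imp fun _ k =>
      ⟨k.1, by linarith [k.2.1], by linarith [k.2.2.1], by linarith [k.2.2.2]⟩
  obtain ⟨δ₄, d4, η, hη, hG⟩ := hG e he δ' p0
  obtain ⟨δ, q0, q1, q2, q3, q4⟩ : ∃ δ > 0, δ ≤ δ₁ ∧ δ ≤ δ₂ ∧ δ ≤ δ₄ ∧ δ ≤ 1 / 40 :=
    ⟨min (min δ₁ δ₂) (min δ₄ (1 / 40)), by positivity, min_le_of_left_le (min_le_left _ _),
      min_le_of_left_le (min_le_right _ _), min_le_of_right_le (min_le_left _ _),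
      min_le_of_right_le (min_le_right _ _)⟩
  obtain ⟨δ₅, d5, hcut⟩ := exists_cut1 q0
  obtain ⟨Λ, l0, hct⟩ := hct ⟨c, κ, 0, ε, Cc, A, w / 2, 1⟩ rfl
    ⟨c1, k0, le_rfl, ε0, ε2, C1, A1, half_pos hw, one_pos⟩ (min δ₅ δ) (lt_min d5 q0)
  obtain ⟨h, ⟨h0, h1, h2, h3, h4, h5, h6, h7, h8, h9, h10⟩, hG⟩ :=
    ((eventually_mem_nhdsWithin.and ((ev_small 1 (lt_min he one_pos)).and ((ev_small Λ
      (lt_min one_pos (pow_pos r0 2))).and ((ev_small (Λ * (K / r ^ 2)) one_pos).and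
      ((ev_small (Λ * K₂) one_pos).and ((ev_small (4 * K₁) one_pos).and ((ev_small Λ one_pos).and
      ((ev_small C₁ one_pos).and ((ev_small K₀ one_pos).and ((ev_small (2 * K₁) one_pos).and
      (ev_small 1 one_pos))))))))))).and (hG (2 * Cc * K₂ + K / r ^ 2 + 1) (by positivity))).exists
  replace h0 : 0 < h := h0
  simp only [le_min_iff, one_mul] at h1 h2
  have hh : ∀ {a : ℝ} (n : ℕ), a * h ≤ 1 → a ≤ 3 * Cc * (h ^ (n + 1))⁻¹ := fun {a} n k => by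
    have b1 : h ^ (n + 1) ≤ h := pow_le_of_le_one h0.le h1.2 n.succ_ne_zero
    have b2 : h⁻¹ ≤ (h ^ (n + 1))⁻¹ := inv_anti₀ (by positivity) b1
    have b3 : a ≤ h⁻¹ := by rw [← one_div, le_div_iff₀ h0]; exact k
    nlinarith [inv_pos.2 h0]
  have hsq : ∀ {a e : ℝ}, 0 ≤ a → a * h ≤ e → a * h ^ 2 ≤ e := fun {a e} k k' => by
    nlinarith [mul_nonneg k h0.le]
  have eΘ : h ^ 2 * (3 * Cc * (h ^ 5)⁻¹) = 3 * Cc * (h ^ 3)⁻¹ := by field_simp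
  suffices hst : STEP C (Surg ε (2 * Cc * K₂ + K / r ^ 2 + 1) (h ^ 5)⁻¹ h δ) g₀ U₀
      (3 * Cc * (h ^ 5)⁻¹) T by
    obtain ⟨M, _, _, _, _, _, g, b, d, H, hb⟩ := exists_sg' hs hI (hok _ _ _ h δ _ q1
      (eΘ ▸ hh 2 h7)) hst (by positivity) (by positivity) hT hU hg
      (let ⟨x, hx, _⟩ := hth N U₀ g₀ hU hg; ⟨x, hx⟩) fun x hx => (hK₀ x hx).trans (hh 4 h8)
    exact ⟨h, h1.1, δ', p1, e, ⟨he.le, le_rfl⟩, η, hη, M, _, _, inferInstance, _, inferInstance,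
      g, b, d, hG M g b d T ε δ _ H le_rfl ε3 q3 hb⟩
  rintro M _ _ _ _ _ g b d t F ht H hb ⟨z, hz, hz'⟩ hF hd
  have G := hG M g b d t ε δ _ H ht ε3 q3 hb
  have hsl : Sl b d 0 t _ t := sl_pre ⟨H.sf.lt, le_rfl⟩
  have m := H.mem _ _ hsl
  have hm := H.sf.met hsl
  have htt : t₀ < t := lt_of_not_ge fun k => by
    have := hE N M C g₀ U₀ g b d t ε _ _ h δ H q2 (by linarith [hsq (by linarith) h5])
      (fun x hx => ⟨hτ x hx, hK₀ x hx⟩) _ t hsl k z hz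
    linarith [hh 4 h9]
  obtain ⟨x, hx, hx'⟩ := hth M _ (g t) m hm
  obtain ⟨φ, n1, y, n2, tb⟩ := find_neck (X := ⟨M⟩) G.fw G.nc
    (fun F k e => hcn ⟨M⟩ F r k (e ▸ p2) r0) (fun F γ ℓ k e => hct ⟨M⟩ F γ ℓ k (e ▸ p3)) hx hz r0
    r1 (r2.trans htt.le) (fun k => hlow M _ _ x ε w hw hm k hx') hz' C1 K0 k2 h0 l0 h6
    (hsq l0.le h2.2) (hsq (by positivity) h3) (hsq (by positivity) h4) (eΘ ▸ hh 2 h6)
  obtain ⟨U', g₁, K', φ', ψ, e, o1, o2, o3, o4, o5⟩ := hcut C hC M (g t) _ F φ h _ q4 m hm n1.neck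
    (min_le_left _ _) hF hd
  exact ⟨U', g₁, o1, o2, o3, o4, surg_of_neck H.sf n1 (min_le_right _ _) n2 tb e o4 o5⟩

end Vale.Agent.P216R
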