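import Vale.Agent.P216R.Exist
import Vale.Agent.P216S.Col
import Vale.Agent.P216LS.Tub
import Vale.Agent.P216FB.Defs

/-!
# P216R: one surgery
-/

open scoped Manifold ContDiff Topology ENNReal
open Set Filter MeasureTheory Function Metric Real

set_option maxSynthPendingDepth 3

noncomputable section

namespace Vale.Agent.P216R

open Vale.Agent.P216SG Vale.Agent.P216S
open Vale.Agent.P216LS (Tub)
open Vale.Agent.P216MP (PinchAt li_pinch)
open Vale.Agent.P216C (Mem)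

variable {M : Type} [TopologicalSpace M] [ChartedSpace E3 M]

/-- `U'` is obtained from `U` by cutting the neck `φ` and gluing the cap `ψ` to the side `K` -/
structure Cut1 (h δ : ℝ) (g : Ten E3 M) (U U' K : Set M) (φ ψ : E3 → M) : Prop where
  neck : Neck g U φ h δ
  side : Side U φ δ⁻¹ K
  cut : IsCut U φ δ⁻¹ K U' id ψ
  met : EqOn (comap ψ g) (srd 20 h (comap φ g)) (ball 0 (exp δ⁻¹))

/-- one surgery along a strong `δ`-neck of scale `h` that lies in a tube -/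
def Surg (ε lo hi h δ : ℝ) : SgT := fun _ _ _ _ g b t U U' =>
  ∃ φ ψ K, Cut1 h δ (g t) U U' K φ ψ ∧ (∃ y ∈ φ '' sphere 0 1, Tub ε lo hi (g t) U y) ∧
    ∀ x ∈ anl δ⁻¹, b (φ x) ≤ t - h ^ 2 / 2

theorem srd_congr {G G' : E3 → Bil E3} {c h L : ℝ} (e : EqOn G' G (anl L)) (hc : c + 1 ≤ L) :
    EqOn (srd c h G') (srd c h G) (ball 0 (exp L)) := fun x hx => by
  refine comap_congr_right _ ?_
  rcases le_or_gt (‖dil c x‖ ^ 2) (1 / 2) with k | k
  · rw [srg_cap k, srg_cap k]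
  · have h1 : x ∈ anl L := ⟨lt_of_mul_lt_mul_left (a := exp c) (by
      rw [← norm_dil, ← exp_add]
      refine (exp_le_exp.2 (show c + -L ≤ -1 by linarith)).trans_lt
        (lt_of_pow_lt_pow_left₀ 2 (norm_nonneg _) (lt_of_le_of_lt ?_ k))
      have := add_one_le_exp (2 : ℝ)
      rw [← exp_nat_mul, Nat.cast_ofNat, mul_neg, exp_neg, one_div, mul_one]
      exact inv_anti₀ two_pos (by linarith)) (exp_pos c).le, mem_ball_zero_iff.1 hx⟩
    have e2 : G' (dil (-c) (dil c x)) = G (dil (-c) (dil c x)) := by rw [dil_dil]; exact e h1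
    rw [srg, srg, dev_congr (comap_congr_right _ e2)]

theorem vol_cyl : ∃ c > 0, ∀ n : ℕ, ENNReal.ofReal (c * n) ≤ vol cyl (lan (-n) 0) := by
  obtain ⟨x, hx⟩ := exists_nrm (exp_pos (-1 / 2)).le
  have hx' : x ∈ lan (-1) 0 := sphere_sub_lan (by norm_num) (by norm_num)
    (mem_sphere_zero_iff_norm.2 hx)
  obtain ⟨c, c0, h1, h2⟩ := ENNReal.lt_iff_exists_real_btwn.1
    (vol_pos met_cyl (lan_sub hx') (isOpen_lan.mem_nhds hx'))
  have c1 := ENNReal.ofReal_pos.1 h1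
  refine ⟨c, c1, fun n => ?_⟩
  induction n with
  | zero => simp
  | succ n ih =>
    have e : dil (-n) '' lan (-1) 0 ⊆ lan (-n + -1) (-n + 0) :=
      image_subset_iff.2 fun _ => dil_mem_lan
    have n0 : (0 : ℝ) ≤ n := n.cast_nonneg
    calc _ = ENNReal.ofReal c + ENNReal.ofReal (c * n) := by
          rw [← ENNReal.ofReal_add c0 (by positivity)]; push_cast; ring_nf
      _ ≤ vol cyl (dil (-n) '' lan (-1) 0) + vol cyl (lan (-n) 0) := by
          rw [vol_dil _ _ isOpen_lan.measurableSet, comap_dil_cyl]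
          exact add_le_add h2.le ih
      _ = _ := (measure_union (disjoint_left.2 fun y a b => by
          linarith [(mem_lan.1 (e a)).2.2, (mem_lan.1 b).2.1]) isOpen_lan.measurableSet).symm
      _ ≤ _ := measure_mono (union_subset (e.trans (lan_mono (by push_cast; linarith)
          (by linarith))) (lan_mono (by push_cast; linarith) le_rfl))

variable {h δ ε lo hi a τ : ℝ} {g g' : Ten E3 M} {U U' K F : Set M} {φ ψ : E3 → M} {x : E3}

namespace Cut1

theorem isOpen (H : Cut1 h δ g U U' K φ ψ) : IsOpen U := H.cut.ld.isOpen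

theorem cover (H : Cut1 h δ g U U' K φ ψ) : U' = K ∪ ψ '' closedBall 0 1 := by
  simpa using H.cut.cover

theorem new (H : Cut1 h δ g U U' K φ ψ) (hx : x ∈ closedBall (0 : E3) 1) : ψ x ∉ U := by
  simpa using H.cut.new x hx

theorem inter (H : Cut1 h δ g U U' K φ ψ) : U ∩ U' = K :=
  Set.ext fun _ => ⟨fun k => (H.cut.mem_iff H.side.sub k.1).1 k.2,
    fun k => ⟨H.side.sub k, H.cut.mem k⟩⟩

theorem diff (H : Cut1 h δ g U U' K φ ψ) : U' \ U = ψ '' closedBall 0 1 := by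
  refine Subset.antisymm (fun p hp => (H.cover.subset hp.1).resolve_left fun k =>
    hp.2 (H.side.sub k)) ?_
  rintro _ ⟨x, hx, rfl⟩
  exact ⟨H.cover.superset (Or.inr ⟨x, hx, rfl⟩), H.new hx⟩

theorem sub_ball (H : Cut1 h δ g U U' K φ ψ) : closedBall (0 : E3) 1 ⊆ ball 0 (exp δ⁻¹) :=
  closedBall_subset_ball (one_lt_exp_iff.2 H.neck.inv_pos)

theorem congr (H : Cut1 h δ g U U' K φ ψ) (hδ : δ ≤ 1 / 21) (e : EqOn g' g (U ∪ U')) :
    Cut1 h δ g' U U' K φ ψ :=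
  ⟨H.neck.congr fun _ hx => e (Or.inl (H.neck.emb.mem hx)), H.side, H.cut, fun x hx => by
    rw [comap_congr_right ψ (e (Or.inr (H.cut.cap.mem hx))), H.met hx]
    refine (srd_congr (fun y hy => comap_congr_right φ (e (Or.inl (H.neck.emb.mem hy)))) ?_
      hx).symm
    rw [le_inv_comm₀ (by norm_num) H.neck.dpos]; linarith⟩

theorem li (H : Cut1 h δ g U U' K φ ψ) (hg : Met g U') (hx : x ∈ ball (0 : E3) (exp δ⁻¹)) :
    LI (srd 20 h (comap φ g)) g ψ x :=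
  ⟨⟨U', hg, H.cut.cap.mem hx⟩, ⟨_, H.cut.cap.ld, hx⟩,
    H.met.symm.eventuallyEq_of_mem (isOpen_ball.mem_nhds hx)⟩

/-- a connected set that is cut meets the central sphere -/
theorem meet (H : Cut1 h δ g U U' K φ ψ) {V : Set M} (hV : IsPreconnected V) (hU : V ⊆ U)
    (h1 : (V ∩ U').Nonempty) (h2 : ¬V ⊆ U') : ∃ u ∈ sphere (0 : E3) 1, φ u ∈ V := by
  by_contra! k
  rcases H.side.subset_or hV hU (disjoint_right.2 fun _ ⟨u, hu, e⟩ => e ▸ k u hu) with a | a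
  · exact h2 fun p hp => H.cut.mem (a hp)
  · obtain ⟨p, h3, h4⟩ := h1
    exact disjoint_left.1 a h3 (H.inter.subset ⟨hU h3, h4⟩)

variable [IsManifold 𝓘(ℝ, E3) ∞ M] {C : ℝ}

theorem pinch (H : Cut1 h δ g U U' K φ ψ)
    (O : Out C 20 h δ (comap φ g) (srd 20 h (comap φ g))) (hg : Met g U) (hg' : Met g U')
    (hτ : 0 < τ) (h0 : ∀ p ∈ U, PinchAt g p τ) : ∀ p ∈ U', PinchAt g p τ := fun p hp => by
  rcases H.cover.subset hp with k | ⟨x, hx, rfl⟩
  · exact h0 p (H.side.sub k)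
  · have hx := H.sub_ball hx
    exact (li_pinch (H.li hg' hx)).1 ((O.imp x hx).pinch (met_model.2 (nk_of_neck hg H.neck).met)
      O.met hx hτ fun k => (li_pinch (neck_li hg H.neck k)).2 (h0 _ (H.neck.emb.mem k)))

theorem sc_new (H : Cut1 h δ g U U' K φ ψ)
    (O : Out C 20 h δ (comap φ g) (srd 20 h (comap φ g))) (hg' : Met g U')
    (hx : x ∈ closedBall (0 : E3) 1) : 1 / 2 ≤ h ^ 2 * Sc g (ψ x) ∧ h ^ 2 * Sc g (ψ x) ≤ C := by
  have := H.neck.dpos
  rw [← (H.li hg' (H.sub_ball hx)).Sc]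
  exact O.sc x (closedBall_subset_ball (one_lt_exp_iff.2 (by positivity)) hx)

omit [IsManifold 𝓘(ℝ, E3) ∞ M] in
theorem caps (H : Cut1 h δ g U U' K φ ψ) (hδ : δ ≤ 1 / 21) : P216FB.Caps g U U' := by
  have h0 := H.neck.hpos
  have h1 : 21 ≤ δ⁻¹ := by rw [le_inv_comm₀ (by norm_num) H.neck.dpos]; linarith
  have h2 : 2 ≤ exp δ⁻¹ := by linarith [add_one_le_exp δ⁻¹]
  have h3 : P216FB.col ⊆ anl δ⁻¹ := ann_mono (exp_le_exp.2 (by linarith)) h2
  have T := H.neck.tb' (lo := 1) (hi := 3 / 2) one_pos (by norm_num) (by linarith) (by linarith)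
  refine ⟨{(φ, ψ, h)}, ?_, pairwise_singleton _ _, fun p h4 h5 => ⟨_, rfl, H.diff.subset ⟨h4, h5⟩⟩⟩
  rintro _ rfl
  exact ⟨h0, H.neck.emb.mono isOpen_ann h3, H.cut.cap.mono isOpen_ball (ball_subset_ball h2),
    fun x hx => H.cut.eq x (ann_mono le_rfl h2 hx), fun x => H.new,
    fun x hx => (H.met (ann_sub_ball (h3 hx))).trans (srd_out h0.ne' hx.1.le),
    fun x hx v => by simpa using T.low x (h3 hx) v,
    fun x hx v => (T.up x (h3 hx) v).trans (by gcongr; nlinarith)⟩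

end Cut1

variable [IsManifold 𝓘(ℝ, E3) ∞ M]

/-- the cut: given a neck and fresh caps, one side can be capped -/
theorem exists_cut1 (hδ : 0 < δ) : ∃ δ₀ > 0, ∀ (C : Cls), CutClosed C → ∀ (M : Type)
    [TopologicalSpace M] [ChartedSpace E3 M] [IsManifold 𝓘(ℝ, E3) ∞ M] (g : Ten E3 M)
    (U F : Set M) (φ : E3 → M) (h δ₁ : ℝ), δ ≤ 1 / 40 → Mem C U → Met g U → Neck g U φ h δ₁ →
    δ₁ ≤ δ₀ → Caps E3 U F → Disjoint F U → ∃ U' g₁ K φ' ψ, (φ' = φ ∨ φ' = φ ∘ inv) ∧ Mem C U' ∧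
      Met g₁ U' ∧ U' ⊆ U ∪ F ∧ EqOn g₁ g U ∧ Cut1 h δ g₁ U U' K φ' ψ := by
  obtain ⟨δ₀, h0, hf⟩ := exists_flip hδ
  refine ⟨min δ₀ δ, lt_min h0 hδ, fun C hC M _ _ _ g U F φ h δ₁ h1 hU hg H h2 hF hd => ?_⟩
  have hL := inv_pos.2 hδ
  have h3 : 40 ≤ δ⁻¹ := by rw [le_inv_comm₀ (by norm_num) hδ]; linarith
  have N := H.mono (h2.trans (min_le_right _ _))
  obtain ⟨φ', e, K, hK, hK'⟩ := hC M U φ δ⁻¹ hU.cls hU.isOpen hU.cpt hU.hs hU.conn hL N.emb
  have N' : Neck g U φ' h δ := by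
    rcases e with rfl | rfl
    exacts [N, hf M g U φ h δ₁ hg H (h2.trans (min_le_left _ _))]
  have E := N'.emb.mono isOpen_ann (ann_out hL.le)
  obtain ⟨ψ, p1, p2, p3, p4⟩ := hF φ' _ (ball 0 (exp δ⁻¹)) E.ld E.inj E.mem isOpen_ball ann_sub_ball
  have p5 : ∀ x ∈ closedBall (0 : E3) 1, ψ x ∈ F := fun x hx => p4 ⟨closedBall_subset_ball
    (one_lt_exp_iff.2 hL) hx, fun k => not_le.2 k.1 (mem_closedBall_zero_iff.1 hx)⟩
  have I : IsCut U φ' δ⁻¹ K (K ∪ ψ '' closedBall 0 1) id ψ :=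
    ⟨ld_id hU.isOpen, injOn_id _, ⟨p1, p2, fun x hx => by
      rcases le_or_gt ‖x‖ 1 with k | k
      · exact Or.inr ⟨x, mem_closedBall_zero_iff.2 k, rfl⟩
      · have : x ∈ ann 1 (exp δ⁻¹) := ⟨k, mem_ball_zero_iff.1 hx⟩
        exact Or.inl (p3 this ▸ hK.out hL.le this)⟩, p3,
      fun x hx => by simpa using disjoint_left.1 hd (p5 x hx), by simp⟩
  obtain ⟨g₁, q1, q2⟩ := I.exists_ten N'.emb hL g (G := srd 20 h (comap φ' g)) fun x hx => by
    rw [comap_id]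
    exact srd_out H.hpos.ne' ((exp_le_one_iff.2 (by norm_num)).trans hx.1.le)
  have q3 : EqOn g₁ g U := fun p hp => q1 p fun ⟨x, hx, k⟩ => disjoint_left.1 hd (k ▸ p5 x hx) hp
  have q4 := (nk_of_neck hg N').met_srd (c := 20) (by norm_num) (by linarith [inv_half δ])
    (by linarith)
  refine ⟨_, g₁, K, φ', ψ, e, ⟨hK' M _ id ψ I, I.isOpen hK hL, I.isCompact hK N'.emb hL hU.cpt,
    I.hs hK N'.emb hL hU.hs, I.preconn hK N'.emb hL hU.conn⟩, I.met hL hK.sub ?_ (q4.congr q2),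
    union_subset_union hK.sub (image_subset_iff.2 p5), q3,
    N'.congr fun x hx => q3 (N'.emb.mem hx), hK, I, fun x hx => (q2 hx).trans
      (srd_congr (fun y hy => comap_congr_right φ' (q3 (N'.emb.mem hy))) (by linarith) hx).symm⟩
  rw [comap_id]
  exact (hg.mono hK.isOpen hK.sub).congr (q3.mono hK.sub)

/-- the volume of the new points is small and the volume drops -/
theorem cut1_vol : ∃ C > 0, ∀ A : ℝ, ∃ δ₀ > 0, ∀ (M : Type) [TopologicalSpace M]
    [ChartedSpace E3 M] [IsManifold 𝓘(ℝ, E3) ∞ M] [MeasurableSpace M] [BorelSpace M]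
    (g : Ten E3 M) (U U' K : Set M) (φ ψ : E3 → M) (h δ : ℝ), Met g U →
    Cut1 h δ g U U' K φ ψ → δ ≤ δ₀ → vol g (U' \ U) ≤ ENNReal.ofReal (C * h ^ 3) ∧
      vol g U' + ENNReal.ofReal (A * h ^ 3) ≤ vol g U := by
  obtain ⟨C, δ₀, h0, hO⟩ := exists_out
  obtain ⟨c, c0, hc⟩ := vol_cyl
  refine ⟨21 * (|C| + 1), by positivity, fun A => ?_⟩
  obtain ⟨n, hn⟩ := exists_nat_ge (8 * (21 * (|C| + 1) + |A|) / c)
  refine ⟨min δ₀ (1 / (n + 41)), by positivity, fun M _ _ _ _ _ g U U' K φ ψ h δ hg H hδ => ?_⟩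
  have h1 := H.neck.hpos
  have n0 : (0 : ℝ) ≤ n := n.cast_nonneg
  have h2 : n + 41 ≤ δ⁻¹ := by
    rw [le_inv_comm₀ (by positivity) H.neck.dpos, ← one_div]; exact hδ.trans (min_le_right _ _)
  have h3 : δ ≤ 1 / 25 := (hδ.trans (min_le_right _ _)).trans (by gcongr; linarith)
  have O := hO _ 20 h δ (nk_of_neck hg H.neck) (hδ.trans (min_le_left _ _)) (by norm_num)
    (by linarith [inv_half δ])
  have k1 : vol g (U' \ U) ≤ ENNReal.ofReal (21 * (|C| + 1) * h ^ 3) := by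
    have m := isClosed_closedBall (x := (0 : E3)) (ε := 1) |>.measurableSet
    have := O.vol 0 le_rfl (by linarith [inv_half δ])
    rw [exp_zero] at this
    rw [H.diff, vol_image g H.cut.cap.ld H.cut.cap.inj (isCompact_closedBall 0 1).isLindelof
      H.sub_ball m Subset.rfl, vol_congr isLindelof_univ m (subset_univ _) (H.met.mono H.sub_ball)]
    refine this.trans (ENNReal.ofReal_le_ofReal ?_)
    nlinarith [le_abs_self C, pow_pos h1 3]
  have hs : lan (-n) 0 ⊆ anl δ⁻¹ := lan_mono (by linarith) H.neck.inv_pos.le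
  have k2 : ENNReal.ofReal (c * n) ≤ ENNReal.ofReal ((2 / h) ^ 3) * vol g (φ '' lan (-n) 0) := by
    rw [vol_image g H.neck.emb.ld H.neck.emb.inj (HereditarilyLindelofSpace.isLindelof _) hs
      isOpen_lan.measurableSet Subset.rfl]
    refine (hc n).trans ((vol_le_mul isLindelof_univ isOpen_lan.measurableSet (subset_univ _)
      (c := 2 / h) (by positivity) (fun y hy => met_cyl.pd (lan_sub hy))
      (fun y hy => (met_model.2 (nk_of_neck hg H.neck).met).pd (hs hy)) fun y hy v => ?_).trans_eq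
      (by rw [fr3]))
    have p1 := (H.neck.tb h3).low y (hs hy) v
    have p2 := pow_pos (lan_pos hy) 2
    rw [cyl, smul_apply, smul_apply, P216S.euc_apply, real_inner_self_eq_norm_sq, smul_eq_mul,
      div_mul_eq_mul_div, div_le_iff₀ p2, div_pow, mul_assoc, div_mul_eq_mul_div,
      le_div_iff₀ (by positivity)]
    nlinarith [mul_nonneg (sq_nonneg h) (sq_nonneg ‖v‖)]
  have k3 : ENNReal.ofReal (21 * (|C| + 1) * h ^ 3) + ENNReal.ofReal (A * h ^ 3) ≤
      vol g (φ '' lan (-n) 0) := by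
    refine le_trans (add_le_add_right (ENNReal.ofReal_le_ofReal
      (show A * h ^ 3 ≤ |A| * h ^ 3 by gcongr; exact le_abs_self A)) _) ?_
    rw [← ENNReal.ofReal_add (by positivity) (by positivity),
      ← ENNReal.mul_le_mul_iff_right (a := ENNReal.ofReal ((2 / h) ^ 3)) (by simp; positivity)
        ENNReal.ofReal_ne_top, ← ENNReal.ofReal_mul (by positivity)]
    refine le_trans (ENNReal.ofReal_le_ofReal ?_) k2
    rw [div_le_iff₀ c0] at hn
    refine le_trans (le_of_eq ?_) (hn.trans_eq (mul_comm _ _))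
    field_simp; ring
  refine ⟨k1, ?_⟩
  calc vol g U' + _ ≤ vol g K + vol g (U' \ U) + _ := by
        gcongr
        exact (measure_mono (H.diff ▸ H.cover.subset)).trans (measure_union_le _ _)
    _ ≤ vol g (φ '' lan (-n) 0) + vol g K := by
        rw [add_assoc, add_comm]; gcongr; exact le_trans (by gcongr) k3
    _ = _ := (measure_union (disjoint_left.2 (by
        rintro _ ⟨y, hy, rfl⟩ k
        have := hy.2
        rw [exp_zero] at this
        exact this.not_gt ((H.side.mem y (hs hy)).1 k))) H.side.isOpen.measurableSet).symm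
    _ ≤ _ := measure_mono (union_subset (H.neck.emb.image_sub hs) H.side.sub)

/-- the surgeries have the properties used in the existence theorem -/
theorem exists_sgOK : ∃ C, ∃ δ₀ > 0, ∀ ε lo hi h δ Θ : ℝ, δ ≤ δ₀ → C ≤ h ^ 2 * Θ →
    SgOK (Surg ε lo hi h δ) Θ (h ^ 3) := by
  obtain ⟨C, δ₀, h0, hO⟩ := exists_out
  obtain ⟨_, -, hV⟩ := cut1_vol
  obtain ⟨δ₁, h1, hV⟩ := hV 1
  refine ⟨C, min (min δ₀ δ₁) (1 / 40), by positivity, fun ε lo hi h δ Θ hδ hΘ => ?_⟩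
  simp only [le_min_iff] at hδ
  rintro M _ _ _ _ _ g b t U U' ⟨φ, ψ, K, H, ⟨y, hy, hT⟩, hb⟩
  refine ⟨fun g' b' _ e1 e2 => ⟨φ, ψ, K, H.congr (by linarith) e1,
    ⟨y, hy, hT.congr H.isOpen (e1.mono subset_union_left)⟩,
    fun x hx => e2 (H.neck.emb.mem hx) ▸ hb x hx⟩, fun hg hg' _ _ _ _ => ?_⟩
  have h3 : 40 ≤ δ⁻¹ := by rw [le_inv_comm₀ (by norm_num) H.neck.dpos]; linarith
  have O := hO _ 20 h δ (nk_of_neck hg H.neck) hδ.1.1 (by norm_num) (by linarith [inv_half δ])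
  have h4 := pow_pos H.neck.hpos 2
  refine ⟨by simpa using (hV M _ U U' K φ ψ h δ hg H hδ.1.2).2, fun a ha k p hp => ?_,
    fun a ha k p hp => ?_⟩ <;> rcases H.cover.subset hp with q | ⟨x, hx, rfl⟩
  · exact k p (H.side.sub q)
  · nlinarith [(H.sc_new O hg' hx).1]
  · exact k p (H.side.sub q)
  · nlinarith [(H.sc_new O hg' hx).2]

/-- collars and the volume inequality -/
theorem exists_col (hε : 0 < ε) : ∃ δ₀ > 0, ∀ (M : Type) [TopologicalSpace M]
    [ChartedSpace E3 M] [IsManifold 𝓘(ℝ, E3) ∞ M] [MeasurableSpace M] [BorelSpace M]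
    (g : Ten E3 M) (U U' K : Set M) (φ ψ : E3 → M) (h δ : ℝ), Met g U →
    Cut1 h δ g U U' K φ ψ → δ ≤ δ₀ → P216FB.Col g U U' ε := by
  obtain ⟨C, C0, hV⟩ := cut1_vol
  obtain ⟨δ₁, h1, hV⟩ := hV (C / ε)
  refine ⟨min δ₁ (1 / 21), by positivity, fun M _ _ _ _ _ g U U' K φ ψ h δ hg H hδ => ?_⟩
  obtain ⟨k1, k2⟩ := hV M g U U' K φ ψ h δ hg H (hδ.trans (min_le_left _ _))
  refine ⟨H.caps (hδ.trans (min_le_right _ _)), le_trans ?_ (mul_le_mul_right k2 _)⟩
  rw [mul_add, add_comm, ← ENNReal.ofReal_mul hε.le, ← mul_assoc, mul_div_cancel₀ _ hε.ne']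
  gcongr

/-- pinching is preserved by a surgery -/
theorem exists_cut_pinch : ∃ δ₀ > 0, ∀ (M : Type) [TopologicalSpace M]
    [ChartedSpace E3 M] [IsManifold 𝓘(ℝ, E3) ∞ M] (g : Ten E3 M) (U U' K : Set M)
    (φ ψ : E3 → M) (h δ τ : ℝ), Met g U → Met g U' → Cut1 h δ g U U' K φ ψ → δ ≤ δ₀ → 0 < τ →
    (∀ p ∈ U, PinchAt g p τ) → ∀ p ∈ U', PinchAt g p τ := by
  obtain ⟨C, δ₀, h0, hO⟩ := exists_out
  refine ⟨min δ₀ (1 / 40), by positivity, fun M _ _ _ g U U' K φ ψ h δ τ hg hg' H hδ => ?_⟩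
  have h3 : 40 ≤ δ⁻¹ := by
    rw [le_inv_comm₀ (by norm_num) H.neck.dpos]; linarith [hδ.trans (min_le_right _ _)]
  exact H.pinch (hO _ 20 h δ (nk_of_neck hg H.neck) (hδ.trans (min_le_left _ _)) (by norm_num)
    (by linarith [inv_half δ])) hg hg'

end Vale.Agent.P216R
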