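import Vale.Agent.P216R.Max
import Vale.Agent.P216J.Close
import Vale.Agent.P216DC.LimS
import Vale.Agent.P216B.Top

/-!
# P216R: the continuation criterion from the local derivative estimates
-/

open scoped Manifold ContDiff Topology
open Set Filter

set_option maxSynthPendingDepth 3

noncomputable section

namespace Vale.Agent.P216R

open Vale.Agent.P216DC (SHI)

theorem close_of_shi (hS : SHI) : CLOSE E3 := by
  intro M _ _ _ U g a b C hc hH hab H hC
  set m := (a + b) / 2 with hm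
  have h1 : a < m := by linarith
  have h2 : m < b := by linarith
  have H2 : RF g (Ico m b) U := SF.rf_sub H (Ico_subset_Ico_left h1.le) H.isOpen Subset.rfl
  obtain ⟨h, k1, k2⟩ := P216J.exists_close_Ico h2 H2 fun y hy => ⟨U, H.isOpen.mem_nhds hy, fun k => by
    obtain ⟨D, hD⟩ := hS k C 1 (m - a) (m - a) one_pos (by linarith)
    refine ⟨D, fun t ht z hz => ?_⟩
    have hI : Icc (t - (m - a)) t ⊆ Ico a b := fun s hs => ⟨by linarith [hs.1, ht.1], hs.2.trans_lt ht.2⟩
    have hg := H.toFam.met (hI ⟨by linarith, le_rfl⟩)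
    exact hD M g U z t hg hH ((hg.cpl hc).cpt hz 1)
      ⟨SF.rf_sub H hI (hg.isOpen_bl _ _) bl_subset, fun s hs y hy => hC s (hI hs) y (bl_subset hy)⟩
      t ⟨by linarith, le_rfl⟩ z (mem_bl_self hz (by norm_num))⟩
  refine ⟨cat g h m, RF.cat (SF.rf_sub H (fun t ht => ⟨ht.1, ht.2.trans_lt h2⟩) H.isOpen Subset.rfl)
    k1 h1.le h2.le (by rw [k2 m ⟨le_rfl, h2⟩]; exact fun _ _ => rfl), fun t ht => ?_⟩
  rcases le_or_gt t m with k | k
  · rw [cat_of_le k]; exact fun _ _ => rfl
  · rw [cat_of_lt k, k2 t ⟨k.le, ht.2⟩]; exact fun _ _ => rfl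

end Vale.Agent.P216R
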