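import Vale.Agent.P216R.Fin
import Vale.Agent.P216E.NC
import Vale.Agent.P216SO.Sout
import Vale.Agent.P216T.Asm

/-!
# P216R: the goal from the cutoff lemma
-/

noncomputable section

namespace Vale.Agent.P216R

theorem cnloc_all : P216FA.CNLOC := cnloc_of P216SO.sout'

theorem gf2_cutl (h : P216FA.CUTL) : P216C.GF2 := gf2_of P216SO.sout' h P216E.nc_main

theorem goal_cutl (old : P216TK.OldGoal) (h : P216FA.CUTL) : P216C.GOAL :=
  P216T.goal_mod old (gf2_cutl h)

end Vale.Agent.P216R
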