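import Vale.Agent.P216R.Exist
import Vale.Agent.P216R.Close
import Vale.Agent.P216MP.VsF
import Vale.Agent.P216D.ShiL
import Vale.Agent.P216BF.VD

/-!
# P216R: the analytic inputs of the existence theorem
-/

open scoped Manifold ContDiff Topology ENNReal
open Set Filter MeasureTheory Function

set_option maxSynthPendingDepth 3

noncomputable section

namespace Vale.Agent.P216R

open Vale.Agent.P216MP Vale.Agent.P216BF

theorem scb : SCB E3 := by
  intro M _ _ _ U g a b Θ hc hH hab H hΘ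
  have ha : a ∈ Ico a b := ⟨le_rfl, hab⟩
  obtain ⟨K, hK⟩ := hc.bddBelow_image ((continuousOn_nu H.toFam).comp (f := fun z => (a, z))
    (by fun_prop) fun z hz => ⟨ha, hz⟩)
  have h1 : 0 < (2 * |K| + 1)⁻¹ := by positivity
  have h0 : ∀ x ∈ U, PinchAt (g a) x (2 * |K| + 1)⁻¹ := fun x hx =>
    pinchAt_of_secGe (κ := |K|) (H.met ha) hx h1 ((secGe_iff (H.met ha) hx).2
      ((neg_abs_le K).trans (hK (mem_image_of_mem _ hx))))
      (by rw [← div_eq_mul_inv, div_le_one (by positivity)]; linarith)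
  refine ⟨|Θ| + 3 * (max |Θ| (Real.exp 4 / (2 * |K| + 1)⁻¹) / 2), fun t ht x hx => ?_⟩
  have h2 := (rf_pinch (H.mono_time (Icc_subset_Ico_right ht.2)) hc h1 h0 t ⟨ht.1, le_rfl⟩ x
    hx).secGe (H.met ht) hx (by linarith [ht.1]) one_pos
  have h3 := (hΘ t ht x hx).trans (le_abs_self Θ)
  refine rmB3 (by simp) (H.met ht) hx (by positivity) (abs_nonneg _)
    (secGe_mono (H.met ht) hx h2 (neg_le_neg ?_)) h3
  gcongr
  · linarith
  · norm_num
  · linarith [ht.1]

theorem rmin : P216C.RMIN := by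
  intro M _ _ _ g U s t c hst hc H hU _ h0 x hx
  have := rf_sc_inv H hU (c := 2 * (s + c)) (fun u hu => ne_of_gt (by linarith [hu.1]))
    (fun y hy => by simpa only [neg_div] using h0 y hy) t ⟨hst, le_rfl⟩ x hx
  rwa [show 2 * (s + c) + 2 * (t - s) = 2 * (t + c) by ring, neg_div] at this

theorem close : CLOSE E3 := close_of_shi P216D.shi

/-- existence of the flow with surgery from short time existence and the surgery step -/
theorem exists_sg' {N : Type} [TopologicalSpace N] [ChartedSpace E3 N] [IsManifold 𝓘(ℝ, E3) ∞ N]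
    {C : P216SG.Cls} {Sg : SgT} {g₀ : Ten E3 N} {U₀ : Set N} {Θ v T : ℝ} (hs : P216ST.STE E3)
    (hC : ImgClosed C) (hok : SgOK Sg Θ v) (hst : STEP C Sg g₀ U₀ Θ T) (hΘ : 0 < Θ) (hv : 0 < v)
    (hT : 0 < T) (hU : P216C.Mem C U₀) (hg : Met g₀ U₀) (hne : U₀.Nonempty)
    (h0 : ∀ x ∈ U₀, Sc g₀ x ≤ Θ) :
    ∃ (M : Type) (_ : TopologicalSpace M) (_ : ChartedSpace E3 M) (_ : IsManifold 𝓘(ℝ, E3) ∞ M)
      (_ : MeasurableSpace M) (_ : BorelSpace M) (g : ℝ → Ten E3 M) (b d : M → ℝ),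
      SG C Sg g₀ U₀ g b d T ∧ ∀ U t, Sl b d 0 T U t → ∀ x ∈ U, Sc (g t) x ≤ 2 * Θ := by
  borelize N
  exact exists_sg hs close scb rmin vd hC hok hst hΘ hv hT hU hg hne h0

end Vale.Agent.P216R
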