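import Vale.Agent.P216R.Surg
import Vale.Agent.P216R.Scb
import Vale.Agent.P216S.Tip
import Vale.Agent.P216SG.Col
import Vale.Agent.P216FB.Plan

/-!
# P216R: properties of the flows with surgery
-/

open scoped Manifold ContDiff Topology ENNReal
open Set Filter MeasureTheory Function Metric Real

set_option maxSynthPendingDepth 3

noncomputable section

namespace Vale.Agent.P216R

open Vale.Agent.P216SG Vale.Agent.P216S Vale.Agent.P216MP Vale.Agent.P216FA Vale.Agent.P216BF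
open Vale.Agent.P216C (Mem)

variable {N : Type} [TopologicalSpace N] [ChartedSpace E3 N] [IsManifold 𝓘(ℝ, E3) ∞ N]
  {M : Type} [TopologicalSpace M] [ChartedSpace E3 M] [IsManifold 𝓘(ℝ, E3) ∞ M]
  {C : Cls} {Sg : SgT} {g₀ : Ten E3 N} {U₀ : Set N} {g : ℝ → Ten E3 M} {b d : M → ℝ}
  {U W : Set M} {Θ v T s t a τ ε lo hi h δ : ℝ}

omit [IsManifold 𝓘(ℝ, E3) ∞ M] in
/-- induction for pointwise properties of the slices -/
theorem SF.ind_pt (H : SF g b d 0 T) {P : ℝ → M → Prop} (h0 : ∀ x ∈ postS b d 0, P 0 x)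
    (hflow : ∀ s t U, 0 ≤ s → s < t → RF g (Icc s t) U → IsCompact U →
      (∀ u ∈ Icc s t, Sl b d 0 T U u) → (∀ x ∈ U, P s x) → ∀ x ∈ U, P t x)
    (hsurg : ∀ t ∈ Ioo 0 T, (∀ x ∈ preS b d t, P t x) → ∀ x ∈ postS b d t, P t x) :
    ∀ W s, Sl b d 0 T W s → ∀ x ∈ W, P s x := by
  obtain ⟨k1, k2⟩ := H.ind (P := fun t => ∀ x ∈ preS b d t, P t x)
    (Q := fun t => ∀ x ∈ postS b d t, P t x) h0 (fun s t h1 h2 h3 hg k => by
      rw [hg.preS_eq ⟨h2, le_rfl⟩]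
      rw [hg.postS_eq ⟨le_rfl, h2⟩] at k
      refine hflow s t _ h1 h2 (H.rf s t h2 h3) (H.isCompact_liv h2 h3 hg) (fun u hu => ?_) k
      rcases hu.2.eq_or_lt with rfl | q
      · exact hg.preS_eq ⟨h2, le_rfl⟩ ▸ sl_pre ⟨h1.trans_lt h2, h3⟩
      · exact hg.postS_eq ⟨hu.1, q⟩ ▸ sl_post ⟨h1.trans hu.1, q.trans_le h3⟩) hsurg
  rintro W s (⟨hs, rfl⟩ | ⟨hs, rfl⟩)
  exacts [k1 s hs, k2 s hs]

/-- an upper bound for the scalar curvature of a pinched flow -/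
theorem rf_sc_le (H : RF g (Icc s t) U) (hU : IsCompact U) (hτ : 0 < τ)
    (hp : ∀ u ∈ Icc s t, ∀ x ∈ U, PinchAt (g u) x τ) {φ φ' : ℝ → ℝ}
    (hφ : ∀ u ∈ Icc s t, HasDerivAt φ (φ' u) u) (h1 : ∀ u ∈ Icc s t, 6 * φ u ^ 2 ≤ φ' u)
    (h2 : ∀ u ∈ Icc s t, exp 4 / τ ≤ φ u) (h0 : ∀ x ∈ U, Sc (g s) x ≤ φ s) :
    ∀ u ∈ Icc s t, ∀ x ∈ U, Sc (g u) x ≤ φ u := by
  have hc : ContinuousOn (fun q : ℝ × M => φ q.1) (Icc s t ×ˢ U) := fun p hp =>
    (ContinuousAt.comp (f := Prod.fst) (hφ _ hp.1).continuousAt continuousAt_fst).continuousWithinAt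
  obtain ⟨K, hK⟩ := (isCompact_Icc.prod hU).bddAbove_image (H.toFam.continuousOn_Sc.add hc)
  have key := wmp_cpt (g := g) (u := fun u x => -Sc (g u) x + φ u) (K := 6 * K) H.isOpen hU
    (H.toFam.continuousOn_Sc.neg.add hc) (fun x hx => by linarith [h0 x hx]) fun u hu x hx k => by
      have hu' := Ioc_subset_Icc_self hu
      obtain ⟨l, m, a1, a2, a3, a4⟩ := vs_cur H hu' (Icc_mem hu) hx
      have a5 := (a4 (-1) 0 le_rfl).add_up (up_time (Icc_mem hu) (hφ u hu').hasDerivWithinAt)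
      simp only [neg_mul, one_mul, zero_mul, add_zero, P216MP.lap_const, sub_zero] at a5
      refine a5.mono ?_
      have a6 := (hp u hu' x hx).bound hτ one_pos
      have a7 : Sc (g u) x + φ u ≤ K := hK ⟨(u, x), ⟨hu', hx⟩, rfl⟩
      have a8 : 0 < φ u := (div_pos (exp_pos _) hτ).trans_le (h2 u hu')
      have a9 : -2 * nu (g u) x ≤ Sc (g u) x := a6.trans (max_le (by linarith)
        (by norm_num; linarith [h2 u hu']))
      generalize Sc (g u) x = R at *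
      generalize nu (g u) x = n at *
      have b1 : (l + m) ^ 2 ≤ R ^ 2 := sq_le_sq' (by linarith) (by linarith)
      have b2 : (l + n) ^ 2 ≤ R ^ 2 := sq_le_sq' (by linarith) (by linarith)
      have b3 : (m + n) ^ 2 ≤ R ^ 2 := sq_le_sq' (by linarith) (by linarith)
      nlinarith [h1 u hu', mul_le_mul_of_nonneg_right a7 (by linarith : 0 ≤ R - φ u)]
  exact fun u hu x hx => by linarith [key u hu x hx]

theorem pin_of_pinchAt (hg : Met (g s) W) (hτ : 0 < τ) (H : ∀ x ∈ W, PinchAt (g s) x τ) :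
    Pin (g s) W τ := fun y hy η hη => secGe_mono hg hy ((H y hy).secGe hg hy hτ hη) (by
  have : 0 ≤ max (η * Sc (g s) y) (exp (3 + 1 / η) / τ) := le_max_of_le_right (by positivity)
  linarith)

/-- a closed manifold is pinched for some age -/
theorem exists_age (hg : Met g₀ U₀) (hc : IsCompact U₀) : ∃ τ > 0, ∀ x ∈ U₀, PinchAt g₀ x τ := by
  obtain ⟨K, hK⟩ := hc.bddBelow_image ((continuousOn_nu (hg.fam univ)).comp
    (f := fun z => ((0 : ℝ), z)) (by fun_prop) fun z hz => ⟨mem_univ _, hz⟩)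
  have h1 : 0 < (2 * |K| + 1)⁻¹ := by positivity
  exact ⟨_, h1, fun x hx => pinchAt_of_secGe (κ := |K|) hg hx h1 ((P216MP.secGe_iff hg hx).2
    ((neg_abs_le K).trans (hK (mem_image_of_mem _ hx))))
    (by rw [← div_eq_mul_inv, div_le_one (by positivity)]; linarith)⟩

theorem Copy.pinch {g : Ten E3 M} (h : Copy g₀ U₀ g U) (hg : Met g U)
    (H : ∀ x ∈ U₀, PinchAt g₀ x τ) : ∀ x ∈ U, PinchAt g x τ := by
  obtain ⟨j, h1, h2, rfl, h4⟩ := h
  rintro _ ⟨y, hy, rfl⟩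
  exact (li_pinch (li_comap hg h1 hy (mem_image_of_mem _ hy))).1
    ((pinchAt_congr (h4.eventuallyEq_of_mem (h1.isOpen.mem_nhds hy))).2 (H y hy))

/-- the surgery times -/
def sgT (b d : M → ℝ) (T : ℝ) : Set ℝ := {t ∈ Ioo 0 T | preS b d t ≠ postS b d t}

omit [IsManifold 𝓘(ℝ, E3) ∞ M] in
theorem SF.finite_sgT (H : SF g b d 0 T) : (sgT b d T).Finite :=
  H.fin.subset fun _ ht => by_contra fun k => ht.2 (preS_eq_postS k)

variable [MeasurableSpace M] [BorelSpace M]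

namespace SG

omit [IsManifold 𝓘(ℝ, E3) ∞ N] in
theorem ok (H : SG C Sg g₀ U₀ g b d T) (hok : SgOK Sg Θ v) (ht : t ∈ Ioo 0 T) :
    preS b d t = postS b d t ∨ vol (g t) (postS b d t) + ENNReal.ofReal v ≤ vol (g t) (preS b d t) ∧
      ∀ a ≤ 0, (∀ x ∈ preS b d t, a ≤ Sc (g t) x) → ∀ x ∈ postS b d t, a ≤ Sc (g t) x := by
  have h1 : Sl b d 0 T _ t := sl_pre ⟨ht.1, ht.2.le⟩
  have h2 : Sl b d 0 T _ t := sl_post ⟨ht.1.le, ht.2⟩
  exact (H.sg t ht).imp_right fun k => ((hok M g b t _ _ k).2 (H.sf.met h1) (H.sf.met h2)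
    (H.sf.sl_cpt h1) (H.sf.sl_cpt h2) (H.sf.sl_hs h1) (H.sf.sl_hs h2)).imp_right And.left

theorem sc_ge (H : SG C Sg g₀ U₀ g b d T) (hok : SgOK Sg Θ v) (ha : a ≤ 0)
    (h0 : ∀ x ∈ U₀, a ≤ Sc g₀ x) : ∀ W s, Sl b d 0 T W s → ∀ x ∈ W, a ≤ Sc (g s) x := by
  refine H.sf.ind_pt (fun x hx => ?_) (fun s t U _ h2 k hc _ q =>
    rf_sc_const k hc q t ⟨h2.le, le_rfl⟩) fun t ht k => ?_
  · obtain ⟨y, hy, e⟩ := H.init.sc (H.sf.met (sl_post ⟨le_rfl, H.sf.lt⟩)) hx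
    exact e ▸ h0 y hy
  · exact (H.ok hok ht).elim (fun e => e ▸ k) fun q => q.2 a ha k

variable [MeasurableSpace N] [BorelSpace N]

/-- the volume and the number of surgeries are bounded -/
theorem count (H : SG C Sg g₀ U₀ g b d T) (hok : SgOK Sg Θ v) (hv : 0 ≤ v) (ha : 0 ≤ a)
    (h0 : ∀ x ∈ U₀, -a ≤ Sc g₀ x) (hc : IsCompact U₀) {V : ℝ}
    (hV : ENNReal.ofReal (exp (a * T)) * vol g₀ U₀ ≤ ENNReal.ofReal V) (V0 : 0 ≤ V) :
    (∀ W s, Sl b d 0 T W s → vol (g s) W ≤ ENNReal.ofReal V) ∧ (sgT b d T).ncard * v ≤ V := by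
  have hs := H.sc_ge hok (neg_nonpos.2 ha) h0
  have hf := H.sf.finite_sgT
  obtain ⟨k1, k2⟩ := H.sf.ind
    (P := fun t => vol (g t) (preS b d t) + ENNReal.ofReal ((sgT b d T ∩ Iio t).ncard * v) ≤
      ENNReal.ofReal (exp (a * t)) * vol g₀ U₀)
    (Q := fun t => vol (g t) (postS b d t) + ENNReal.ofReal ((sgT b d T ∩ Iic t).ncard * v) ≤
      ENNReal.ofReal (exp (a * t)) * vol g₀ U₀) (by
      have : sgT b d T ∩ Iic 0 = ∅ := eq_empty_of_forall_notMem fun u hu => hu.1.1.1.not_ge hu.2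
      simp [this, H.init.vol_eq hc]) (fun s t h1 h2 h3 hg k => by
      have e : sgT b d T ∩ Iio t = sgT b d T ∩ Iic s := Set.ext fun u =>
        ⟨fun q => ⟨q.1, le_of_not_gt fun p => q.1.2
          ((hg.preS_eq ⟨p, le_of_lt q.2⟩).trans (hg.postS_eq ⟨p.le, q.2⟩).symm)⟩,
          fun q => ⟨q.1, lt_of_le_of_lt q.2 h2⟩⟩
      have q1 := vol_le_of_vd vd (H.sf.rf s t h2 h3) h2.le (H.sf.isCompact_liv h2 h3 hg) (a := a)
        fun u hu x hx => by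
          obtain ⟨W, k1, k2⟩ := H.sf.exists_sl h2 h3 hx hu
          exact hs W u k1 x (k2 hx)
      have q3 : 1 ≤ ENNReal.ofReal (exp (a * (t - s))) :=
        ENNReal.one_le_ofReal.2 (one_le_exp (mul_nonneg ha (by linarith)))
      rw [hg.postS_eq ⟨le_rfl, h2⟩] at k
      rw [hg.preS_eq ⟨h2, le_rfl⟩, e]
      calc _ ≤ ENNReal.ofReal (exp (a * (t - s))) * (vol (g s) (Liv b d s t) + _) := by
            rw [mul_add]; exact add_le_add q1 (le_mul_of_one_le_left' q3)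
        _ ≤ ENNReal.ofReal (exp (a * (t - s))) * (ENNReal.ofReal (exp (a * s)) * vol g₀ U₀) := by
            gcongr
        _ = _ := by
            rw [← mul_assoc, ← ENNReal.ofReal_mul (exp_pos _).le, ← exp_add]; congr 3; ring)
    (fun t ht k => by
      by_cases q : t ∈ sgT b d T
      · have e : sgT b d T ∩ Iic t = insert t (sgT b d T ∩ Iio t) := by
          rw [← Iio_insert, inter_insert_of_mem q]
        refine le_trans ?_ k
        rw [e, ncard_insert_of_notMem (fun p => lt_irrefl t (mem_Iio.1 p.2)) (hf.inter_of_left _),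
          Nat.cast_succ, add_mul, one_mul, add_comm _ v, ENNReal.ofReal_add hv (by positivity),
          ← add_assoc]
        exact add_le_add_left ((H.ok hok ht).resolve_left q.2).1 _
      · rwa [← Iio_insert, inter_insert_of_notMem q, ← not_not.1 fun p => q ⟨ht, p⟩])
  have k3 : ∀ s ≤ T, ENNReal.ofReal (exp (a * s)) * vol g₀ U₀ ≤ ENNReal.ofReal V := fun s hs =>
    le_trans (by gcongr) hV
  refine ⟨?_, ?_⟩
  · rintro W s (⟨hs, rfl⟩ | ⟨hs, rfl⟩)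
    exacts [le_self_add.trans ((k1 s hs).trans (k3 s hs.2)),
      le_self_add.trans ((k2 s hs).trans (k3 s hs.2.le))]
  · have := le_add_self.trans ((k1 T ⟨H.sf.lt, le_rfl⟩).trans hV)
    rwa [inter_eq_left.2 fun u hu => hu.1.2, ENNReal.ofReal_le_ofReal_iff V0] at this

end SG

/-- pinching along the flow with surgery -/
theorem exists_sg_pinch : ∃ δ₀ > 0, ∀ (N : Type) [TopologicalSpace N] [ChartedSpace E3 N]
    [IsManifold 𝓘(ℝ, E3) ∞ N] (M : Type) [TopologicalSpace M] [ChartedSpace E3 M]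
    [IsManifold 𝓘(ℝ, E3) ∞ M] [MeasurableSpace M] (C : Cls) (g₀ : Ten E3 N) (U₀ : Set N)
    (g : ℝ → Ten E3 M) (b d : M → ℝ) (T ε lo hi h δ τ : ℝ),
    SG C (Surg ε lo hi h δ) g₀ U₀ g b d T → δ ≤ δ₀ → 0 < τ → (∀ x ∈ U₀, PinchAt g₀ x τ) →
    ∀ W s, Sl b d 0 T W s → ∀ x ∈ W, PinchAt (g s) x (τ + s) := by
  obtain ⟨δ₀, h0, K⟩ := exists_cut_pinch
  refine ⟨δ₀, h0, fun N _ _ _ M _ _ _ _ C g₀ U₀ g b d T ε lo hi h δ τ H hδ hτ hp => ?_⟩
  refine H.sf.ind_pt (P := fun s x => PinchAt (g s) x (τ + s)) ?_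
    (fun s t U h1 h2 k hc _ q x hx => ?_) fun t ht k => ?_
  · simpa using H.init.pinch (H.sf.met (sl_post ⟨le_rfl, H.sf.lt⟩)) hp
  · have := rf_pinch k hc (by linarith) q t ⟨h2.le, le_rfl⟩ x hx
    rwa [add_add_sub_cancel] at this
  · rcases H.sg t ht with e | ⟨φ, ψ, K', q, -⟩
    · exact e ▸ k
    · exact K M _ _ _ K' φ ψ h δ _ (H.sf.met (sl_pre ⟨ht.1, ht.2.le⟩))
        (H.sf.met (sl_post ⟨ht.1.le, ht.2⟩)) q hδ (by linarith [ht.1]) k

/-- no surgery and bounded curvature for a short time -/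
theorem exists_early : ∃ δ₀ > 0, ∀ τ > 0, ∀ K₀ : ℝ, ∃ K > 0, ∃ t₀ > 0,
    ∀ (N : Type) [TopologicalSpace N] [ChartedSpace E3 N]
    [IsManifold 𝓘(ℝ, E3) ∞ N] (M : Type) [TopologicalSpace M] [ChartedSpace E3 M]
    [IsManifold 𝓘(ℝ, E3) ∞ M] [MeasurableSpace M] (C : Cls) (g₀ : Ten E3 N) (U₀ : Set N)
    (g : ℝ → Ten E3 M) (b d : M → ℝ) (T ε lo hi h δ : ℝ),
    SG C (Surg ε lo hi h δ) g₀ U₀ g b d T → δ ≤ δ₀ → h ^ 2 * K < 1 / 2 →
    (∀ x ∈ U₀, PinchAt g₀ x τ ∧ Sc g₀ x ≤ K₀) →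
    ∀ W s, Sl b d 0 T W s → s ≤ t₀ → ∀ x ∈ W, Sc (g s) x ≤ K := by
  obtain ⟨δ₀, h0, K⟩ := exists_sg_pinch
  obtain ⟨δ₁, h1, K1⟩ := neck_curv one_half_pos
  refine ⟨min δ₀ δ₁, lt_min h0 h1, fun τ hτ K₀ => ?_⟩
  obtain ⟨B, B0, B1, B2⟩ : ∃ B > 0, K₀ ≤ B ∧ exp 4 / τ ≤ B :=
    ⟨max K₀ (exp 4 / τ), lt_max_of_lt_right (by positivity), le_max_left _ _, le_max_right _ _⟩
  refine ⟨2 * B, by positivity, 1 / (24 * B), by positivity,
    fun N _ _ _ M _ _ _ _ C g₀ U₀ g b d T ε lo hi h δ H hδ hh hp W s hW hs x hx => ?_⟩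
  have hb : ∀ u ≤ 1 / (24 * B), B + 24 * B ^ 2 * u ≤ 2 * B := fun u hu => by
    rw [le_div_iff₀ (by positivity)] at hu; nlinarith
  have hP := K N M C g₀ U₀ g b d T ε lo hi h δ τ H (hδ.trans (min_le_left _ _)) hτ
    fun x hx => (hp x hx).1
  refine (H.sf.ind_pt (P := fun s x => s ≤ 1 / (24 * B) → Sc (g s) x ≤ B + 24 * B ^ 2 * s) ?_
    (fun s t U h1 h2 k hc e q x hx ht => ?_) (fun t ht k => ?_) W s hW x hx hs).trans
    (hb s hs)
  · intro x hx _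
    obtain ⟨y, hy, e⟩ := H.init.sc (H.sf.met (sl_post ⟨le_rfl, H.sf.lt⟩)) hx
    linarith [(hp y hy).2]
  · refine rf_sc_le k hc hτ (fun u hu y hy => Pinch.mono (hP U u (e u hu) y hy) hτ
      (by linarith [hu.1])) (φ := fun u => B + 24 * B ^ 2 * u) (φ' := fun _ => 24 * B ^ 2)
      (fun u _ => by simpa using ((hasDerivAt_id u).const_mul (24 * B ^ 2)).const_add B)
      (fun u hu => ?_) (fun u hu => ?_) (fun y hy => q y hy (h2.le.trans ht)) t ⟨h2.le, le_rfl⟩ x hx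
    · have := hb u (hu.2.trans ht)
      have h3 : 0 ≤ 24 * B ^ 2 * u := mul_nonneg (by positivity) (h1.trans hu.1)
      nlinarith
    · linarith [mul_nonneg (show 0 ≤ 24 * B ^ 2 by positivity) (h1.trans hu.1)]
  · rcases H.sg t ht with e | ⟨φ, ψ, K', q, -⟩
    · exact e ▸ k
    · intro x _ h2
      obtain ⟨y, hy⟩ := exists_nrm zero_le_one
      have h3 := q.neck.dpos
      have h4 := mem_sphere_zero_iff_norm.2 hy
      have h5 := (abs_le.1 (K1 M _ _ φ h δ (H.sf.met (sl_pre ⟨ht.1, ht.2.le⟩)) q.neck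
        (hδ.trans (min_le_right _ _)) y (sphere_sub_anl (by positivity) h4)).1).1
      have h6 := (k _ (q.neck.emb.mem (sphere_sub_anl q.neck.inv_pos h4)) h2).trans (hb t h2)
      nlinarith [sq_nonneg h]

/-- the local data of the surgeries -/
theorem exists_srgL : ∃ c : ℕ → ℝ, (∀ j, 1 ≤ c j) ∧ ∀ η > 0, ∃ δ₀ > 0,
    ∀ (M : Type) [TopologicalSpace M] [ChartedSpace E3 M] [IsManifold 𝓘(ℝ, E3) ∞ M]
    [MeasurableSpace M] [BorelSpace M] (g : ℝ → Ten E3 M) (b d : M → ℝ) (T t ε lo hi h δ : ℝ),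
    SF g b d 0 T → t ∈ Ioo 0 T → δ ≤ δ₀ → 0 < h → (preS b d t = postS b d t ∨
      Surg ε lo hi h δ M g b t (preS b d t) (postS b d t)) → SrgL c g b d t h η := by
  obtain ⟨c, c1, K⟩ := tip_srd (a := 20) (by norm_num)
  refine ⟨c, c1, fun η hη => ?_⟩
  obtain ⟨δ₀, h0, K⟩ := K η hη
  refine ⟨min δ₀ (min η (1 / 25)), by positivity,
    fun M _ _ _ _ _ g b d T t ε lo hi h δ H ht hδ hh k => ?_⟩
  simp only [le_min_iff] at hδ
  have h1 : Sl b d 0 T _ t := sl_pre ⟨ht.1, ht.2.le⟩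
  have h2 : Sl b d 0 T _ t := sl_post ⟨ht.1.le, ht.2⟩
  rcases k with e | ⟨φ, ψ, K', q, -, hb⟩
  · exact ⟨fun z hz k => absurd k (e.superset hz).1.ne, fun V _ k _ k' => absurd (e ▸ k) k'⟩
  obtain ⟨k1, k2⟩ := K M _ _ ψ _ h δ (nk_of_neck (H.met h1) q.neck) hδ.1 (H.met h2) (H.sl_hs h2)
    q.cut.cap q.met
  refine ⟨fun z hz k => ⟨_, k1, ?_⟩, fun V a1 a2 a3 a4 => ?_⟩
  · obtain ⟨x, hx, rfl⟩ := q.diff.subset ⟨hz, fun p => p.1.ne k⟩
    exact k2 x hx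
  · obtain ⟨z, b1, -, b2⟩ := q.side.died q.neck hδ.2.2 (H.sl_hs h1) a1 a2
      (a3.imp fun p hp => ⟨hp.1, q.inter.subset ⟨a2 hp.1, hp.2⟩⟩)
      fun p => a4 (p.trans (q.inter.superset.trans inter_subset_right))
    refine ⟨z, b1, fun p hp => ?_⟩
    obtain ⟨x, hx, rfl⟩ := b2 (bl_mono (by have := q.neck.dpos; gcongr; exact hδ.2.1) hp)
    exact ⟨hb x hx, (q.neck.emb.mem hx).2⟩

end Vale.Agent.P216R
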