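import Vale.Agent.P216R.Weak
import Vale.Agent.P216R.Nat
import Vale.Agent.P216R.SF

/-!
# P216R: gluing Ricci flows in time, extension of flows with surgery
-/

open scoped Manifold ContDiff Topology
open Set Filter

set_option maxSynthPendingDepth 3

noncomputable section

namespace Vale.Agent.P216R

variable {E : Type} [NormedAddCommGroup E] [NormedSpace ℝ E] [FiniteDimensional ℝ E]
  {M : Type} [TopologicalSpace M] [ChartedSpace E M]
  {g g' h : ℝ → Ten E M} {U V : Set M} {I J : Set ℝ} {a b c : ℝ}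

theorem rf_congr (H : RF g I U) (e : ∀ t ∈ I, EqOn (g' t) (g t) U) : RF g' I U where
  toFam := H.toFam.congr e
  eqn t ht x hx := by
    rw [Ric_congr ((e t ht).eventuallyEq_of_mem (H.isOpen.mem_nhds hx))]
    exact (H.eqn t ht x hx).congr (fun s hs => e s hs hx) (e t ht hx)

theorem rf_empty (g : ℝ → Ten E M) (I : Set ℝ) : RF g I ∅ where
  isOpen := isOpen_empty
  symm _ _ _ h := h.elim
  pos _ _ _ h := h.elim
  smooth a := by simp [dom]
  eqn _ _ _ h := h.elim

/-- being a Ricci flow is local in space-time -/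
theorem rf_of_local (hU : IsOpen U)
    (H : ∀ t ∈ I, ∀ x ∈ U, ∃ J ∈ 𝓝[I] t, ∃ V, x ∈ V ∧ RF g J V) : RF g I U where
  isOpen := hU
  symm t ht x hx := by
    obtain ⟨J, h1, V, h2, h3⟩ := H t ht x hx
    exact h3.symm t (mem_of_mem_nhdsWithin ht h1) x h2
  pos t ht x hx := by
    obtain ⟨J, h1, V, h2, h3⟩ := H t ht x hx
    exact h3.pos t (mem_of_mem_nhdsWithin ht h1) x h2
  smooth a p hp := by
    obtain ⟨J, h1, V, h2, h3⟩ := H p.1 hp.1 _ hp.2.2
    have h4 : p.2 ∈ dom E a V := ⟨hp.2.1, h2⟩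
    refine (h3.smooth a p ⟨mem_of_mem_nhdsWithin hp.1 h1, h4⟩).mono_of_mem_nhdsWithin ?_
    rw [show p = (p.1, p.2) from rfl, nhdsWithin_prod_eq]
    exact prod_mem_prod h1 (mem_nhdsWithin_of_mem_nhds ((isOpen_dom a h3.isOpen).mem_nhds h4))
  eqn t ht x hx := by
    obtain ⟨J, h1, V, h2, h3⟩ := H t ht x hx
    exact (h3.eqn t (mem_of_mem_nhdsWithin ht h1) x h2).mono_of_mem_nhdsWithin h1

omit [FiniteDimensional ℝ E] in
theorem hasDerivWithinAt_comap {N : Type} [TopologicalSpace N] [ChartedSpace E N] (f : N → M)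
    {y : N} {B : Ten E M} {t : ℝ} (H : HasDerivWithinAt (fun s => g s (f y)) (B (f y)) I t) :
    HasDerivWithinAt (fun s => comap f (g s) y) (comap f B y) I t := by
  let L : Bil E →L[ℝ] Bil E :=
    ((ContinuousLinearMap.compL ℝ E (E →L[ℝ] ℝ) (E →L[ℝ] ℝ))
      ((ContinuousLinearMap.compL ℝ E E ℝ).flip (md E f y))).comp
      ((ContinuousLinearMap.compL ℝ E E (E →L[ℝ] ℝ)).flip (md E f y))
  exact L.hasFDerivAt.comp_hasDerivWithinAt t H

variable [IsManifold 𝓘(ℝ, E) ∞ M]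

/-- a family of metrics with jointly continuous spatial jets that solves the equation is a
smooth Ricci flow -/
theorem RF.of_weak (hI : Convex ℝ I) (hU : IsOpen U) (hm : ∀ t ∈ I, Met (g t) U)
    (hw : ∀ a, Wa I (dom E a U) 0 fun t => co (g t) a)
    (he : ∀ t ∈ I, ∀ x ∈ U, HasDerivWithinAt (fun s => g s x) ((-2 : ℝ) • Ric (g t) x) I t) :
    RF g I U where
  isOpen := hU
  symm t ht := (hm t ht).symm
  pos t ht := (hm t ht).pos
  smooth a := by
    refine contDiffOn_of_ricci hI (isOpen_dom a hU) (hw a)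
      (fun t ht => ((hm t ht).isMetricOn a).pos) fun t ht u hu => ?_
    have := hasDerivWithinAt_comap (B := (-2 : ℝ) • Ric (g t)) (chartAt E a).symm (he t ht _ hu.2)
    rw [comap_smul, Pi.smul_apply, ← co, (hm t ht).co_Ric hu] at this
    exact this
  eqn := he

/-- gluing along closed sets of times whose union is an interval -/
theorem RF.union (H : RF g I U) (H' : RF g J U) (hI : IsClosed I) (hJ : IsClosed J)
    (hc : Convex ℝ (I ∪ J)) : RF g (I ∪ J) U := by
  have key : ∀ {I : Set ℝ}, IsClosed I → RF g I U → ∀ t, ∀ x ∈ U,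
      HasDerivWithinAt (fun s => g s x) ((-2 : ℝ) • Ric (g t) x) I t := by
    intro I hI H t x hx
    by_cases ht : t ∈ I
    · exact H.eqn t ht x hx
    · exact HasFDerivWithinAt.of_notMem_closure (by rwa [hI.closure_eq])
  exact RF.of_weak hc H.isOpen (fun t ht => ht.elim H.toFam.met H'.toFam.met)
    (fun a => (wa_of_contDiffOn (isOpen_dom a H.isOpen) (H.smooth a) 0).union hI hJ
      (wa_of_contDiffOn (isOpen_dom a H.isOpen) (H'.smooth a) 0))
    fun t _ x hx => (key hI H t x hx).union (key hJ H' t x hx)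

theorem RF.tglue (H : RF g (Icc a b) U) (H' : RF g (Icc b c) U) (hab : a ≤ b) (hbc : b ≤ c) :
    RF g (Icc a c) U := by
  have := H.union H' isClosed_Icc isClosed_Icc
  rw [Icc_union_Icc_eq_Icc hab hbc] at this
  exact this (convex_Icc a c)

/-- continuation of `g` by `h` after the time `b` -/
def cat (g h : ℝ → Ten E M) (b : ℝ) : ℝ → Ten E M := fun t => if t ≤ b then g t else h t

omit [FiniteDimensional ℝ E] [TopologicalSpace M] [ChartedSpace E M] [IsManifold 𝓘(ℝ, E) ∞ M] in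
theorem cat_of_le {t : ℝ} (ht : t ≤ b) : cat g h b t = g t := if_pos ht

omit [FiniteDimensional ℝ E] [TopologicalSpace M] [ChartedSpace E M] [IsManifold 𝓘(ℝ, E) ∞ M] in
theorem cat_of_lt {t : ℝ} (ht : b < t) : cat g h b t = h t := if_neg (not_le.2 ht)

theorem RF.cat (H : RF g (Icc a b) U) (H' : RF h (Icc b c) U) (hab : a ≤ b) (hbc : b ≤ c)
    (e : EqOn (g b) (h b) U) : RF (cat g h b) (Icc a c) U := by
  refine RF.tglue (rf_congr H fun t ht => by rw [cat_of_le ht.2]; exact fun _ _ => rfl)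
    (rf_congr H' fun t ht => ?_) hab hbc
  rcases ht.1.eq_or_lt with rfl | hlt
  · rw [cat_of_le le_rfl]; exact e
  · rw [cat_of_lt hlt]; exact fun _ _ => rfl

variable {bb d : M → ℝ} {T₀ T₁ T₂ : ℝ}

omit [IsManifold 𝓘(ℝ, E) ∞ M] in
/-- a smooth flow on a compact slice is a flow with surgery -/
theorem exists_sf_of_rf (H : RF h (Icc T₀ T₁) U) (hT : T₀ < T₁) (hc : IsCompact U) (hH : Hs U) :
    ∃ g bb d, SF (E := E) g bb d T₀ T₁ ∧ Gap bb d T₀ T₁ ∧ Liv bb d T₀ T₁ = U ∧
      (∀ t ∈ Icc T₀ T₁, EqOn (g t) (h t) U) ∧ ∀ x ∉ U, d x < bb x := by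
  classical
  let bb : M → ℝ := fun x => if x ∈ U then T₀ else T₁
  let d : M → ℝ := fun x => if x ∈ U then T₁ else T₀
  let g : ℝ → Ten E M := fun t x => if x ∈ U ∧ t ∈ Icc T₀ T₁ then h t x else 0
  have e : ∀ t ∈ Icc T₀ T₁, EqOn (g t) (h t) U := fun t ht x hx => if_pos ⟨hx, ht⟩
  have hl : ∀ s t, s < t → Liv bb d s t = ∅ ∨ (Liv bb d s t = U ∧ T₀ ≤ s ∧ t ≤ T₁) := by
    intro s t hst
    by_cases h1 : T₀ ≤ s ∧ t ≤ T₁
    · refine Or.inr ⟨Set.ext fun x => ?_, h1⟩
      by_cases hx : x ∈ U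
      · simp [Liv, bb, d, hx, h1]
      · simp only [Liv, bb, d, hx, mem_ofPred_eq, if_false, iff_false]
        exact fun k => by linarith [k.1, k.2]
    · refine Or.inl (eq_empty_of_forall_notMem fun x hx => ?_)
      by_cases hx' : x ∈ U
      · exact h1 (by simpa [Liv, bb, d, hx'] using hx)
      · simp only [Liv, bb, d, hx', mem_ofPred_eq, if_false] at hx
        linarith [hx.1, hx.2]
  have hgap : Gap bb d T₀ T₁ := fun x => by by_cases hx : x ∈ U <;> simp [bb, d, hx]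
  have hU : Liv bb d T₀ T₁ = U := by
    ext x; by_cases hx : x ∈ U
    · simp [Liv, bb, d, hx]
    · simp [Liv, bb, d, hx, hT]
  refine ⟨g, bb, d, ⟨hT, (toFinite {T₀, T₁}).subset ?_, fun x => ?_, fun x t ht => ?_,
    fun s t hst _ => ?_, fun s t hst _ => ?_, fun t ht => ?_⟩, hgap, hU, e, fun x hx => ?_⟩
  · rintro _ (⟨x, rfl⟩ | ⟨x, rfl⟩) <;> by_cases hx : x ∈ U <;> simp [bb, d, hx]
  · by_cases hx : x ∈ U <;> simp [bb, hx, hT.le]
  · exact if_neg fun k => ht (by simpa [bb, d, k.1] using k.2)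
  · rcases hl s t hst with h1 | ⟨h1, h2, h3⟩ <;> rw [h1]
    · exact rf_empty _ _
    · exact SF.rf_sub (rf_congr H e) (Icc_subset_Icc h2 h3) H.isOpen Subset.rfl
  · rcases hl s t hst with h1 | ⟨h1, -⟩ <;> rw [h1]
    · exact pairwise_empty _
    · exact hH
  · by_cases h0 : T₀ ≤ t
    · rw [hgap.postS_eq ⟨h0, ht⟩, hU]; exact hc
    · convert isCompact_empty
      refine eq_empty_of_forall_notMem fun x hx => ?_
      have := hx.1
      by_cases hx' : x ∈ U <;> simp only [bb, hx', if_true, if_false] at this <;> linarith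
  · simp [bb, d, hx, hT]

/-- extension of a flow with surgery: at time `T₁` the slice is replaced by `U`, whose points are
either survivors with unchanged metric or points that were never alive -/
theorem SF.extend (H : SF g bb d T₀ T₁) (hT : T₁ < T₂) (hc : IsCompact U) (hH : Hs U)
    (H' : RF h (Icc T₁ T₂) U)
    (hU : ∀ x ∈ U, (x ∈ preS bb d T₁ ∧ h T₁ x = g T₁ x) ∨ d x < bb x) :
    ∃ g' b' d', SF (E := E) g' b' d' T₀ T₂ ∧ (∀ s < T₁, g' s = g s) ∧
      EqOn (g' T₁) (g T₁) (preS bb d T₁) ∧ (∀ t ∈ Icc T₁ T₂, EqOn (g' t) (h t) U) ∧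
      (∀ s t, s < t → t ≤ T₁ → Liv b' d' s t = Liv bb d s t) ∧
      (∀ t ≤ T₁, preS b' d' t = preS bb d t) ∧ (∀ t < T₁, postS b' d' t = postS bb d t) ∧
      Gap b' d' T₁ T₂ ∧ Liv b' d' T₁ T₂ = U ∧ (∀ x, bb x < T₁ → bb x ≤ d x → b' x = bb x) ∧
      ∀ x ∉ U, d x < bb x → d' x < b' x := by
  classical
  have h01 := H.lt
  let old : M → Prop := fun x => bb x < T₁ ∧ bb x ≤ d x
  let b' : M → ℝ := fun x => if old x then bb x else if x ∈ U then T₁ else T₂
  let d' : M → ℝ := fun x => if x ∈ U then T₂ else if old x then min (d x) T₁ else T₀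
  let g' : ℝ → Ten E M := fun t x =>
    if t ≤ T₁ ∧ old x then g t x else if x ∈ U ∧ t ∈ Icc T₁ T₂ then h t x else 0
  have hUo : ∀ x ∈ U, old x → x ∈ preS bb d T₁ ∧ h T₁ x = g T₁ x := fun x hx ho =>
    (hU x hx).resolve_right (not_lt.2 ho.2)
  have hb1 : ∀ x, ¬ old x → T₁ ≤ b' x := fun x ho => by
    simp only [b', ho, if_false]; split_ifs; exacts [le_rfl, hT.le]
  have hbo : ∀ x, old x → b' x = bb x := fun x ho => if_pos ho
  have hd1 : ∀ x ∉ U, d' x ≤ T₁ := fun x hx => by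
    simp only [d', hx, if_false]; split_ifs; exacts [min_le_right _ _, h01.le]
  have hdU : ∀ x ∈ U, d' x = T₂ := fun x hx => if_pos hx
  have hbU : ∀ x ∈ U, b' x ≤ T₁ := fun x hx => by
    by_cases ho : old x
    · exact (hbo x ho).trans_le ho.1.le
    · simp only [b', ho, hx, if_false, if_true, le_rfl]
  have hdo : ∀ x, old x → ∀ t ≤ T₁, t ≤ d' x ↔ t ≤ d x := fun x ho t ht => by
    by_cases hx : x ∈ U
    · exact iff_of_true (hdU x hx ▸ ht.trans hT.le) (ht.trans (hUo x hx ho).1.2)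
    · simp only [d', hx, ho, if_false, if_true, le_min_iff, ht, and_true]
  have e1 : ∀ s ≤ T₁, ∀ x, old x → g' s x = g s x := fun s hs x ho => if_pos ⟨hs, ho⟩
  have e2 : ∀ t ∈ Icc T₁ T₂, EqOn (g' t) (h t) U := fun t ht x hx => by
    by_cases k : t ≤ T₁ ∧ old x
    · obtain rfl : t = T₁ := le_antisymm k.1 ht.1
      exact (e1 _ le_rfl x k.2).trans (hUo x hx k.2).2.symm
    · simp only [g', k, hx, ht, if_false, and_self, if_true]
  have hliv : ∀ s t, s < t → t ≤ T₁ → Liv b' d' s t = Liv bb d s t := fun s t hst ht => by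
    ext x
    by_cases ho : old x
    · simp only [Liv, mem_ofPred_eq, hbo x ho, hdo x ho t ht]
    · exact iff_of_false (fun k => by linarith [hb1 x ho, k.1])
        fun k => ho ⟨by linarith [k.1], by linarith [k.1, k.2]⟩
  have hgap : Gap b' d' T₁ T₂ := fun x => by
    refine ⟨fun k => ?_, fun k => ?_⟩
    · by_cases ho : old x
      · linarith [hbo x ho, ho.1, k.1]
      · simp only [b', ho, if_false] at k
        split_ifs at k; exacts [lt_irrefl _ k.1, lt_irrefl _ k.2]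
    · by_cases hx : x ∈ U
      · linarith [hdU x hx, k.2]
      · linarith [hd1 x hx, k.1]
  have hnew : ∀ t ∈ Ioc T₁ T₂, Liv b' d' T₁ t = U := fun t ht => Set.ext fun x =>
    ⟨fun k => by_contra fun hx => by linarith [hd1 x hx, k.2, ht.1],
      fun hx => ⟨hbU x hx, hdU x hx ▸ ht.2⟩⟩
  have hsub : ∀ s, ∀ t ∈ Ioc T₁ T₂, Liv b' d' s t ⊆ U := fun s t ht x k =>
    by_contra fun hx => by linarith [hd1 x hx, k.2, ht.1]
  have hmid : ∀ s < T₁, ∀ t ∈ Ioc T₁ T₂, Liv b' d' s t = Liv bb d s T₁ ∩ U := fun s hs t ht => by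
    rw [← hliv s T₁ hs le_rfl]
    exact Set.ext fun x => ⟨fun k => ⟨⟨k.1, ht.1.le.trans k.2⟩, hsub s t ht k⟩,
      fun k => ⟨k.1.1, hdU x k.2 ▸ ht.2⟩⟩
  have hlate : ∀ s, T₁ ≤ s → ∀ t, s < t → t ≤ T₂ → Liv b' d' s t = U := fun s hs t hst ht =>
    (hsub s t ⟨hs.trans_lt hst, ht⟩).antisymm
      ((hnew t ⟨hs.trans_lt hst, ht⟩).ge.trans (liv_mono hs le_rfl))
  have hrf1 : ∀ s t, s < t → t ≤ T₁ → RF g' (Icc s t) (Liv bb d s t) := fun s t hst ht =>
    rf_congr (H.rf s t hst ht) fun u hu x hx =>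
      e1 u (hu.2.trans ht) x ⟨by linarith [hx.1], by linarith [hx.1, hx.2]⟩
  have hrf2 := rf_congr H' e2
  have hpost : ∀ t < T₁, postS b' d' t = postS bb d t := fun t ht => by
    ext x
    by_cases ho : old x
    · simp only [postS, mem_ofPred_eq, hbo x ho]
      refine and_congr_right fun _ => ⟨fun k => ?_, fun k => ?_⟩
      · exact (lt_min k ht).trans_le ((hdo x ho _ (min_le_right _ _)).1 (min_le_left _ _))
      · exact (lt_min k ht).trans_le ((hdo x ho _ (min_le_right _ _)).2 (min_le_left _ _))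
    · exact iff_of_false (fun k => by linarith [hb1 x ho, k.1])
        fun k => ho ⟨by linarith [k.1], by linarith [k.1, k.2]⟩
  refine ⟨g', b', d', ⟨h01.trans hT, ?_, fun x => ?_, fun x t ht => ?_, fun s t hst ht => ?_,
    fun s t hst ht => ?_, fun t ht => ?_⟩, fun s hs => funext fun x => ?_,
    fun x hx => e1 _ le_rfl x ⟨hx.1, hx.1.le.trans hx.2⟩, e2, hliv, fun t ht => ?_, hpost, hgap,
    hnew T₂ ⟨hT, le_rfl⟩, fun x h1 h2 => hbo x ⟨h1, h2⟩, fun x hx k => ?_⟩
  · refine (H.fin.union (toFinite {T₀, T₁, T₂})).subset ?_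
    rintro _ (⟨x, rfl⟩ | ⟨x, rfl⟩)
    · simp only [b']; split_ifs <;> simp
    · simp only [d']; split_ifs
      · simp
      · rcases min_choice (d x) T₁ with k | k <;> simp [k]
      · simp
  · by_cases ho : old x
    · exact (H.ge x).trans (hbo x ho).ge
    · exact h01.le.trans (hb1 x ho)
  · by_cases k : t ≤ T₁ ∧ old x
    · rw [e1 t k.1 x k.2]
      exact H.dead x t fun m => ht ⟨hbo x k.2 ▸ m.1, (hdo x k.2 t k.1).2 m.2⟩
    · simp only [g', k, if_false]
      exact if_neg fun m : x ∈ U ∧ t ∈ Icc T₁ T₂ =>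
        ht ⟨(hbU x m.1).trans m.2.1, m.2.2.trans (hdU x m.1).ge⟩
  · rcases le_or_gt t T₁ with h1 | h1
    · rw [hliv s t hst h1]; exact hrf1 s t hst h1
    rcases lt_or_ge s T₁ with h2 | h2
    · rw [hmid s h2 t ⟨h1, ht⟩]
      have ho := (H.isOpen_liv h2 le_rfl).inter H'.isOpen
      exact (SF.rf_sub (hrf1 s T₁ h2 le_rfl) Subset.rfl ho inter_subset_left).tglue
        (SF.rf_sub hrf2 (Icc_subset_Icc le_rfl ht) ho inter_subset_right) h2.le h1.le
    · rw [hlate s h2 t hst ht]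
      exact SF.rf_sub hrf2 (Icc_subset_Icc h2 ht) H'.isOpen Subset.rfl
  · rcases le_or_gt t T₁ with h1 | h1
    · rw [hliv s t hst h1]; exact H.hs s t hst h1
    · exact hH.mono (hsub s t ⟨h1, ht⟩)
  · rcases lt_or_ge t T₁ with h1 | h1
    · rw [hpost t h1]; exact H.cpt t h1
    · rw [hgap.postS_eq ⟨h1, ht⟩, hnew T₂ ⟨hT, le_rfl⟩]; exact hc
  · by_cases ho : old x
    · exact e1 s hs.le x ho
    · rw [H.dead x s fun m => ho ⟨m.1.trans_lt hs, m.1.trans m.2⟩]
      simp only [g', ho, and_false, if_false]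
      exact if_neg fun m => absurd m.2.1 (not_le.2 hs)
  · ext x
    by_cases ho : old x
    · simp only [preS, mem_ofPred_eq, hbo x ho, hdo x ho t ht]
    · exact iff_of_false (fun k => by linarith [hb1 x ho, k.1])
        fun k => ho ⟨by linarith [k.1], by linarith [k.1, k.2]⟩
  · have ho : ¬ old x := fun ho => absurd ho.2 (not_le.2 k)
    simp only [b', d', ho, hx, if_false]
    exact h01.trans hT

end Vale.Agent.P216R
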