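import Vale.Agent.P216R.Loc

/-!
# P216R: joint smoothness from continuity of the spatial jets and an evolution equation
-/

open scoped ContDiff Topology
open Set Filter Metric Asymptotics

set_option maxSynthPendingDepth 3

noncomputable section

namespace Vale.Agent.P216R

open Vale.Agent.P219.RG

variable {X : Type} [NormedAddCommGroup X] [NormedSpace ℝ X]

/-- the spatial derivatives of order `≤ k` of `f` exist and are jointly `C^n` on `I × V` -/
def Wk (I : Set ℝ) (V : Set X) (n : ℕ) :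
    (k : ℕ) → ∀ {Y : Type} [NormedAddCommGroup Y] [NormedSpace ℝ Y], (ℝ → X → Y) → Prop
  | 0, _, _, _, f => ContDiffOn ℝ n (fun p : ℝ × X => f p.1 p.2) (I ×ˢ V)
  | k + 1, _, _, _, f => ContDiffOn ℝ n (fun p : ℝ × X => f p.1 p.2) (I ×ˢ V) ∧
      (∀ t ∈ I, ∀ x ∈ V, DifferentiableAt ℝ (f t) x) ∧ Wk I V n k fun t => fderiv ℝ (f t)

variable {I J : Set ℝ} {V : Set X} {n k : ℕ}
  {Y : Type} [NormedAddCommGroup Y] [NormedSpace ℝ Y]
  {Z : Type} [NormedAddCommGroup Z] [NormedSpace ℝ Z]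
  {W : Type} [NormedAddCommGroup W] [NormedSpace ℝ W]

theorem Wk.cd {f : ℝ → X → Y} (h : Wk I V n k f) :
    ContDiffOn ℝ n (fun p : ℝ × X => f p.1 p.2) (I ×ˢ V) := by
  cases k with
  | zero => exact h
  | succ k => exact h.1

theorem Wk.pred {f : ℝ → X → Y} (h : Wk I V n (k + 1) f) : Wk I V n k f := by
  induction k generalizing Y with
  | zero => exact h.1
  | succ k ih => exact ⟨h.1, h.2.1, ih h.2.2⟩

theorem Wk.congr (hV : IsOpen V) {f g : ℝ → X → Y} (h : Wk I V n k f)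
    (e : ∀ t ∈ I, ∀ x ∈ V, g t x = f t x) : Wk I V n k g := by
  induction k generalizing Y with
  | zero => exact ContDiffOn.congr h fun p hp => e _ hp.1 _ hp.2
  | succ k ih =>
    have e' : ∀ t ∈ I, ∀ x ∈ V, g t =ᶠ[𝓝 x] f t := fun t ht x hx =>
      eventually_of_mem (hV.mem_nhds hx) (e t ht)
    exact ⟨h.1.congr fun p hp => e _ hp.1 _ hp.2,
      fun t ht x hx => (h.2.1 t ht x hx).congr_of_eventuallyEq (e' t ht x hx),
      ih h.2.2 fun t ht x hx => (e' t ht x hx).fderiv_eq⟩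

theorem wk_comp_prod (hV : IsOpen V) (k : ℕ) :
    (∀ {Y Z : Type} [NormedAddCommGroup Y] [NormedSpace ℝ Y] [NormedAddCommGroup Z]
      [NormedSpace ℝ Z] {f : ℝ → X → Y} {Φ : Y → Z}, Wk I V n k f →
      (∀ t ∈ I, ∀ x ∈ V, ContDiffAt ℝ ∞ Φ (f t x)) → Wk I V n k fun t x => Φ (f t x)) ∧
    ∀ {Y Z : Type} [NormedAddCommGroup Y] [NormedSpace ℝ Y] [NormedAddCommGroup Z]
      [NormedSpace ℝ Z] {f : ℝ → X → Y} {g : ℝ → X → Z}, Wk I V n k f → Wk I V n k g →
      Wk I V n k fun t x => (f t x, g t x) := by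
  have c0 : ∀ {Y Z : Type} [NormedAddCommGroup Y] [NormedSpace ℝ Y] [NormedAddCommGroup Z]
      [NormedSpace ℝ Z] {f : ℝ → X → Y} {Φ : Y → Z},
      ContDiffOn ℝ n (fun p : ℝ × X => f p.1 p.2) (I ×ˢ V) →
      (∀ t ∈ I, ∀ x ∈ V, ContDiffAt ℝ ∞ Φ (f t x)) →
      ContDiffOn ℝ n (fun p : ℝ × X => Φ (f p.1 p.2)) (I ×ˢ V) := fun h hΦ p hp =>
    ((hΦ _ hp.1 _ hp.2).of_le (by exact_mod_cast le_top)).comp_contDiffWithinAt p (h p hp)
  induction k with
  | zero => exact ⟨fun h hΦ => c0 h hΦ, fun h h' => ContDiffOn.prodMk h h'⟩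
  | succ k ih =>
    refine ⟨fun {Y Z _ _ _ _ f Φ} h hΦ => ⟨c0 h.1 hΦ, fun t ht x hx =>
      ((hΦ t ht x hx).differentiableAt (by simp)).comp x (h.2.1 t ht x hx), ?_⟩,
      fun {Y Z _ _ _ _ f g} h h' => ⟨h.1.prodMk h'.1, fun t ht x hx =>
        (h.2.1 t ht x hx).prodMk (h'.2.1 t ht x hx), ?_⟩⟩
    · refine (ih.1 (Φ := fun q : Y × (X →L[ℝ] Y) => (fderiv ℝ Φ q.1).comp q.2)
        (ih.2 h.pred h.2.2) fun t ht x hx => ?_).congr hV fun t ht x hx => ?_
      · exact (ContDiffAt.comp (g := fderiv ℝ Φ) (f := Prod.fst) _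
          ((hΦ t ht x hx).fderiv_right (m := ∞) (by simp)) contDiffAt_fst).clm_comp contDiffAt_snd
      · exact fderiv_comp x ((hΦ t ht x hx).differentiableAt (by simp)) (h.2.1 t ht x hx)
    · refine (ih.1 (Φ := ContinuousLinearMap.prodₗᵢ (𝕜 := ℝ) (E := X) (F := Y) (G := Z) ℝ)
        (ih.2 h.2.2 h'.2.2) fun t ht x hx => ?_).congr hV fun t ht x hx => ?_
      · exact (LinearIsometryEquiv.contDiff _).contDiffAt
      · exact (h.2.1 t ht x hx).fderiv_prodMk (h'.2.1 t ht x hx)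

/-- all spatial derivatives of `f` exist and are jointly `C^n` on `I × V` -/
def Wa (I : Set ℝ) (V : Set X) (n : ℕ) (f : ℝ → X → Y) : Prop := ∀ k, Wk I V n k f

namespace Wa

variable {f f' : ℝ → X → Y} {g : ℝ → X → Z}

theorem cd (h : Wa I V n f) : ContDiffOn ℝ n (fun p : ℝ × X => f p.1 p.2) (I ×ˢ V) := h 0

theorem cont (h : Wa I V n f) : ContinuousOn (fun p : ℝ × X => f p.1 p.2) (I ×ˢ V) :=
  h.cd.continuousOn

theorem diff (h : Wa I V n f) {t : ℝ} (ht : t ∈ I) {x : X} (hx : x ∈ V) :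
    DifferentiableAt ℝ (f t) x := (h 1).2.1 t ht x hx

theorem fderiv (h : Wa I V n f) : Wa I V n fun t => fderiv ℝ (f t) := fun k => (h (k + 1)).2.2

theorem congr (hV : IsOpen V) (h : Wa I V n f) (e : ∀ t ∈ I, ∀ x ∈ V, f' t x = f t x) :
    Wa I V n f' := fun k => (h k).congr hV e

theorem comp (hV : IsOpen V) (h : Wa I V n f) {Φ : Y → Z}
    (hΦ : ∀ t ∈ I, ∀ x ∈ V, ContDiffAt ℝ ∞ Φ (f t x)) : Wa I V n fun t x => Φ (f t x) :=
  fun k => (wk_comp_prod hV k).1 (h k) hΦ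

theorem prod (hV : IsOpen V) (h : Wa I V n f) (h' : Wa I V n g) :
    Wa I V n fun t x => (f t x, g t x) := fun k => (wk_comp_prod hV k).2 (h k) (h' k)

theorem map (hV : IsOpen V) (h : Wa I V n f) {Φ : Y → Z} (hΦ : ContDiff ℝ ∞ Φ) :
    Wa I V n fun t x => Φ (f t x) := h.comp hV fun _ _ _ _ => hΦ.contDiffAt

theorem map₂ (hV : IsOpen V) (h : Wa I V n f) (h' : Wa I V n g) {Φ : Y × Z → W}
    (hΦ : ContDiff ℝ ∞ Φ) : Wa I V n fun t x => Φ (f t x, g t x) := (h.prod hV h').map hV hΦ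

end Wa

/-- jointly smooth functions have jointly smooth spatial jets -/
theorem wa_of_contDiffOn (hV : IsOpen V) {f : ℝ → X → Y}
    (h : ContDiffOn ℝ ∞ (fun p : ℝ × X => f p.1 p.2) (I ×ˢ V)) (n : ℕ) : Wa I V n f := by
  intro k
  induction k generalizing Y with
  | zero => exact h.of_le (by exact_mod_cast le_top)
  | succ k ih =>
    have hp : ∀ t ∈ I, ∀ x ∈ V, PS f I t x := fun t ht x hx => by
      refine (h (t, x) ⟨ht, hx⟩).mono_of_mem_nhdsWithin ?_
      filter_upwards [self_mem_nhdsWithin, mem_nhdsWithin_of_mem_nhds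
        (continuous_snd.continuousAt.preimage_mem_nhds (hV.mem_nhds hx))] with q h1 h2
      exact ⟨h1.1, h2⟩
    refine ⟨h.of_le (by exact_mod_cast le_top),
      fun t ht x hx => ((hp t ht x hx).contDiffAt ht).differentiableAt (by simp), ih ?_⟩
    exact fun p hq => ((hp _ hq.1 _ hq.2).fderiv hq.1).mono (prod_mono Subset.rfl (subset_univ _))

/-- gluing of two closed time sets -/
theorem Wa.union (hI : IsClosed I) (hJ : IsClosed J) {f : ℝ → X → Y} (h : Wa I V 0 f)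
    (h' : Wa J V 0 f) : Wa (I ∪ J) V 0 f := by
  have key : ∀ {Y : Type} [NormedAddCommGroup Y] [NormedSpace ℝ Y] {f : ℝ × X → Y} {I : Set ℝ},
      IsClosed I → ContinuousOn f (I ×ˢ V) → ∀ p : ℝ × X, p.2 ∈ V →
      ContinuousWithinAt f (I ×ˢ V) p := by
    intro Y _ _ f I hI h p hp
    by_cases hp1 : p.1 ∈ I
    · exact h p ⟨hp1, hp⟩
    · exact continuousWithinAt_of_notMem_closure fun hc => hp1
        (closure_minimal (prod_mono Subset.rfl (subset_univ _)) (hI.prod isClosed_univ) hc).1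
  have c0 : ∀ {Y : Type} [NormedAddCommGroup Y] [NormedSpace ℝ Y] {f : ℝ × X → Y},
      ContDiffOn ℝ (0 : ℕ) f (I ×ˢ V) → ContDiffOn ℝ (0 : ℕ) f (J ×ˢ V) →
      ContDiffOn ℝ (0 : ℕ) f ((I ∪ J) ×ˢ V) := by
    intro Y _ _ f h h'
    rw [Nat.cast_zero, contDiffOn_zero] at h h' ⊢
    intro p hp
    rw [union_prod]
    exact (key hI h p hp.2).union (key hJ h' p hp.2)
  intro k
  induction k generalizing Y with
  | zero => exact c0 h.cd h'.cd
  | succ k ih =>
    exact ⟨c0 h.cd h'.cd, fun t ht x hx => ht.elim (fun ht => h.diff ht hx) fun ht => h'.diff ht hx,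
      ih h.fderiv h'.fderiv⟩

omit [NormedSpace ℝ X] [NormedSpace ℝ Y] in
/-- a box on which a continuous function is close to its value -/
theorem exists_box {F : ℝ → X → Y} (hV : IsOpen V)
    (h : ContinuousOn (fun p : ℝ × X => F p.1 p.2) (I ×ˢ V)) {t : ℝ} (ht : t ∈ I) {x : X}
    (hx : x ∈ V) {ε : ℝ} (hε : 0 < ε) : ∃ r > 0, ball x r ⊆ V ∧
      ∀ s ∈ I ∩ ball t r, ∀ y ∈ ball x r, ‖F s y - F t x‖ ≤ ε := by
  obtain ⟨r₁, h1, h2⟩ := Metric.isOpen_iff.1 hV x hx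
  obtain ⟨r₂, h3, h4⟩ := Metric.continuousWithinAt_iff.1 (h (t, x) ⟨ht, hx⟩) ε hε
  refine ⟨min r₁ r₂, lt_min h1 h3, (ball_subset_ball (min_le_left _ _)).trans h2,
    fun s hs y hy => ?_⟩
  have := h4 (x := (s, y)) ⟨hs.1, h2 (ball_subset_ball (min_le_left _ _) hy)⟩
    (max_lt (lt_min_iff.1 hs.2).2 (lt_min_iff.1 hy).2)
  rw [dist_eq_norm] at this
  exact this.le

/-- continuous time derivative and spatial derivative give the full derivative -/
theorem hasFDerivWithinAt_of_time (hI : Convex ℝ I) (hV : IsOpen V) {f F : ℝ → X → Y}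
    (hF : ContinuousOn (fun p : ℝ × X => F p.1 p.2) (I ×ˢ V))
    (hd : ∀ t ∈ I, ∀ x ∈ V, HasDerivWithinAt (fun s => f s x) (F t x) I t)
    {t : ℝ} (ht : t ∈ I) {x : X} (hx : x ∈ V) (hs : DifferentiableAt ℝ (f t) x) :
    HasFDerivWithinAt (fun p : ℝ × X => f p.1 p.2)
      ((ContinuousLinearMap.fst ℝ ℝ X).smulRight (F t x) +
        (fderiv ℝ (f t) x).comp (ContinuousLinearMap.snd ℝ ℝ X)) (I ×ˢ V) (t, x) := by
  have h2 : HasFDerivWithinAt (fun p : ℝ × X => f t p.2)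
      ((fderiv ℝ (f t) x).comp (ContinuousLinearMap.snd ℝ ℝ X)) (I ×ˢ V) (t, x) :=
    (HasFDerivAt.comp (t, x) (g := f t) hs.hasFDerivAt hasFDerivAt_snd).hasFDerivWithinAt
  have h1 : HasFDerivWithinAt (fun p : ℝ × X => f p.1 p.2 - f t p.2)
      ((ContinuousLinearMap.fst ℝ ℝ X).smulRight (F t x)) (I ×ˢ V) (t, x) := by
    rw [hasFDerivWithinAt_iff_isLittleO, isLittleO_iff]
    intro ε hε
    obtain ⟨r, r0, h3, h4⟩ := exists_box hV hF ht hx hε
    filter_upwards [self_mem_nhdsWithin, mem_nhdsWithin_of_mem_nhds (ball_mem_nhds (t, x) r0)]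
      with p hp hq
    rw [← ball_prod_same] at hq
    have := (hI.inter (convex_ball t r)).norm_image_sub_le_of_norm_hasDerivWithin_le
      (f := fun s => f s p.2 - (s - t) • F t x) (f' := fun s => F s p.2 - F t x) (C := ε)
      (fun s hs => ((hd s hs.1 _ hp.2).mono inter_subset_left).sub (by
        simpa using (((hasDerivAt_id s).sub_const t).smul_const (F t x)).hasDerivWithinAt))
      (fun s hs => h4 s hs _ hq.2) ⟨ht, mem_ball_self r0⟩ ⟨hp.1, hq.1⟩
    refine le_trans (le_of_eq ?_) (this.trans (mul_le_mul_of_nonneg_left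
      (norm_fst_le (p - (t, x))) hε.le))
    congr 1
    simp
    abel
  exact (h1.add h2).congr (fun p _ => by simp) (by simp)

/-- the time derivative commutes with the spatial derivative -/
theorem hasDerivWithinAt_fderiv (hI : Convex ℝ I) (hV : IsOpen V) {f F : ℝ → X → Y}
    (hF : ContinuousOn (fun p : ℝ × X => fderiv ℝ (F p.1) p.2) (I ×ˢ V))
    (hf : ∀ t ∈ I, ∀ x ∈ V, DifferentiableAt ℝ (f t) x)
    (hF' : ∀ t ∈ I, ∀ x ∈ V, DifferentiableAt ℝ (F t) x)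
    (hd : ∀ t ∈ I, ∀ x ∈ V, HasDerivWithinAt (fun s => f s x) (F t x) I t)
    {t : ℝ} (ht : t ∈ I) {x : X} (hx : x ∈ V) :
    HasDerivWithinAt (fun s => fderiv ℝ (f s) x) (fderiv ℝ (F t) x) I t := by
  rw [hasDerivWithinAt_iff_isLittleO, isLittleO_iff]
  intro ε hε
  obtain ⟨r, r0, h3, h4⟩ := exists_box (F := fun t => fderiv ℝ (F t)) hV hF ht hx (half_pos hε)
  filter_upwards [self_mem_nhdsWithin, mem_nhdsWithin_of_mem_nhds (ball_mem_nhds t r0)]
    with s hs hs'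
  have e : HasFDerivAt (fun y => f s y - f t y - (s - t) • F t y)
      (fderiv ℝ (f s) x - fderiv ℝ (f t) x - (s - t) • fderiv ℝ (F t) x) x :=
    ((hf s hs x hx).hasFDerivAt.sub (hf t ht x hx).hasFDerivAt).sub
      ((hF' t ht x hx).hasFDerivAt.const_smul (s - t))
  refine e.le_of_lip' (by positivity) ?_
  filter_upwards [ball_mem_nhds x r0] with y hy
  have h5 : ∀ u ∈ I ∩ ball t r, ‖F u y - F u x - (F t y - F t x)‖ ≤ ε * ‖y - x‖ := by
    intro u hu
    have := (convex_ball x r).norm_image_sub_le_of_norm_hasFDerivWithin_le (𝕜 := ℝ)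
      (f := fun z => F u z - F t z) (f' := fun z => fderiv ℝ (F u) z - fderiv ℝ (F t) z) (C := ε)
      (fun z hz => ((hF' u hu.1 z (h3 hz)).hasFDerivAt.sub
        (hF' t ht z (h3 hz)).hasFDerivAt).hasFDerivWithinAt)
      (fun z hz => by
        have a1 := h4 u hu z hz
        have a2 := h4 t ⟨ht, mem_ball_self r0⟩ z hz
        have := norm_sub_le (fderiv ℝ (F u) z - fderiv ℝ (F t) x) (fderiv ℝ (F t) z - fderiv ℝ (F t) x)
        rw [sub_sub_sub_cancel_right] at this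
        linarith) (mem_ball_self r0) hy
    refine le_trans (le_of_eq ?_) this
    congr 1; abel
  have := (hI.inter (convex_ball t r)).norm_image_sub_le_of_norm_hasDerivWithin_le
    (f := fun u => f u y - f u x - (u - t) • (F t y - F t x))
    (f' := fun u => F u y - F u x - (F t y - F t x)) (C := ε * ‖y - x‖)
    (fun u hu => (((hd u hu.1 _ (h3 hy)).sub (hd u hu.1 _ hx)).mono inter_subset_left).sub (by
      simpa using (((hasDerivAt_id u).sub_const t).smul_const (F t y - F t x)).hasDerivWithinAt))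
    h5 ⟨ht, mem_ball_self r0⟩ ⟨hs, hs'⟩
  refine le_trans (le_of_eq ?_) (this.trans (le_of_eq (by ring)))
  congr 1
  simp only [sub_self, zero_smul, smul_sub]
  abel

theorem Wa.succ (hI : Convex ℝ I) (hV : IsOpen V) {f F : ℝ → X → Y} (hf : Wa I V n f)
    (hF : Wa I V n F) (hd : ∀ t ∈ I, ∀ x ∈ V, HasDerivWithinAt (fun s => f s x) (F t x) I t) :
    Wa I V (n + 1) f := by
  have c0 : ∀ {Y : Type} [NormedAddCommGroup Y] [NormedSpace ℝ Y] {f F : ℝ → X → Y},
      Wa I V n f → Wa I V n F →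
      (∀ t ∈ I, ∀ x ∈ V, HasDerivWithinAt (fun s => f s x) (F t x) I t) →
      ContDiffOn ℝ (n + 1 : ℕ) (fun p : ℝ × X => f p.1 p.2) (I ×ˢ V) := by
    intro Y _ _ f F hf hF hd
    rw [Nat.cast_succ, contDiffOn_succ_iff_hasFDerivWithinAt (by simp)]
    intro p hp
    refine ⟨I ×ˢ V, by rw [insert_eq_of_mem hp]; exact self_mem_nhdsWithin, by simp,
      fun p => (ContinuousLinearMap.fst ℝ ℝ X).smulRight (F p.1 p.2) +
        (_root_.fderiv ℝ (f p.1) p.2).comp (ContinuousLinearMap.snd ℝ ℝ X),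
      fun q hq => hasFDerivWithinAt_of_time hI hV hF.cont hd hq.1 hq.2 (hf.diff hq.1 hq.2), ?_⟩
    exact ((ContinuousLinearMap.smulRightL ℝ (ℝ × X) Y
      (ContinuousLinearMap.fst ℝ ℝ X)).contDiff.comp_contDiffOn hF.cd).add
      (hf.fderiv.cd.clm_comp contDiffOn_const)
  intro k
  induction k generalizing Y with
  | zero => exact c0 hf hF hd
  | succ k ih =>
    exact ⟨c0 hf hF hd, fun t ht x hx => hf.diff ht hx, ih hf.fderiv hF.fderiv
      fun t ht x hx => hasDerivWithinAt_fderiv hI hV hF.fderiv.cont (fun _ ht _ hx => hf.diff ht hx)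
        (fun _ ht _ hx => hF.diff ht hx) hd ht hx⟩

/-- bootstrap: continuous spatial jets and an evolution equation give joint smoothness -/
theorem contDiffOn_of_wa (hI : Convex ℝ I) (hV : IsOpen V) {f F : ℝ → X → Y} (hf : Wa I V 0 f)
    (hF : ∀ n, Wa I V n f → Wa I V n F)
    (hd : ∀ t ∈ I, ∀ x ∈ V, HasDerivWithinAt (fun s => f s x) (F t x) I t) :
    ContDiffOn ℝ ∞ (fun p : ℝ × X => f p.1 p.2) (I ×ˢ V) := by
  have key : ∀ n, Wa I V n f := fun n => by
    induction n with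
    | zero => exact hf
    | succ n ih => exact ih.succ hI hV (hF n ih) hd
  exact contDiffOn_infty.2 fun n => (key n).cd

section Curv

variable [FiniteDimensional ℝ X] {G : ℝ → X → Bil X}

theorem Wa.inverse (hV : IsOpen V) (h : Wa I V n G)
    (hp : ∀ t ∈ I, ∀ x ∈ V, ∀ v, v ≠ 0 → 0 < G t x v v) : Wa I V n fun t x => (G t x).inverse := by
  have : CompleteSpace X := FiniteDimensional.complete ℝ X
  exact h.comp hV fun t ht x hx => (isInv (hp t ht x hx)).contDiffAt_map_inverse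

theorem Wa.chrisB (hV : IsOpen V) (h : Wa I V n G)
    (hp : ∀ t ∈ I, ∀ x ∈ V, ∀ v, v ≠ 0 → 0 < G t x v v) : Wa I V n fun t => chrisB (G t) := by
  have hf : ContDiff ℝ ∞ fun A : X →L[ℝ] X →L[ℝ] X →L[ℝ] ℝ => A.flip :=
    (ContinuousLinearMap.flipₗᵢ ℝ X X (X →L[ℝ] ℝ)).toContinuousLinearEquiv.contDiff
  refine (h.inverse hV hp).map₂ hV h.fderiv
    (Φ := fun q => (ContinuousLinearMap.compL ℝ X (X →L[ℝ] ℝ) X q.1) ∘L
      ((1 / 2 : ℝ) • (q.2 + q.2.flip - (ContinuousLinearMap.flipₗᵢ ℝ X X ℝ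
        ).toContinuousLinearEquiv.toContinuousLinearMap ∘L q.2.flip))) ?_
  exact ((ContinuousLinearMap.compL ℝ X (X →L[ℝ] ℝ) X).contDiff.comp contDiff_fst).clm_comp
    (((contDiff_snd.add (hf.comp contDiff_snd)).sub
      (contDiff_const.clm_comp (hf.comp contDiff_snd))).const_smul _)

theorem Wa.curvB (hV : IsOpen V) (h : Wa I V n G)
    (hp : ∀ t ∈ I, ∀ x ∈ V, ∀ v, v ≠ 0 → 0 < G t x v v) : Wa I V n fun t => curvB (G t) := by
  have hc := h.chrisB hV hp
  have hf : ContDiff ℝ ∞ fun A : X →L[ℝ] X →L[ℝ] X →L[ℝ] X => A.flip :=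
    (ContinuousLinearMap.flipₗᵢ ℝ X X (X →L[ℝ] X)).toContinuousLinearEquiv.contDiff
  have hf' : ContDiff ℝ ∞ fun A : X →L[ℝ] (X →L[ℝ] X) →L[ℝ] X →L[ℝ] X => A.flip :=
    (ContinuousLinearMap.flipₗᵢ ℝ X (X →L[ℝ] X) (X →L[ℝ] X)).toContinuousLinearEquiv.contDiff
  have hb : ContDiff ℝ ∞ fun A : X →L[ℝ] X →L[ℝ] X =>
      (ContinuousLinearMap.compL ℝ X X X).bilinearComp A A :=
    hf.comp ((hf'.comp (contDiff_const.clm_comp contDiff_id)).clm_comp contDiff_id)
  have h1 : ContDiff ℝ ∞ fun q : (X →L[ℝ] X →L[ℝ] X →L[ℝ] X) × (X →L[ℝ] X →L[ℝ] X) =>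
      q.1 + (ContinuousLinearMap.compL ℝ X X X).bilinearComp q.2 q.2 :=
    contDiff_fst.add (hb.comp contDiff_snd)
  exact hc.fderiv.map₂ hV hc (h1.sub (hf.comp h1))

theorem Wa.ricG (hV : IsOpen V) (h : Wa I V n G)
    (hp : ∀ t ∈ I, ∀ x ∈ V, ∀ v, v ≠ 0 → 0 < G t x v v) : Wa I V n fun t => ricG (G t) := by
  have hf : ContDiff ℝ ∞ fun A : X →L[ℝ] X →L[ℝ] X →L[ℝ] X => A.flip :=
    (ContinuousLinearMap.flipₗᵢ ℝ X X (X →L[ℝ] X)).toContinuousLinearEquiv.contDiff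
  exact (h.curvB hV hp).map hV (contDiff_const.clm_comp (contDiff_const.clm_comp hf))

/-- weak solutions of the Ricci flow equation in a chart are smooth -/
theorem contDiffOn_of_ricci (hI : Convex ℝ I) (hV : IsOpen V) (h : Wa I V 0 G)
    (hp : ∀ t ∈ I, ∀ x ∈ V, ∀ v, v ≠ 0 → 0 < G t x v v)
    (hd : ∀ t ∈ I, ∀ x ∈ V,
      HasDerivWithinAt (fun s => G s x) ((-2 : ℝ) • P216R.ricG (G t) x) I t) :
    ContDiffOn ℝ ∞ (fun p : ℝ × X => G p.1 p.2) (I ×ˢ V) :=
  contDiffOn_of_wa hI hV h (F := fun t x => (-2 : ℝ) • P216R.ricG (G t) x)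
    (fun _ h => (h.ricG hV hp).map hV (contDiff_id.const_smul (-2 : ℝ))) hd

end Curv

end Vale.Agent.P216R
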